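import Vale.Agent.Lib.P183.Defs

namespace Vale.Agent.Lib.P183

/-- The unary algebra on `α` with the `k` unary operations `f i`. -/
def unaryAlg {α : Type} [Fintype α] [Nonempty α] (k : ℕ) (f : Fin k → α → α) : FinAlg where
  carrier := α
  fin := inferInstance
  ne := inferInstance
  numOps := k
  arity := fun _ => 1
  op := fun i a => f i (a 0)

theorem unaryAlg_isCongr {α : Type} [Fintype α] [Nonempty α] (k : ℕ) (f : Fin k → α → α)
    (r : Setoid α) :
    (unaryAlg k f).IsCongr r ↔ ∀ i x y, r.r x y → r.r (f i x) (f i y) := by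
  constructor
  · intro h i x y hxy
    exact h i (fun _ => x) (fun _ => y) (fun _ => hxy)
  · intro h i a b hab
    exact h i (a (0 : Fin 1)) (b (0 : Fin 1)) (hab (0 : Fin 1))

/-- `j`-th entry of a list, with default `d`. -/
def nth {β : Type} (d : β) : List β → ℕ → β
  | [], _ => d
  | b :: _, 0 => b
  | _ :: bs, (j + 1) => nth d bs j

theorem nth_mem_or {β : Type} (d : β) : ∀ (l : List β) (j : ℕ), nth d l j ∈ l ∨ nth d l j = d
  | [], _ => Or.inr rfl
  | b :: _, 0 => Or.inl (by simp [nth])
  | _ :: bs, (j + 1) => by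
      rcases nth_mem_or d bs j with h | h
      · exact Or.inl (by simp [nth, h])
      · exact Or.inr (by simp [nth, h])

/-- One derivation step: from pairs already derived, derive a new pair. -/
inductive Step (α : Type) (k : ℕ) : Type
  | op (i : Fin k) (j : ℕ)
  | sy (j : ℕ)
  | tr (j l : ℕ)
  | rf (u : α)

/-- The pair produced by a step, given the start pair `p0` and the pairs `acc` derived so far. -/
def stepPair {α : Type} [DecidableEq α] {k : ℕ} (f : Fin k → α → α) (p0 : α × α)
    (acc : List (α × α)) : Step α k → α × α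
  | Step.op i j => (f i (nth p0 acc j).1, f i (nth p0 acc j).2)
  | Step.sy j => ((nth p0 acc j).2, (nth p0 acc j).1)
  | Step.tr j l =>
      if (nth p0 acc j).2 = (nth p0 acc l).1 then ((nth p0 acc j).1, (nth p0 acc l).2) else p0
  | Step.rf u => (u, u)

/-- Run a list of steps, appending each derived pair to the accumulator. -/
def run {α : Type} [DecidableEq α] {k : ℕ} (f : Fin k → α → α) (p0 : α × α) :
    List (Step α k) → List (α × α) → List (α × α)
  | [], acc => acc
  | s :: ss, acc => run f p0 ss (acc ++ [stepPair f p0 acc s])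

theorem stepPair_sound {α : Type} [DecidableEq α] {k : ℕ} (f : Fin k → α → α) (r : Setoid α)
    (hc : ∀ i x y, r.r x y → r.r (f i x) (f i y)) (p0 : α × α) (h0 : r.r p0.1 p0.2)
    (acc : List (α × α)) (hacc : ∀ p ∈ acc, r.r p.1 p.2) (s : Step α k) :
    r.r (stepPair f p0 acc s).1 (stepPair f p0 acc s).2 := by
  have hn : ∀ j, r.r (nth p0 acc j).1 (nth p0 acc j).2 := by
    intro j
    rcases nth_mem_or p0 acc j with h | h
    · exact hacc _ h
    · rw [h]; exact h0
  cases s with
  | op i j => exact hc i _ _ (hn j)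
  | sy j => exact r.iseqv.symm (hn j)
  | tr j l =>
      by_cases h : (nth p0 acc j).2 = (nth p0 acc l).1
      · simp only [stepPair, h, if_true]
        have h1 := hn j
        rw [h] at h1
        exact r.iseqv.trans h1 (hn l)
      · simp only [stepPair, h, if_false]
        exact h0
  | rf u => exact r.iseqv.refl u

theorem run_sound {α : Type} [DecidableEq α] {k : ℕ} (f : Fin k → α → α) (r : Setoid α)
    (hc : ∀ i x y, r.r x y → r.r (f i x) (f i y)) (p0 : α × α) (h0 : r.r p0.1 p0.2) :
    ∀ (ss : List (Step α k)) (acc : List (α × α)), (∀ p ∈ acc, r.r p.1 p.2) →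
      ∀ p ∈ run f p0 ss acc, r.r p.1 p.2
  | [], acc, hacc => by
      intro p hp
      exact hacc p hp
  | s :: ss, acc, hacc => by
      intro p hp
      refine run_sound f r hc p0 h0 ss (acc ++ [stepPair f p0 acc s]) ?_ p hp
      intro q hq
      rcases List.mem_append.1 hq with h | h
      · exact hacc q h
      · rw [List.mem_singleton.1 h]
        exact stepPair_sound f r hc p0 h0 acc hacc s

/-- `pathOK R a cs b`: the list `a :: cs` is an `R`-chain ending in `b`. -/
def pathOK {α : Type} [DecidableEq α] (R : α → α → Bool) : α → List α → α → Bool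
  | a, [], b => decide (a = b)
  | a, c :: cs, b => R a c && pathOK R c cs b

theorem pathOK_sound {α : Type} [DecidableEq α] (R : α → α → Bool) (r : Setoid α)
    (hR : ∀ u v, R u v = true → r.r u v) :
    ∀ (cs : List α) (a b : α), pathOK R a cs b = true → r.r a b
  | [], a, b => by
      intro h
      have hab : a = b := by simpa [pathOK] using h
      subst hab
      exact r.iseqv.refl a
  | c :: cs, a, b => by
      intro h
      have h' : R a c = true ∧ pathOK R c cs b = true := by simpa [pathOK] using h
      exact r.iseqv.trans (hR a c h'.1) (pathOK_sound R r hR cs c b h'.2)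

/-- Certificate criterion, surjectivity part: every compatible equivalence relation of the
unary algebra `(α, f)` is the kernel of some `rep m`. -/
theorem cert_surj {L : Type} [PartialOrder L] [Fintype L]
    {α : Type} [DecidableEq α] {k : ℕ}
    (f : Fin k → α → α) (rep : L → α → α) (t : α → α → L) (probe : L → α × α)
    (ub : L → L → L) (l0 : L)
    (c2 : α → α → List (Step α k)) (c3 : L → List (Step α k)) (pth : L → L → List α)
    (h2 : ∀ l l', l ≤ l' ↔ ∀ x y, rep l x = rep l y → rep l' x = rep l' y)
    (h0 : (probe l0).1 = (probe l0).2)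
    (ha : ∀ x y, rep (t x y) x = rep (t x y) y)
    (hp2 : ∀ x y, x ≠ y → probe (t x y) ∈ run f (x, y) (c2 x y) [(x, y)])
    (hp3 : ∀ l u, (u, rep l u) ∈ run f (probe l) (c3 l) [probe l])
    (hp4 : ∀ l l', l ≤ ub l l' ∧ l' ≤ ub l l' ∧
      pathOK (fun u v => decide (rep l u = rep l v) || decide (rep l' u = rep l' v))
        (probe (ub l l')).1 (pth l l') (probe (ub l l')).2 = true)
    (r : Setoid α) (hc : ∀ i x y, r.r x y → r.r (f i x) (f i y)) :
    ∃ m, ∀ x y, r.r x y ↔ rep m x = rep m y := by
  have : DecidablePred (fun l => r.r (probe l).1 (probe l).2) := Classical.decPred _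
  let S : Finset L := Finset.univ.filter (fun l => r.r (probe l).1 (probe l).2)
  have hS : ∀ l, l ∈ S ↔ r.r (probe l).1 (probe l).2 := by
    intro l
    simp [S]
  have key1 : ∀ l ∈ S, ∀ u v, rep l u = rep l v → r.r u v := by
    intro l hl u v huv
    have hl' := (hS l).1 hl
    have hs := run_sound f r hc (probe l) hl' (c3 l) [probe l]
      (by
        intro p hp
        rw [List.mem_singleton.1 hp]
        exact hl')
    have hu' : r.r u (rep l u) := hs _ (hp3 l u)
    have hv' : r.r v (rep l v) := hs _ (hp3 l v)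
    rw [huv] at hu'
    exact r.iseqv.trans hu' (r.iseqv.symm hv')
  have key2 : ∀ x y, r.r x y → x ≠ y → t x y ∈ S := by
    intro x y hxy hne
    rw [hS]
    have hs := run_sound f r hc (x, y) hxy (c2 x y) [(x, y)]
      (by
        intro p hp
        rw [List.mem_singleton.1 hp]
        exact hxy)
    exact hs _ (hp2 x y hne)
  have hdir : ∀ l ∈ S, ∀ l' ∈ S, ub l l' ∈ S := by
    intro l hl l' hl'
    rw [hS]
    refine pathOK_sound _ r ?_ (pth l l') _ _ (hp4 l l').2.2
    intro u v huv
    rcases Bool.or_eq_true_iff.1 huv with h | h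
    · exact key1 l hl u v (of_decide_eq_true h)
    · exact key1 l' hl' u v (of_decide_eq_true h)
  have hne : S.Nonempty := by
    refine ⟨l0, ?_⟩
    rw [hS, h0]
  obtain ⟨m, hmax⟩ := S.exists_maximal hne
  have hm : m ∈ S := hmax.1
  have hmle : ∀ l ∈ S, l ≤ m := by
    intro l hl
    exact le_trans (hp4 l m).1 (hmax.2 (hdir l hl m hm) (hp4 l m).2.1)
  refine ⟨m, ?_⟩
  intro x y
  constructor
  · intro h
    by_cases hxy : x = y
    · rw [hxy]
    · exact (h2 (t x y) m).1 (hmle _ (key2 x y h hxy)) x y (ha x y)
  · intro h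
    exact key1 m hm x y h

/-- Certificate criterion: the unary algebra `(α, f)` has congruence lattice order-isomorphic
to `L`, the isomorphism sending `l` to the kernel of `rep l`. -/
theorem representable_of_cert {L : Type} [PartialOrder L] [Fintype L]
    {α : Type} [Fintype α] [Nonempty α] [DecidableEq α] {k : ℕ}
    (f : Fin k → α → α) (rep : L → α → α) (t : α → α → L) (probe : L → α × α)
    (ub : L → L → L) (l0 : L)
    (c2 : α → α → List (Step α k)) (c3 : L → List (Step α k)) (pth : L → L → List α)
    (h1 : ∀ l i x y, rep l x = rep l y → rep l (f i x) = rep l (f i y))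
    (h2 : ∀ l l', l ≤ l' ↔ ∀ x y, rep l x = rep l y → rep l' x = rep l' y)
    (h0 : (probe l0).1 = (probe l0).2)
    (ha : ∀ x y, rep (t x y) x = rep (t x y) y)
    (hp2 : ∀ x y, x ≠ y → probe (t x y) ∈ run f (x, y) (c2 x y) [(x, y)])
    (hp3 : ∀ l u, (u, rep l u) ∈ run f (probe l) (c3 l) [probe l])
    (hp4 : ∀ l l', l ≤ ub l l' ∧ l' ≤ ub l l' ∧
      pathOK (fun u v => decide (rep l u = rep l v) || decide (rep l' u = rep l' v))
        (probe (ub l l')).1 (pth l l') (probe (ub l l')).2 = true) :
    Representable L := by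
  refine ⟨unaryAlg k f, ?_⟩
  have hcon : ∀ l, (unaryAlg k f).IsCongr (Setoid.ker (rep l)) := by
    intro l
    exact (unaryAlg_isCongr k f _).2 (fun i x y hxy => h1 l i x y hxy)
  let e : L → (unaryAlg k f).Con := fun l => ⟨Setoid.ker (rep l), hcon l⟩
  have hle : ∀ l l', e l ≤ e l' ↔ l ≤ l' := by
    intro l l'
    rw [h2 l l']
    exact Iff.rfl
  have hsurj : Function.Surjective e := by
    rintro ⟨r, hr⟩
    have hc : ∀ i x y, r.r x y → r.r (f i x) (f i y) := (unaryAlg_isCongr k f r).1 hr
    obtain ⟨m, hm⟩ := cert_surj f rep t probe ub l0 c2 c3 pth h2 h0 ha hp2 hp3 hp4 r hc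
    refine ⟨m, ?_⟩
    apply Subtype.ext
    apply Setoid.ext
    intro x y
    exact (hm x y).symm
  have hinj : Function.Injective e := by
    intro l l' h
    exact le_antisymm ((hle l l').1 (le_of_eq h)) ((hle l' l).1 (le_of_eq h.symm))
  exact ⟨{ toEquiv := Equiv.ofBijective e ⟨hinj, hsurj⟩
           map_rel_iff' := by
             intro a b
             exact hle a b }⟩

end Vale.Agent.Lib.P183
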