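import Vale.Agent.Lib.P183.Defs

namespace Vale.Agent.Lib.P183

/-- The seven-element lattice `C` with least element `bot`, greatest element `top` and five
further elements `j1`, `k`, `m2`, `m1`, `j2`, where `j1 < k < m2`, `j1 < m1`, `j2 < m2` and
there are no other strict comparabilities among these five.  So `bot` is covered by `j1` and
`j2`; `j1` is covered by `k` and `m1`; `k` and `j2` are covered by `m2`; and `m1`, `m2` are
covered by `top`: a hexagon `bot < j1 < m1 < top`, `bot < j2 < m2 < top` together with an
element `k` lying strictly between `j1` and `m2`. -/
inductive Chord7 : Type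
  | bot | j1 | k | m2 | m1 | j2 | top
  deriving DecidableEq

instance Chord7.fintype : Fintype Chord7 where
  elems := {Chord7.bot, Chord7.j1, Chord7.k, Chord7.m2, Chord7.m1, Chord7.j2, Chord7.top}
  complete := by
    intro x
    cases x <;> decide

/-- The order of `Chord7` as a Boolean table: `bot` is least, `top` is greatest,
`j1 < k < m2`, `j1 < m1`, `j2 < m2`, and there are no other strict comparabilities. -/
def Chord7.leb : Chord7 → Chord7 → Bool
  | .bot, _ => true
  | _, .top => true
  | .j1, .j1 => true
  | .j1, .k => true
  | .j1, .m2 => true
  | .j1, .m1 => true
  | .k, .k => true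
  | .k, .m2 => true
  | .m2, .m2 => true
  | .m1, .m1 => true
  | .j2, .j2 => true
  | .j2, .m2 => true
  | _, _ => false

instance Chord7.order : PartialOrder Chord7 where
  le a b := Chord7.leb a b = true
  le_refl := by decide
  le_trans := by decide
  le_antisymm := by decide

end Vale.Agent.Lib.P183
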