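import Mathlib

namespace Vale.Agent.Lib.P183

/-- A finite algebra: a nonempty finite carrier together with a finite list (indexed by
`Fin numOps`) of total operations, the `i`-th one of arity `arity i`. -/
structure FinAlg where
  carrier : Type
  fin : Fintype carrier
  ne : Nonempty carrier
  numOps : ℕ
  arity : Fin numOps → ℕ
  op : (i : Fin numOps) → (Fin (arity i) → carrier) → carrier

/-- `r` is a congruence of `A`: an equivalence relation on the carrier that is compatible
with every operation of `A`. -/
def FinAlg.IsCongr (A : FinAlg) (r : Setoid A.carrier) : Prop :=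
  ∀ (i : Fin A.numOps) (a b : Fin (A.arity i) → A.carrier),
    (∀ j, r.r (a j) (b j)) → r.r (A.op i a) (A.op i b)

/-- `Con A`: the set of all congruences of `A`. -/
def FinAlg.Con (A : FinAlg) : Type := {r : Setoid A.carrier // A.IsCongr r}

/-- `Con A` is ordered by inclusion of relations. -/
instance FinAlg.conOrder (A : FinAlg) : PartialOrder A.Con where
  le r s := ∀ x y, r.1.r x y → s.1.r x y
  le_refl _ _ _ h := h
  le_trans _ _ _ h1 h2 x y h := h2 x y (h1 x y h)
  le_antisymm r s h1 h2 := by
    apply Subtype.ext
    apply Setoid.ext
    intro x y
    exact ⟨h1 x y, h2 x y⟩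

/-- `L` is representable: it is order-isomorphic to the congruence lattice `Con A` of some
finite algebra `A`. -/
def Representable (L : Type) [PartialOrder L] : Prop :=
  ∃ A : FinAlg, Nonempty (L ≃o A.Con)

/-- The seven elements of the lattice `M(2,2,1)`: a bottom, a top, two two-element chains
`j1 < m1` and `j2 < m2`, and one further element `k`. -/
inductive M221 : Type
  | bot | j1 | m1 | j2 | m2 | k | top
  deriving DecidableEq

instance M221.fintype : Fintype M221 where
  elems := {M221.bot, M221.j1, M221.m1, M221.j2, M221.m2, M221.k, M221.top}
  complete := by
    intro x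
    cases x <;> decide

/-- The order of `M(2,2,1)` as a Boolean table: `bot` is least, `top` is greatest,
`j1 < m1`, `j2 < m2`, and there are no other strict comparabilities (so elements of
different branches `{j1, m1}`, `{j2, m2}`, `{k}` are incomparable). -/
def M221.leb : M221 → M221 → Bool
  | .bot, _ => true
  | _, .top => true
  | .j1, .j1 => true
  | .j1, .m1 => true
  | .m1, .m1 => true
  | .j2, .j2 => true
  | .j2, .m2 => true
  | .m2, .m2 => true
  | .k, .k => true
  | _, _ => false

instance M221.order : PartialOrder M221 where
  le a b := M221.leb a b = true
  le_refl := by decide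
  le_trans := by decide
  le_antisymm := by decide

end Vale.Agent.Lib.P183
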