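import Vale.Agent.Lib.P183.Trans

/-!
Certificate criterion for transitive unary algebras with an added family of two-valued
operations (ideal-filter construction).

Start from a transitive unary algebra of permutations `g i` on `α` whose congruences are the
relations `E c`, `c ∈ L`.  Fix `b : L` and a list `Q` of elements of `L`, and add, for every
`q ∈ Q`, the operation `v ↦ if cls v ≤ b then o else base q`.  The congruences of the enlarged
algebra are exactly the `E e` with `e ≤ b` or `q ≤ e` for all `q ∈ Q`.
-/

namespace Vale.Agent.Lib.P183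

/-- A derivation step `(w, l, j)`: apply the word `w` to the `l`-th derived point, provided `w`
maps the base point to the `j`-th derived point. -/
abbrev DStep : Type := List ℕ × ℕ × ℕ

/-- Run a list of derivation steps on the list `acc` of points derived so far. -/
def runD {α : Type} [DecidableEq α] (g : ℕ → α → α) (o : α) : List DStep → List α → List α
  | [], acc => acc
  | s :: ss, acc =>
      if evalW g s.1 o = nth o acc s.2.2 then
        runD g o ss (acc ++ [evalW g s.1 (nth o acc s.2.1)])
      else runD g o ss acc

theorem runD_sound {α : Type} [DecidableEq α] (g : ℕ → α → α) (r : Setoid α)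
    (hc : ∀ i x y, r.r x y → r.r (g i x) (g i y)) (o : α) :
    ∀ (ss : List DStep) (acc : List α), (∀ p ∈ acc, r.r o p) →
      ∀ p ∈ runD g o ss acc, r.r o p
  | [], acc, hacc => by
      intro p hp
      exact hacc p hp
  | s :: ss, acc, hacc => by
      intro p hp
      have hn : ∀ j, r.r o (nth o acc j) := by
        intro j
        rcases nth_mem_or o acc j with h | h
        · exact hacc _ h
        · rw [h]
      by_cases h : evalW g s.1 o = nth o acc s.2.2
      · have hp' : p ∈ runD g o ss (acc ++ [evalW g s.1 (nth o acc s.2.1)]) := by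
          simpa [runD, h] using hp
        refine runD_sound g r hc o ss _ ?_ p hp'
        intro q hq
        rcases List.mem_append.1 hq with h1 | h1
        · exact hacc q h1
        · rw [List.mem_singleton.1 h1]
          have h2 : r.r (evalW g s.1 o) (evalW g s.1 (nth o acc s.2.1)) :=
            adm_congr g r hc (evalW_adm g s.1) _ _ (hn s.2.1)
          have h3 : r.r o (evalW g s.1 o) := h ▸ hn s.2.2
          exact r.iseqv.trans h3 h2
      · have hp' : p ∈ runD g o ss acc := by
          simpa [runD, h] using hp
        exact runD_sound g r hc o ss acc hacc p hp'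

open Classical in
/-- The two-valued operation sending the block `{v | cls v ≤ b}` to `o` and every other point
to `pt`. -/
noncomputable def fiMap {L : Type} [PartialOrder L] {α : Type} (cls : α → L) (b : L) (o pt : α)
    (v : α) : α :=
  if cls v ≤ b then o else pt

theorem representable_of_fi_cert
    {L : Type} [PartialOrder L] [Fintype L]
    {L' : Type} [PartialOrder L']
    {α : Type} [Fintype α] [Nonempty α] [DecidableEq α]
    (k : ℕ) (g : ℕ → α → α)
    (hg : ∀ i, ∃ j : Fin k, g i = g j.1)
    (hinj : ∀ i, Function.Injective (g i))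
    (o : α)
    (W : α → List ℕ) (hW : ∀ x, evalW g (W x) o = x)
    (E : L → Setoid α)
    (hE : ∀ c i x y, (E c).r x y → (E c).r (g i x) (g i y))
    (cls : α → L) (base : L → α)
    (hblock : ∀ c x, (E c).r o x ↔ cls x ≤ c)
    (hbot : ∀ x, cls x ≤ cls o → x = o)
    (hbase : ∀ x, cls (base (cls x)) = cls x)
    (dA : α → List DStep) (hdesc : ∀ x, base (cls x) ∈ runD g o (dA x) [o, x])
    (dB : α → List DStep) (hspan : ∀ y, y ∈ runD g o (dB y) [o, base (cls y)])
    (dC : L → L → List DStep)
    (hcross : ∀ p q, cls (base p) = p → cls (base q) = q → q ≤ p →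
        base q ∈ runD g o (dC p q) [o, base p])
    (jn : L → L → L)
    (hjoin : ∀ c p, cls (base p) = p → c ≤ jn c p ∧ p ≤ jn c p ∧
        ∀ q, cls (base q) = q → q ≤ jn c p → q ≤ c ∨ q ≤ p ∨
          Relation.ReflTransGen (fun u v => (E c).r u v ∨ (E p).r u v) o (base q))
    (hsup : ∀ c d, (∀ q, cls (base q) = q → q ≤ c → q ≤ d) → c ≤ d)
    (b : L) (Q : List L) (hQ : ∀ q ∈ Q, cls (base q) = q)
    (ι : L' → L) (hι : ∀ x y, ι x ≤ ι y ↔ x ≤ y)
    (hrange : ∀ e, (e ≤ b ∨ ∀ q ∈ Q, q ≤ e) ↔ ∃ x, ι x = e) :
    Representable L' := by
  classical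
  have htr : ∀ x, ∃ v, Adm g v ∧ v o = x := fun x => ⟨evalW g (W x), evalW_adm g _, hW x⟩
  -- every congruence containing `(o, x)` contains the block of `E (cls x)` through `o`
  have hgen : ∀ q : Setoid α, (∀ i x y, q.r x y → q.r (g i x) (g i y)) →
      ∀ x, q.r o x → ∀ y, cls y ≤ cls x → q.r o y := by
    intro q hc x hx y hy
    have h1 : q.r o (base (cls x)) := by
      refine runD_sound g q hc o (dA x) [o, x] ?_ _ (hdesc x)
      intro p hp
      rcases List.mem_cons.1 hp with h | h
      · rw [h]
      · rw [List.mem_singleton.1 h]; exact hx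
    have h2 : q.r o (base (cls y)) := by
      refine runD_sound g q hc o (dC (cls x) (cls y)) [o, base (cls x)] ?_ _
        (hcross (cls x) (cls y) (hbase x) (hbase y) hy)
      intro p hp
      rcases List.mem_cons.1 hp with h | h
      · rw [h]
      · rw [List.mem_singleton.1 h]; exact h1
    refine runD_sound g q hc o (dB y) [o, base (cls y)] ?_ _ (hspan y)
    intro p hp
    rcases List.mem_cons.1 hp with h | h
    · rw [h]
    · rw [List.mem_singleton.1 h]; exact h2
  -- classification of the congruences of the permutation algebra
  have hfact : ∀ q : Setoid α, (∀ i x y, q.r x y → q.r (g i x) (g i y)) →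
      ∃ m, ∀ y, q.r o y ↔ cls y ≤ m := by
    intro q hc
    let S : Finset L := Finset.univ.filter (fun c => ∀ y, cls y ≤ c → q.r o y)
    have hS : ∀ c, c ∈ S ↔ ∀ y, cls y ≤ c → q.r o y := by
      intro c
      simp [S]
    have hsub : ∀ c ∈ S, ∀ x y, (E c).r x y → q.r x y := by
      intro c hcS
      apply block_determines g hinj o htr (E c) q (hE c) hc
      intro y hy
      exact (hS c).1 hcS y ((hblock c y).1 hy)
    have hne : S.Nonempty := by
      refine ⟨cls o, ?_⟩
      rw [hS]
      intro y hy
      rw [hbot y hy]
    obtain ⟨m, hmax⟩ := S.exists_maximal hne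
    have hm : m ∈ S := hmax.1
    refine ⟨m, ?_⟩
    intro y
    constructor
    · intro hy
      have hp : cls y ∈ S := by
        rw [hS]
        intro y' hy'
        exact hgen q hc y hy y' hy'
      obtain ⟨h1, h2, h3⟩ := hjoin m (cls y) (hbase y)
      have he : jn m (cls y) ∈ S := by
        rw [hS]
        intro y' hy'
        rcases h3 (cls y') (hbase y') hy' with h | h | h
        · exact (hS m).1 hm y' h
        · exact (hS (cls y)).1 hp y' h
        · have hob : ∀ z, Relation.ReflTransGen
              (fun u v => (E m).r u v ∨ (E (cls y)).r u v) o z → q.r o z := by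
            intro z hz
            induction hz with
            | refl => exact q.iseqv.refl o
            | tail _ hstep ih =>
              rcases hstep with h' | h'
              · exact q.iseqv.trans ih (hsub m hm _ _ h')
              · exact q.iseqv.trans ih (hsub (cls y) hp _ _ h')
          have h4 : q.r o (base (cls y')) := hob _ h
          exact hgen q hc _ h4 y' (le_of_eq (hbase y').symm)
      exact le_trans h2 (hmax.2 he h1)
    · intro hy
      exact (hS m).1 hm y hy
  -- monotonicity of `E`
  have hmono : ∀ c d, c ≤ d → ∀ x y, (E c).r x y → (E d).r x y := by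
    intro c d hcd
    apply block_determines g hinj o htr (E c) (E d) (hE c) (hE d)
    intro y hy
    exact (hblock d y).2 (le_trans ((hblock c y).1 hy) hcd)
  have hleE : ∀ c d, (∀ x y, (E c).r x y → (E d).r x y) ↔ c ≤ d := by
    intro c d
    constructor
    · intro h
      apply hsup
      intro q hq hqc
      have h1 : (E c).r o (base q) := (hblock c (base q)).2 (by rw [hq]; exact hqc)
      have h3 := (hblock d (base q)).1 (h o (base q) h1)
      rw [hq] at h3
      exact h3
    · intro h
      exact hmono c d h
  -- the operations of the enlarged algebra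
  let f : Fin (k + Q.length) → α → α := fun i =>
    if h : i.1 < k then g i.1 else fiMap cls b o (base (Q.get ⟨i.1 - k, by omega⟩))
  refine ⟨unaryAlg (k + Q.length) f, ?_⟩
  have hcong : ∀ q : Setoid α, (unaryAlg (k + Q.length) f).IsCongr q ↔
      (∀ i x y, q.r x y → q.r (g i x) (g i y)) ∧
      (∀ (j : Fin Q.length) x y, q.r x y →
        q.r (fiMap cls b o (base (Q.get j)) x) (fiMap cls b o (base (Q.get j)) y)) := by
    intro q
    rw [unaryAlg_isCongr]
    constructor
    · intro h
      refine ⟨?_, ?_⟩
      · intro i x y hxy
        obtain ⟨j, hj⟩ := hg i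
        rw [hj]
        have h1 := h ⟨j.1, by omega⟩ x y hxy
        have h2 : f ⟨j.1, by omega⟩ = g j.1 := by
          funext v
          simp [f, j.2]
        rw [h2] at h1
        exact h1
      · intro j x y hxy
        have h1 := h ⟨k + j.1, by omega⟩ x y hxy
        have h2 : f ⟨k + j.1, by omega⟩ = fiMap cls b o (base (Q.get j)) := by
          funext v
          simp [f]
        rw [h2] at h1
        exact h1
    · rintro ⟨h1, h2⟩ i x y hxy
      by_cases hi : i.1 < k
      · have h3 : f i = g i.1 := by
          funext v
          simp [f, hi]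
        rw [h3]
        exact h1 i.1 x y hxy
      · have h3 : f i = fiMap cls b o (base (Q.get ⟨i.1 - k, by omega⟩)) := by
          funext v
          simp [f, hi]
        rw [h3]
        exact h2 _ x y hxy
  -- membership in the block `{v | cls v ≤ b}` is invariant under `E b`
  have hblk : ∀ x y, (E b).r x y → (cls x ≤ b ↔ cls y ≤ b) := by
    intro x y hxy
    constructor
    · intro hx
      exact (hblock b y).1 ((E b).iseqv.trans ((hblock b x).2 hx) hxy)
    · intro hy
      exact (hblock b x).1 ((E b).iseqv.trans ((hblock b y).2 hy) ((E b).iseqv.symm hxy))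
  -- the relations `E e` with `e ≤ b` or `Q ≤ e` are preserved by the extra operations
  have hpres : ∀ e, (e ≤ b ∨ ∀ q ∈ Q, q ≤ e) → ∀ (j : Fin Q.length) x y, (E e).r x y →
      (E e).r (fiMap cls b o (base (Q.get j)) x) (fiMap cls b o (base (Q.get j)) y) := by
    intro e he j x y hxy
    by_cases hx : cls x ≤ b <;> by_cases hy : cls y ≤ b
    · simp only [fiMap, hx, hy, if_true]
      exact (E e).iseqv.refl o
    · rcases he with he | he
      · exact absurd ((hblk x y (hmono e b he x y hxy)).1 hx) hy
      · simp only [fiMap, hx, hy, if_true, if_false]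
        have hq := hQ (Q.get j) (List.get_mem Q j)
        have h1 : (E (Q.get j)).r o (base (Q.get j)) :=
          (hblock _ _).2 (le_of_eq hq)
        exact hmono _ e (he _ (List.get_mem Q j)) _ _ h1
    · rcases he with he | he
      · exact absurd ((hblk x y (hmono e b he x y hxy)).2 hy) hx
      · simp only [fiMap, hx, hy, if_true, if_false]
        have hq := hQ (Q.get j) (List.get_mem Q j)
        have h1 : (E (Q.get j)).r o (base (Q.get j)) :=
          (hblock _ _).2 (le_of_eq hq)
        exact (E e).iseqv.symm (hmono _ e (he _ (List.get_mem Q j)) _ _ h1)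
    · simp only [fiMap, hx, hy, if_false]
      exact (E e).iseqv.refl _
  have hokι : ∀ x : L', (unaryAlg (k + Q.length) f).IsCongr (E (ι x)) := by
    intro x
    rw [hcong]
    exact ⟨hE (ι x), hpres (ι x) ((hrange (ι x)).2 ⟨x, rfl⟩)⟩
  let e : L' → (unaryAlg (k + Q.length) f).Con := fun x => ⟨E (ι x), hokι x⟩
  have hle : ∀ x y, e x ≤ e y ↔ x ≤ y := by
    intro x y
    rw [← hι x y, ← hleE (ι x) (ι y)]
    exact Iff.rfl
  have hsurj : Function.Surjective e := by
    rintro ⟨q, hq⟩
    obtain ⟨hc, hc2⟩ := (hcong q).1 hq
    obtain ⟨m, hm⟩ := hfact q hc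
    have hmem : m ≤ b ∨ ∀ q' ∈ Q, q' ≤ m := by
      by_cases hmb : m ≤ b
      · exact Or.inl hmb
      · refine Or.inr ?_
        -- a principal element below `m` and not below `b`
        have hex : ∃ p, cls (base p) = p ∧ p ≤ m ∧ ¬ p ≤ b := by
          by_contra hcon
          apply hmb
          apply hsup
          intro p hp hpm
          by_contra hpb
          exact hcon ⟨p, hp, hpm, hpb⟩
        obtain ⟨p, hp, hpm, hpb⟩ := hex
        intro q' hq'
        obtain ⟨j, hj⟩ := List.mem_iff_get.1 hq'
        have h1 : q.r o (base p) := (hm (base p)).2 (by rw [hp]; exact hpm)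
        have h2 := hc2 j o (base p) h1
        have ho : cls o ≤ b := (hblock b o).1 ((E b).iseqv.refl o)
        have hbm : ¬ cls (base p) ≤ b := by rw [hp]; exact hpb
        simp only [fiMap, ho, hbm, if_true, if_false] at h2
        have h3 := (hm _).1 h2
        rw [hj, hQ q' hq'] at h3
        exact h3
    obtain ⟨x, hx⟩ := (hrange m).1 hmem
    refine ⟨x, ?_⟩
    apply Subtype.ext
    apply Setoid.ext
    intro u v
    show (E (ι x)).r u v ↔ q.r u v
    rw [hx]
    constructor
    · intro h
      revert u v
      apply block_determines g hinj o htr (E m) q (hE m) hc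
      intro y hy
      exact (hm y).2 ((hblock m y).1 hy)
    · intro h
      revert u v
      apply block_determines g hinj o htr q (E m) hc (hE m)
      intro y hy
      exact (hblock m y).2 ((hm y).1 hy)
  have hinj' : Function.Injective e := by
    intro x y h
    exact le_antisymm ((hle x y).1 (le_of_eq h)) ((hle y x).1 (le_of_eq h.symm))
  exact ⟨{ toEquiv := Equiv.ofBijective e ⟨hinj', hsurj⟩
           map_rel_iff' := by
             intro x y
             exact hle x y }⟩

end Vale.Agent.Lib.P183
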