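import Vale.Agent.Lib.P183.FI

/-!
Concrete certificates for the ideal-filter criterion of `FI.lean`: the points are `Fin (n+1)`,
the permutations, class labels and classes are stored as numbers with sixteen bits per entry,
and the lattice of congruences of the permutation algebra is `Fin (m+1)` with the order given by
a table of down-sets (bit masks).
-/

namespace Vale.Agent.Lib.P183

/-- Entry `b` of a table stored with sixteen bits per entry. -/
def lk16 (C b : ℕ) : ℕ := Nat.land (Nat.shiftRight C (Nat.mul 16 b)) 65535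

/-- Value attached to the key `q` in an association list (default: the empty list). -/
def assocD : List (ℕ × List ℕ) → ℕ → List ℕ
  | [], _ => []
  | e :: es, q => if e.1 = q then e.2 else assocD es q

/-- The data of a certificate. -/
structure FICert where
  /-- the points are `Fin (n + 1)` -/
  n : ℕ
  /-- the lattice elements are `Fin (m + 1)` -/
  m : ℕ
  /-- the permutations -/
  gC : List ℕ
  /-- their inverses -/
  giC : List ℕ
  /-- class labels of the points, for every lattice element -/
  labC : List ℕ
  /-- action of the permutations on class labels -/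
  fC : List (List ℕ)
  /-- the class of every point -/
  clsC : ℕ
  /-- down-sets of the lattice elements, as bit masks -/
  dnT : List ℕ
  /-- base points of the classes -/
  baseT : List ℕ
  /-- words leading from the point `0` to every point -/
  wT : List (List ℕ)
  /-- derivations of the base point of its class from a point -/
  dAT : List (List DStep)
  /-- derivations of a point from the base point of its class -/
  dBT : List (List DStep)
  /-- derivations between base points -/
  dCT : List (List (List DStep))
  /-- join table -/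
  jT : List (List ℕ)
  /-- paths witnessing the joins -/
  pT : List (List (List (ℕ × List ℕ)))
  /-- the element `b` -/
  bI : ℕ
  /-- the list `Q` -/
  qT : List ℕ

namespace FICert

/-- The lattice elements of a certificate. -/
structure Lat (C : FICert) : Type where
  /-- the index of the element -/
  v : Fin (C.m + 1)

instance (C : FICert) : DecidableEq C.Lat := fun a b =>
  decidable_of_iff (a.v = b.v) (by cases a; cases b; simp)

instance (C : FICert) : Fintype C.Lat :=
  Fintype.ofEquiv (Fin (C.m + 1)) ⟨Lat.mk, Lat.v, fun _ => rfl, fun _ => rfl⟩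

/-- The down-set of a lattice element, as a bit mask. -/
def dn (C : FICert) (a : C.Lat) : ℕ := C.dnT.getD a.v.1 0

/-- The order of the lattice elements: inclusion of down-sets (the second clause makes the
relation antisymmetric whatever the table is; it is vacuous when the down-sets are distinct). -/
instance (C : FICert) : PartialOrder C.Lat where
  le a b := (C.dn a &&& C.dn b = C.dn a) ∧ (C.dn b &&& C.dn a = C.dn b → a = b)
  le_refl a := ⟨Nat.and_self _, fun _ => rfl⟩
  le_trans a b c hab hbc := by
    have h1 : C.dn a &&& C.dn c = C.dn a := by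
      rw [← hab.1, Nat.and_assoc, hbc.1]
    refine ⟨h1, ?_⟩
    intro h
    have h2 : C.dn b &&& C.dn a = C.dn b := by
      rw [← hbc.1, Nat.and_assoc, h, hbc.1]
    have h3 : a = b := hab.2 h2
    have h4 : C.dn c &&& C.dn b = C.dn c := by
      rw [← h3]
      exact h
    rw [h3]
    exact hbc.2 h4
  le_antisymm a b hab hba := hab.2 hba.1

instance (C : FICert) : DecidableRel (fun a b : C.Lat => a ≤ b) := fun a b =>
  inferInstanceAs (Decidable ((C.dn a &&& C.dn b = C.dn a) ∧ (C.dn b &&& C.dn a = C.dn b → a = b)))

/-- The point with a given index. -/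
def pt (C : FICert) (x : ℕ) : Fin (C.n + 1) := ⟨x % (C.n + 1), Nat.mod_lt _ (Nat.succ_pos _)⟩

/-- The lattice element with a given index. -/
def lt (C : FICert) (x : ℕ) : C.Lat := ⟨⟨x % (C.m + 1), Nat.mod_lt _ (Nat.succ_pos _)⟩⟩

/-- The permutations. -/
def g (C : FICert) (i : ℕ) (x : Fin (C.n + 1)) : Fin (C.n + 1) :=
  C.pt (lk16 (C.gC.getD (i % C.gC.length) 0) x.1)

/-- The inverse permutations. -/
def gi (C : FICert) (i : ℕ) (x : Fin (C.n + 1)) : Fin (C.n + 1) :=
  C.pt (lk16 (C.giC.getD (i % C.gC.length) 0) x.1)

/-- The class label of a point for the congruence attached to `c`. -/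
def lab (C : FICert) (c : C.Lat) (x : Fin (C.n + 1)) : ℕ := lk16 (C.labC.getD c.v.1 0) x.1

/-- The congruence attached to `c`: equality of class labels. -/
def E (C : FICert) (c : C.Lat) : Setoid (Fin (C.n + 1)) :=
  ⟨fun x y => C.lab c x = C.lab c y, ⟨fun _ => rfl, fun h => h.symm, fun h1 h2 => h1.trans h2⟩⟩

/-- The class of a point. -/
def cls (C : FICert) (x : Fin (C.n + 1)) : C.Lat := C.lt (lk16 C.clsC x.1)

/-- The base point of a class. -/
def base (C : FICert) (c : C.Lat) : Fin (C.n + 1) := C.pt (C.baseT.getD c.v.1 0)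

/-- The base point of the action. -/
def o (C : FICert) : Fin (C.n + 1) := C.pt 0

/-- The word leading from the base point to `x`. -/
def W (C : FICert) (x : Fin (C.n + 1)) : List ℕ := C.wT.getD x.1 []

/-- Derivation of the base point of the class of `x` from `x`. -/
def dA (C : FICert) (x : Fin (C.n + 1)) : List DStep := C.dAT.getD x.1 []

/-- Derivation of `x` from the base point of its class. -/
def dB (C : FICert) (x : Fin (C.n + 1)) : List DStep := C.dBT.getD x.1 []

/-- Derivation of the base point of `q` from the base point of `p`. -/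
def dC (C : FICert) (p q : C.Lat) : List DStep := (C.dCT.getD p.v.1 []).getD q.v.1 []

/-- The join of two elements, from the table. -/
def jn (C : FICert) (c p : C.Lat) : C.Lat := C.lt ((C.jT.getD c.v.1 []).getD p.v.1 0)

/-- The path from the base point to the base point of `q` inside the join of `c` and `p`. -/
def path (C : FICert) (c p q : C.Lat) : List (Fin (C.n + 1)) :=
  (assocD ((C.pT.getD c.v.1 []).getD p.v.1 []) q.v.1).map C.pt

/-- One step of a join path: the two points are related by one of the two congruences. -/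
def stepOK (C : FICert) (c p : C.Lat) (u v : Fin (C.n + 1)) : Bool :=
  decide (C.lab c u = C.lab c v) || decide (C.lab p u = C.lab p v)

/-- The element `b`. -/
def b (C : FICert) : C.Lat := C.lt C.bI

/-- The list `Q`. -/
def Q (C : FICert) : List C.Lat := C.qT.map C.lt

end FICert

theorem pathOK_rtg {α : Type} [DecidableEq α] (R : α → α → Bool) :
    ∀ (cs : List α) (a b : α), pathOK R a cs b = true →
      Relation.ReflTransGen (fun u v => R u v = true) a b
  | [], a, b => by
      intro h
      have hab : a = b := by simpa [pathOK] using h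
      rw [hab]
  | c :: cs, a, b => by
      intro h
      have h' : R a c = true ∧ pathOK R c cs b = true := by simpa [pathOK] using h
      exact Relation.ReflTransGen.head h'.1 (pathOK_rtg R cs c b h'.2)

/-- A certificate whose checks all hold gives a finite unary algebra whose congruence lattice is
order-isomorphic to `L'`, embedded by `ι` as the set of lattice elements `e` with `e ≤ b` or
`q ≤ e` for all `q ∈ Q`. -/
theorem FICert.representable (C : FICert) {L' : Type} [PartialOrder L'] (ι : L' → C.Lat)
    (c1 : 0 < C.gC.length)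
    (c2 : ∀ (i : Fin C.gC.length) (x : Fin (C.n + 1)), C.gi i.1 (C.g i.1 x) = x)
    (c3 : ∀ (c : C.Lat) (i : Fin C.gC.length) (x : Fin (C.n + 1)),
      C.lab c (C.g i.1 x) = lk16 ((C.fC.getD c.v.1 []).getD i.1 0) (C.lab c x))
    (c4 : ∀ x : Fin (C.n + 1), evalW C.g (C.W x) C.o = x)
    (c5 : ∀ (c : C.Lat) (x : Fin (C.n + 1)), C.lab c C.o = C.lab c x ↔ C.cls x ≤ c)
    (c6 : ∀ x : Fin (C.n + 1), C.cls x ≤ C.cls C.o → x = C.o)
    (c7 : ∀ x : Fin (C.n + 1), C.cls (C.base (C.cls x)) = C.cls x)
    (c8 : ∀ x : Fin (C.n + 1), C.base (C.cls x) ∈ runD C.g C.o (C.dA x) [C.o, x])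
    (c9 : ∀ y : Fin (C.n + 1), y ∈ runD C.g C.o (C.dB y) [C.o, C.base (C.cls y)])
    (c10 : ∀ p q : C.Lat, C.cls (C.base p) = p → C.cls (C.base q) = q → q ≤ p →
      C.base q ∈ runD C.g C.o (C.dC p q) [C.o, C.base p])
    (c11 : ∀ c p : C.Lat, C.cls (C.base p) = p → c ≤ C.jn c p ∧ p ≤ C.jn c p ∧
      ∀ q : C.Lat, C.cls (C.base q) = q → q ≤ C.jn c p → q ≤ c ∨ q ≤ p ∨
        pathOK (C.stepOK c p) C.o (C.path c p q) (C.base q) = true)
    (c12 : ∀ c d : C.Lat, (∀ q : C.Lat, C.cls (C.base q) = q → q ≤ c → q ≤ d) → c ≤ d)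
    (c13 : ∀ q ∈ C.Q, C.cls (C.base q) = q)
    (c14 : ∀ x y : L', ι x ≤ ι y ↔ x ≤ y)
    (c15 : ∀ e : C.Lat, (e ≤ C.b ∨ ∀ q ∈ C.Q, q ≤ e) ↔ ∃ x : L', ι x = e) :
    Representable L' := by
  have hmod : ∀ i, C.g i = C.g (i % C.gC.length) := by
    intro i
    funext x
    simp [FICert.g]
  have hg : ∀ i, ∃ j : Fin C.gC.length, C.g i = C.g j.1 :=
    fun i => ⟨⟨i % C.gC.length, Nat.mod_lt _ c1⟩, hmod i⟩
  have hinj : ∀ i, Function.Injective (C.g i) := by
    intro i
    rw [hmod i]
    exact Function.LeftInverse.injective (c2 ⟨i % C.gC.length, Nat.mod_lt _ c1⟩)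
  have hE : ∀ (c : C.Lat) (i : ℕ) (x y : Fin (C.n + 1)), (C.E c).r x y →
      (C.E c).r (C.g i x) (C.g i y) := by
    intro c i x y h
    have h' : C.lab c x = C.lab c y := h
    show C.lab c (C.g i x) = C.lab c (C.g i y)
    rw [hmod i]
    have h1 := c3 c ⟨i % C.gC.length, Nat.mod_lt _ c1⟩ x
    have h2 := c3 c ⟨i % C.gC.length, Nat.mod_lt _ c1⟩ y
    rw [h1, h2, h']
  have hjoin : ∀ c p : C.Lat, C.cls (C.base p) = p → c ≤ C.jn c p ∧ p ≤ C.jn c p ∧
      ∀ q : C.Lat, C.cls (C.base q) = q → q ≤ C.jn c p → q ≤ c ∨ q ≤ p ∨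
        Relation.ReflTransGen (fun u v => (C.E c).r u v ∨ (C.E p).r u v) C.o (C.base q) := by
    intro c p hp
    obtain ⟨h1, h2, h3⟩ := c11 c p hp
    refine ⟨h1, h2, ?_⟩
    intro q hq hqe
    rcases h3 q hq hqe with h | h | h
    · exact Or.inl h
    · exact Or.inr (Or.inl h)
    · refine Or.inr (Or.inr ?_)
      have hmono : (fun u v => C.stepOK c p u v = true) ≤
          (fun u v => (C.E c).r u v ∨ (C.E p).r u v) := by
        intro u v huv
        rcases Bool.or_eq_true_iff.1 huv with h' | h'
        · have h'' : C.lab c u = C.lab c v := of_decide_eq_true h'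
          exact Or.inl h''
        · have h'' : C.lab p u = C.lab p v := of_decide_eq_true h'
          exact Or.inr h''
      exact Relation.ReflTransGen.mono hmono _ _ (pathOK_rtg (C.stepOK c p) _ _ _ h)
  exact representable_of_fi_cert (L := C.Lat) (α := Fin (C.n + 1)) C.gC.length C.g hg hinj C.o
    C.W c4 C.E hE C.cls C.base c5 c6 c7 C.dA c8 C.dB c9 C.dC c10 C.jn hjoin c12 C.b C.Q c13 ι
    c14 c15

end Vale.Agent.Lib.P183
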