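import Vale.Agent.Lib.P183.Defs

namespace Vale.Agent.Lib.P183

/-- The seven elements of the lattice `M(3,1,1)`: a bottom, a top, a three-element chain
`a1 < a2 < a3`, and two further elements `b`, `c`. -/
inductive M311 : Type
  | bot | a1 | a2 | a3 | b | c | top
  deriving DecidableEq

instance M311.fintype : Fintype M311 where
  elems := {M311.bot, M311.a1, M311.a2, M311.a3, M311.b, M311.c, M311.top}
  complete := by
    intro x
    cases x <;> decide

/-- The order of `M(3,1,1)` as a Boolean table: `bot` is least, `top` is greatest,
`a1 < a2 < a3`, and there are no other strict comparabilities (so elements of different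
branches `{a1, a2, a3}`, `{b}`, `{c}` are incomparable). -/
def M311.leb : M311 → M311 → Bool
  | .bot, _ => true
  | _, .top => true
  | .a1, .a1 => true
  | .a1, .a2 => true
  | .a1, .a3 => true
  | .a2, .a2 => true
  | .a2, .a3 => true
  | .a3, .a3 => true
  | .b, .b => true
  | .c, .c => true
  | _, _ => false

instance M311.order : PartialOrder M311 where
  le x y := M311.leb x y = true
  le_refl := by decide
  le_trans := by decide
  le_antisymm := by decide

/-- The seven elements of the lattice `M(2,1,1,1)`: a bottom, a top, a two-element chain
`a1 < a2`, and three further elements `b`, `c`, `d`. -/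
inductive M2111 : Type
  | bot | a1 | a2 | b | c | d | top
  deriving DecidableEq

instance M2111.fintype : Fintype M2111 where
  elems := {M2111.bot, M2111.a1, M2111.a2, M2111.b, M2111.c, M2111.d, M2111.top}
  complete := by
    intro x
    cases x <;> decide

/-- The order of `M(2,1,1,1)` as a Boolean table: `bot` is least, `top` is greatest,
`a1 < a2`, and there are no other strict comparabilities (so elements of different branches
`{a1, a2}`, `{b}`, `{c}`, `{d}` are incomparable). -/
def M2111.leb : M2111 → M2111 → Bool
  | .bot, _ => true
  | _, .top => true
  | .a1, .a1 => true
  | .a1, .a2 => true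
  | .a2, .a2 => true
  | .b, .b => true
  | .c, .c => true
  | .d, .d => true
  | _, _ => false

instance M2111.order : PartialOrder M2111 where
  le x y := M2111.leb x y = true
  le_refl := by decide
  le_trans := by decide
  le_antisymm := by decide

end Vale.Agent.Lib.P183
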