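import Vale.Agent.Lib.P183.Cert
import Vale.Agent.Lib.P183.ParDefs

namespace Vale.Agent.Lib.P183

instance M2111.decLe : DecidableRel (fun l1 l2 : M2111 => l1 ≤ l2) :=
  fun l1 l2 => inferInstanceAs (Decidable (M2111.leb l1 l2 = true))

/-- The tables of the 5 unary operations on the 16 points `0, ..., 15`. -/
def m2111OpTable : List (List (Fin 16)) :=
  [[2, 3, 0, 1, 5, 4, 2, 2, 2, 2, 2, 1, 1, 1, 1, 1],
   [3, 2, 5, 4, 0, 1, 3, 3, 3, 3, 3, 4, 4, 4, 4, 4],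
   [0, 6, 7, 8, 9, 10, 0, 0, 0, 0, 0, 8, 8, 8, 8, 8],
   [0, 1, 2, 3, 4, 5, 1, 2, 3, 4, 5, 0, 1, 2, 4, 5],
   [11, 12, 13, 3, 14, 15, 11, 11, 11, 11, 11, 3, 3, 3, 3, 3]]

/-- The unary operations of the sixteen-point algebra, read off the tables. -/
def m2111Ops (i : Fin 5) (x : Fin 16) : Fin 16 := nth 0 (nth [] m2111OpTable i.val) x.val

def m2111Idx : M2111 → ℕ
  | M2111.bot => 0
  | M2111.a1 => 1
  | M2111.a2 => 2
  | M2111.b => 3
  | M2111.c => 4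
  | M2111.d => 5
  | M2111.top => 6

def m2111RepTable : M2111 → List (Fin 16)
  | M2111.bot => [0, 1, 2, 3, 4, 5, 6, 7, 8, 9, 10, 11, 12, 13, 14, 15]
  | M2111.a1 => [0, 1, 1, 0, 0, 1, 6, 6, 0, 0, 6, 0, 12, 12, 0, 12]
  | M2111.a2 => [0, 1, 1, 0, 0, 1, 6, 6, 0, 0, 6, 0, 6, 6, 0, 6]
  | M2111.b => [0, 0, 2, 2, 4, 4, 0, 7, 7, 9, 9, 11, 11, 2, 14, 14]
  | M2111.c => [0, 1, 0, 3, 1, 3, 6, 0, 8, 6, 8, 11, 12, 11, 12, 3]
  | M2111.d => [0, 1, 2, 1, 2, 0, 6, 7, 6, 7, 0, 11, 1, 13, 13, 11]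
  | M2111.top => [0, 0, 0, 0, 0, 0, 0, 0, 0, 0, 0, 0, 0, 0, 0, 0]

def m2111Rep (l : M2111) (p : Fin 16) : Fin 16 := nth 0 (m2111RepTable l) p.val

def m2111TTable : List (List M2111) :=
  [[M2111.bot, M2111.b, M2111.c, M2111.a1, M2111.a1, M2111.d, M2111.b, M2111.c, M2111.a1, M2111.a1, M2111.d, M2111.a1, M2111.top, M2111.top, M2111.a1, M2111.top],
   [M2111.b, M2111.bot, M2111.a1, M2111.d, M2111.c, M2111.a1, M2111.b, M2111.top, M2111.top, M2111.top, M2111.top, M2111.top, M2111.d, M2111.top, M2111.top, M2111.top],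
   [M2111.c, M2111.a1, M2111.bot, M2111.b, M2111.d, M2111.a1, M2111.top, M2111.c, M2111.top, M2111.top, M2111.top, M2111.top, M2111.top, M2111.b, M2111.top, M2111.top],
   [M2111.a1, M2111.d, M2111.b, M2111.bot, M2111.a1, M2111.c, M2111.top, M2111.top, M2111.a1, M2111.a1, M2111.top, M2111.a1, M2111.d, M2111.b, M2111.a1, M2111.c],
   [M2111.a1, M2111.c, M2111.d, M2111.a1, M2111.bot, M2111.b, M2111.top, M2111.top, M2111.a1, M2111.a1, M2111.top, M2111.a1, M2111.top, M2111.top, M2111.a1, M2111.top],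
   [M2111.d, M2111.a1, M2111.a1, M2111.c, M2111.b, M2111.bot, M2111.top, M2111.top, M2111.top, M2111.top, M2111.d, M2111.top, M2111.top, M2111.top, M2111.top, M2111.c],
   [M2111.b, M2111.b, M2111.top, M2111.top, M2111.top, M2111.top, M2111.bot, M2111.a1, M2111.d, M2111.c, M2111.a1, M2111.top, M2111.a2, M2111.a2, M2111.top, M2111.a2],
   [M2111.c, M2111.top, M2111.c, M2111.top, M2111.top, M2111.top, M2111.a1, M2111.bot, M2111.b, M2111.d, M2111.a1, M2111.top, M2111.a2, M2111.a2, M2111.top, M2111.a2],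
   [M2111.a1, M2111.top, M2111.top, M2111.a1, M2111.a1, M2111.top, M2111.d, M2111.b, M2111.bot, M2111.a1, M2111.c, M2111.a1, M2111.top, M2111.top, M2111.a1, M2111.top],
   [M2111.a1, M2111.top, M2111.top, M2111.a1, M2111.a1, M2111.top, M2111.c, M2111.d, M2111.a1, M2111.bot, M2111.b, M2111.a1, M2111.top, M2111.top, M2111.a1, M2111.top],
   [M2111.d, M2111.top, M2111.top, M2111.top, M2111.top, M2111.d, M2111.a1, M2111.a1, M2111.c, M2111.b, M2111.bot, M2111.top, M2111.a2, M2111.a2, M2111.top, M2111.a2],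
   [M2111.a1, M2111.top, M2111.top, M2111.a1, M2111.a1, M2111.top, M2111.top, M2111.top, M2111.a1, M2111.a1, M2111.top, M2111.bot, M2111.b, M2111.c, M2111.a1, M2111.d],
   [M2111.top, M2111.d, M2111.top, M2111.d, M2111.top, M2111.top, M2111.a2, M2111.a2, M2111.top, M2111.top, M2111.a2, M2111.b, M2111.bot, M2111.a1, M2111.c, M2111.a1],
   [M2111.top, M2111.top, M2111.b, M2111.b, M2111.top, M2111.top, M2111.a2, M2111.a2, M2111.top, M2111.top, M2111.a2, M2111.c, M2111.a1, M2111.bot, M2111.d, M2111.a1],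
   [M2111.a1, M2111.top, M2111.top, M2111.a1, M2111.a1, M2111.top, M2111.top, M2111.top, M2111.a1, M2111.a1, M2111.top, M2111.a1, M2111.c, M2111.d, M2111.bot, M2111.b],
   [M2111.top, M2111.top, M2111.top, M2111.c, M2111.top, M2111.c, M2111.a2, M2111.a2, M2111.top, M2111.top, M2111.a2, M2111.d, M2111.a1, M2111.a1, M2111.b, M2111.bot]]

def m2111T (x y : Fin 16) : M2111 := nth M2111.bot (nth [] m2111TTable x.val) y.val

def m2111Probe : M2111 → Fin 16 × Fin 16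
  | M2111.bot => (0, 0)
  | M2111.a1 => (0, 3)
  | M2111.a2 => (6, 12)
  | M2111.b => (0, 1)
  | M2111.c => (0, 2)
  | M2111.d => (0, 5)
  | M2111.top => (0, 12)

def m2111Ub (l1 l2 : M2111) : M2111 := if M2111.leb l1 l2 then l2 else if M2111.leb l2 l1 then l1 else M2111.top

def m2111C2Table : List (List (List (Step (Fin 16) 5))) :=
  [[[],
    [],
    [],
    [],
    [Step.op 1 0, Step.sy 1],
    [],
    [Step.op 3 0],
    [Step.op 3 0],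
    [Step.op 3 0],
    [Step.op 3 0, Step.op 1 1, Step.sy 2],
    [Step.op 3 0],
    [Step.op 4 0, Step.tr 0 1],
    [],
    [Step.op 0 0, Step.op 4 1, Step.tr 0 2],
    [Step.op 0 0, Step.op 0 1],
    [Step.op 0 0, Step.op 1 1, Step.tr 2 1, Step.op 4 3, Step.tr 0 4]],
   [[Step.sy 0],
    [],
    [Step.op 0 0, Step.sy 1],
    [Step.op 1 0, Step.op 0 1],
    [Step.op 1 0, Step.op 0 1],
    [Step.op 1 0, Step.op 0 1],
    [Step.op 1 0, Step.op 0 1],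
    [Step.op 1 0, Step.op 3 0, Step.tr 2 1, Step.op 0 2, Step.op 4 3, Step.tr 5 4, Step.sy 6],
    [Step.op 0 0, Step.op 3 0, Step.tr 2 1, Step.op 4 2, Step.op 0 3, Step.tr 4 5, Step.sy 6],
    [Step.op 1 0, Step.op 3 0, Step.sy 0, Step.tr 3 2, Step.op 0 1, Step.op 1 4, Step.tr 6 5, Step.sy 6, Step.op 4 7, Step.tr 8 9],
    [Step.op 3 0, Step.sy 0, Step.tr 2 1, Step.op 1 1, Step.op 1 3, Step.op 0 4, Step.op 4 5, Step.tr 6 7],
    [Step.op 0 0, Step.op 3 0, Step.op 4 0, Step.tr 3 1, Step.sy 2, Step.sy 4, Step.tr 5 6],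
    [Step.op 1 0, Step.op 0 1],
    [Step.op 3 0, Step.op 4 0, Step.op 0 1, Step.tr 2 3, Step.sy 4],
    [Step.op 1 0, Step.op 3 0, Step.op 4 0, Step.op 0 1, Step.op 0 2, Step.tr 3 5, Step.sy 6, Step.tr 4 7],
    [Step.op 0 0, Step.op 1 0, Step.op 3 0, Step.op 4 0, Step.tr 4 1, Step.op 0 2, Step.sy 3, Step.sy 5, Step.tr 7 8, Step.tr 6 9]],
   [[Step.op 0 0],
    [Step.op 0 0],
    [],
    [Step.op 0 0],
    [Step.op 0 0],
    [Step.op 1 0, Step.tr 0 1, Step.op 0 2],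
    [Step.op 0 0, Step.op 3 0, Step.tr 1 2, Step.op 0 2, Step.op 1 3, Step.tr 5 2, Step.op 4 6, Step.tr 4 7],
    [Step.op 0 0],
    [Step.op 0 0, Step.op 3 0, Step.tr 1 2, Step.sy 2, Step.op 0 3, Step.tr 4 5, Step.op 4 6, Step.tr 3 7],
    [Step.op 0 0, Step.op 1 0, Step.op 3 0, Step.tr 1 3, Step.op 0 2, Step.op 0 3, Step.op 1 4, Step.tr 4 5, Step.tr 6 2, Step.op 4 7, Step.op 4 8, Step.tr 10 11, Step.tr 9 12],
    [Step.op 0 0, Step.op 1 0, Step.op 3 0, Step.tr 1 3, Step.tr 3 2, Step.op 1 4, Step.tr 1 5, Step.op 4 6, Step.tr 7 8],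
    [Step.op 0 0, Step.op 3 0, Step.sy 0, Step.tr 3 2, Step.op 4 1, Step.sy 4, Step.tr 6 5],
    [Step.op 0 0, Step.op 3 0, Step.sy 0, Step.tr 3 2, Step.sy 4, Step.tr 1 5],
    [Step.op 0 0],
    [Step.op 0 0, Step.op 3 0, Step.sy 0, Step.tr 3 2, Step.op 1 4, Step.tr 4 5, Step.tr 5 1, Step.sy 6, Step.op 4 7, Step.tr 8 9],
    [Step.op 1 0, Step.op 3 0, Step.sy 0, Step.tr 2 1, Step.tr 3 2, Step.op 1 2, Step.op 0 4, Step.sy 5, Step.tr 7 8, Step.op 4 6, Step.tr 9 10]],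
   [[Step.sy 0],
    [Step.op 1 0, Step.op 1 1],
    [Step.op 0 0, Step.sy 1],
    [],
    [Step.op 1 0, Step.op 1 1],
    [Step.op 1 0, Step.op 1 1],
    [Step.op 1 0, Step.op 3 0, Step.tr 1 0, Step.op 4 2, Step.op 1 3, Step.tr 5 4],
    [Step.op 0 0, Step.op 1 0, Step.op 3 0, Step.tr 2 0, Step.sy 1, Step.op 1 4, Step.tr 3 5, Step.op 4 7, Step.tr 6 8],
    [Step.op 2 0, Step.tr 0 1, Step.sy 2],
    [Step.op 1 0, Step.tr 1 0, Step.op 1 2],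
    [Step.op 1 0, Step.op 3 0, Step.sy 0, Step.tr 1 0, Step.tr 3 2, Step.op 1 4, Step.op 1 5, Step.op 4 7, Step.tr 6 8],
    [Step.op 3 0, Step.sy 1],
    [Step.op 3 0, Step.op 1 1, Step.op 1 2],
    [Step.op 3 0, Step.op 0 1, Step.sy 2],
    [Step.op 3 0, Step.op 1 1, Step.op 1 2],
    [Step.op 3 0, Step.op 1 1, Step.op 1 2]],
   [[Step.op 1 0],
    [Step.op 1 0],
    [Step.op 1 0],
    [Step.op 1 0, Step.tr 1 0],
    [],
    [Step.op 1 0],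
    [Step.op 1 0, Step.op 3 0, Step.op 1 1, Step.tr 3 2, Step.op 4 4, Step.tr 1 5],
    [Step.op 1 0, Step.op 3 0, Step.sy 0, Step.tr 3 2, Step.op 0 1, Step.op 4 1, Step.sy 1, Step.tr 4 5, Step.tr 6 7, Step.op 4 8, Step.sy 9, Step.tr 11 10],
    [Step.op 1 0],
    [Step.op 1 0],
    [Step.op 1 0, Step.op 3 0, Step.sy 0, Step.tr 3 2, Step.op 1 4, Step.op 4 5, Step.tr 1 6],
    [Step.op 3 0, Step.op 1 1],
    [Step.op 1 0, Step.tr 1 0],
    [Step.op 1 0, Step.tr 1 0, Step.op 0 2, Step.op 4 3, Step.tr 2 4],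
    [Step.op 1 0, Step.op 4 0, Step.tr 0 2, Step.tr 1 3],
    [Step.op 0 0, Step.op 1 0, Step.tr 2 0, Step.op 4 1, Step.tr 3 4]],
   [[Step.sy 0],
    [Step.op 0 0, Step.op 1 1, Step.tr 2 1],
    [Step.op 0 0, Step.op 1 1],
    [Step.op 0 0, Step.op 1 1],
    [Step.op 0 0, Step.op 1 1],
    [],
    [Step.op 0 0, Step.op 1 0, Step.op 3 0, Step.tr 3 2, Step.op 1 1, Step.op 4 2, Step.sy 4, Step.tr 6 7, Step.sy 8, Step.tr 5 9],
    [Step.op 0 0, Step.op 1 0, Step.op 3 0, Step.sy 0, Step.tr 4 3, Step.op 1 1, Step.op 4 2, Step.op 1 5, Step.tr 7 8, Step.sy 9, Step.tr 6 10],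
    [Step.op 0 0, Step.op 1 0, Step.op 3 0, Step.op 1 1, Step.op 4 2, Step.sy 3, Step.tr 5 6, Step.sy 7, Step.tr 4 8],
    [Step.op 1 0, Step.op 3 0, Step.sy 0, Step.tr 3 2, Step.op 4 1, Step.op 1 4, Step.tr 5 6, Step.sy 7],
    [Step.op 0 0, Step.op 1 1],
    [Step.op 1 0, Step.op 3 0, Step.op 0 1, Step.op 1 2, Step.tr 3 2, Step.op 4 4, Step.tr 6 5, Step.sy 7],
    [Step.op 1 0, Step.op 3 0, Step.sy 0, Step.tr 2 1, Step.tr 3 2, Step.op 1 4, Step.tr 5 6, Step.sy 7],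
    [Step.op 3 0, Step.op 1 1, Step.tr 2 0, Step.tr 2 1, Step.op 4 3, Step.op 0 4, Step.tr 5 6, Step.sy 7],
    [Step.op 0 0, Step.op 3 0, Step.sy 0, Step.tr 2 1, Step.tr 3 2, Step.op 4 1, Step.op 0 4, Step.sy 5, Step.tr 8 6, Step.op 1 7, Step.tr 10 9],
    [Step.op 0 0, Step.op 1 1]],
   [[Step.op 3 0, Step.sy 1],
    [Step.op 2 0, Step.tr 1 0],
    [Step.op 0 0, Step.op 3 0, Step.tr 2 1, Step.op 0 1, Step.op 0 2, Step.op 1 3, Step.sy 3, Step.tr 4 6, Step.tr 5 7, Step.op 4 9, Step.tr 8 10],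
    [Step.op 1 0, Step.op 3 0, Step.tr 0 1, Step.op 4 2, Step.op 1 3, Step.tr 4 5, Step.sy 6],
    [Step.op 0 0, Step.op 1 0, Step.op 3 0, Step.op 1 1, Step.sy 2, Step.op 0 3, Step.tr 6 4, Step.op 4 7, Step.tr 5 8],
    [Step.op 0 0, Step.op 1 0, Step.op 3 0, Step.tr 2 3, Step.op 0 1, Step.op 4 2, Step.sy 4, Step.tr 7 6, Step.tr 5 8],
    [],
    [Step.op 3 0, Step.op 0 1, Step.sy 2],
    [Step.op 3 0, Step.op 1 1, Step.op 0 2],
    [Step.op 3 0, Step.op 1 1, Step.op 0 2],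
    [Step.op 3 0, Step.op 1 1, Step.op 0 2],
    [Step.op 0 0, Step.op 3 0, Step.op 0 1, Step.op 0 2, Step.tr 4 1, Step.op 4 5, Step.tr 3 6],
    [],
    [Step.op 0 0, Step.op 4 1, Step.tr 0 2],
    [Step.op 0 0, Step.op 1 0, Step.op 3 0, Step.op 0 1, Step.sy 3, Step.tr 2 5, Step.op 4 6, Step.tr 4 7],
    [Step.op 3 0, Step.sy 0, Step.op 4 1, Step.tr 3 2, Step.sy 4]],
   [[Step.op 3 0, Step.op 0 1],
    [Step.op 1 0, Step.op 3 0, Step.tr 1 2, Step.op 0 2, Step.op 4 3, Step.tr 4 5],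
    [Step.op 2 0, Step.tr 1 0],
    [Step.op 0 0, Step.op 3 0, Step.op 0 1, Step.sy 2, Step.tr 4 1, Step.op 4 5, Step.tr 3 6],
    [Step.op 0 0, Step.op 1 0, Step.op 3 0, Step.op 1 1, Step.op 4 2, Step.sy 2, Step.op 0 3, Step.tr 6 5, Step.tr 7 4, Step.op 4 9, Step.tr 8 10],
    [Step.op 0 0, Step.op 1 0, Step.op 3 0, Step.sy 0, Step.tr 3 4, Step.op 0 1, Step.op 4 2, Step.op 1 5, Step.tr 8 7, Step.tr 6 9],
    [Step.op 3 0, Step.op 0 1],
    [],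
    [Step.op 3 0, Step.op 0 1],
    [Step.op 3 0, Step.op 0 1],
    [Step.op 3 0, Step.op 1 1, Step.tr 1 2, Step.op 0 3],
    [Step.op 0 0, Step.op 3 0, Step.op 4 0, Step.op 0 1, Step.op 0 2, Step.sy 3, Step.tr 4 6, Step.tr 5 1, Step.op 4 8, Step.tr 7 9],
    [Step.op 0 0, Step.sy 0, Step.op 2 1, Step.tr 2 3, Step.sy 4],
    [Step.op 0 0, Step.op 2 1, Step.op 4 1, Step.tr 0 3, Step.sy 2, Step.tr 5 4],
    [Step.op 0 0, Step.op 1 0, Step.op 3 0, Step.op 0 1, Step.op 4 2, Step.sy 3, Step.tr 4 5, Step.tr 6 1, Step.op 4 8, Step.tr 7 9],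
    [Step.op 0 0, Step.op 3 0, Step.sy 0, Step.op 2 1, Step.op 1 2, Step.tr 3 4, Step.op 4 5, Step.sy 6, Step.tr 8 7]],
   [[Step.op 3 0, Step.sy 1],
    [Step.op 0 0, Step.op 3 0, Step.tr 1 2, Step.op 4 2, Step.op 0 3, Step.tr 5 4],
    [Step.op 0 0, Step.op 3 0, Step.tr 2 1, Step.op 0 2, Step.op 4 3, Step.sy 3, Step.tr 6 5, Step.op 4 4, Step.sy 7, Step.tr 8 9, Step.sy 10],
    [Step.op 2 0, Step.tr 1 0],
    [Step.op 1 0, Step.sy 1],
    [Step.op 0 0, Step.op 1 0, Step.op 3 0, Step.op 0 1, Step.op 4 2, Step.sy 3, Step.tr 6 5, Step.tr 4 7],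
    [Step.op 3 0, Step.op 1 1, Step.op 1 2],
    [Step.op 3 0, Step.op 0 1, Step.sy 2],
    [],
    [Step.op 3 0, Step.op 1 1, Step.op 1 2],
    [Step.op 3 0, Step.op 1 1, Step.op 1 2],
    [Step.op 0 0, Step.op 0 1],
    [Step.op 2 0, Step.tr 1 0],
    [Step.op 0 0, Step.op 2 0, Step.tr 2 0, Step.op 4 1, Step.tr 3 4],
    [Step.op 0 0, Step.op 0 1],
    [Step.op 0 0, Step.op 2 0, Step.tr 2 0, Step.op 1 1, Step.tr 4 1, Step.op 4 5, Step.tr 3 6]],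
   [[Step.op 3 0, Step.op 1 1],
    [Step.op 1 0, Step.op 3 0, Step.sy 0, Step.tr 2 3, Step.op 0 1, Step.op 4 1, Step.op 1 2, Step.op 1 4, Step.tr 5 7, Step.tr 8 6, Step.op 4 9, Step.sy 10, Step.tr 11 12, Step.sy 13],
    [Step.op 0 0, Step.op 1 0, Step.op 3 0, Step.tr 3 1, Step.op 1 2, Step.op 0 3, Step.op 1 4, Step.sy 4, Step.tr 2 6, Step.tr 8 5, Step.op 4 9, Step.op 4 10, Step.tr 11 12, Step.tr 7 13],
    [Step.op 0 0, Step.op 0 1],
    [Step.op 1 0, Step.sy 1],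
    [Step.op 1 0, Step.op 3 0, Step.sy 0, Step.tr 2 3, Step.op 4 1, Step.op 1 4, Step.tr 6 5],
    [Step.op 3 0, Step.op 1 1],
    [Step.op 3 0, Step.op 1 1],
    [Step.op 3 0, Step.op 1 1, Step.tr 2 1],
    [],
    [Step.op 3 0, Step.op 1 1],
    [Step.op 0 0, Step.op 0 1],
    [Step.op 0 0, Step.op 1 0, Step.op 3 0, Step.tr 2 3, Step.op 0 1, Step.op 4 4, Step.tr 5 6],
    [Step.op 0 0, Step.op 1 0, Step.op 3 0, Step.tr 3 1, Step.op 0 1, Step.op 4 2, Step.op 4 4, Step.tr 6 7, Step.tr 5 8],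
    [Step.op 0 0, Step.op 0 1],
    [Step.op 0 0, Step.op 1 0, Step.op 3 0, Step.tr 2 3, Step.op 0 1, Step.op 1 4, Step.tr 2 6, Step.op 4 7, Step.tr 5 8]],
   [[Step.op 3 0, Step.sy 1],
    [Step.op 3 0, Step.sy 0, Step.tr 1 2, Step.op 1 1, Step.op 1 3, Step.op 0 4, Step.op 4 5, Step.tr 7 6, Step.sy 8],
    [Step.op 0 0, Step.op 1 0, Step.op 3 0, Step.tr 3 1, Step.op 1 4, Step.tr 2 4, Step.op 4 5, Step.tr 7 6, Step.sy 8],
    [Step.op 0 0, Step.op 1 0, Step.op 3 0, Step.op 0 1, Step.op 0 3, Step.tr 2 5, Step.op 4 6, Step.tr 4 7],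
    [Step.op 0 0, Step.op 1 0, Step.op 3 0, Step.tr 1 3, Step.op 1 1, Step.op 4 2, Step.sy 2, Step.op 0 4, Step.tr 7 6, Step.tr 8 5, Step.op 4 10, Step.tr 9 11],
    [Step.op 2 0, Step.tr 1 0],
    [Step.op 3 0, Step.op 0 1, Step.op 1 2, Step.tr 3 2],
    [Step.op 3 0, Step.op 0 1, Step.op 1 2],
    [Step.op 3 0, Step.op 0 1, Step.op 1 2],
    [Step.op 3 0, Step.op 0 1, Step.op 1 2],
    [],
    [Step.op 0 0, Step.op 1 0, Step.op 3 0, Step.op 0 1, Step.op 4 2, Step.op 0 3, Step.tr 4 5, Step.tr 6 1, Step.op 4 8, Step.tr 7 9],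
    [Step.op 3 0, Step.sy 0, Step.op 2 1, Step.tr 2 3, Step.sy 4],
    [Step.op 0 0, Step.op 1 0, Step.op 4 1, Step.op 0 2, Step.tr 0 3, Step.op 2 4, Step.tr 6 5],
    [Step.op 1 0, Step.op 3 0, Step.op 4 0, Step.tr 3 1, Step.op 1 1, Step.op 1 2, Step.tr 4 5, Step.op 4 6, Step.tr 8 7, Step.sy 9],
    [Step.op 0 0, Step.op 1 0, Step.op 1 1, Step.op 0 2, Step.tr 3 1, Step.op 2 4, Step.op 4 5, Step.tr 0 7, Step.tr 6 8]],
   [[Step.op 4 0, Step.tr 1 0, Step.sy 2],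
    [Step.op 0 0, Step.op 3 0, Step.op 4 0, Step.tr 1 3, Step.tr 2 4],
    [Step.op 0 0, Step.op 3 0, Step.sy 0, Step.tr 2 3, Step.op 4 1, Step.sy 4, Step.tr 5 6, Step.sy 7],
    [Step.op 3 0],
    [Step.op 1 0, Step.op 1 1],
    [Step.op 1 0, Step.op 3 0, Step.sy 0, Step.tr 2 3, Step.op 1 1, Step.op 0 4, Step.tr 5 6, Step.op 4 7, Step.tr 4 8],
    [Step.op 1 0, Step.op 3 0, Step.op 4 0, Step.tr 1 3, Step.op 1 1, Step.op 4 2, Step.tr 4 6, Step.tr 5 7],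
    [Step.op 1 0, Step.op 3 0, Step.op 0 1, Step.op 1 1, Step.op 1 2, Step.tr 4 1, Step.tr 5 3, Step.op 4 7, Step.tr 6 8],
    [Step.op 3 0],
    [Step.op 1 0, Step.op 3 0, Step.tr 2 1],
    [Step.op 1 0, Step.op 3 0, Step.op 1 1, Step.op 1 2, Step.tr 3 1, Step.op 4 4, Step.tr 5 6],
    [],
    [Step.op 3 0],
    [Step.op 3 0],
    [Step.op 3 0, Step.op 1 1, Step.sy 2],
    [Step.op 3 0]],
   [[Step.sy 0],
    [Step.op 1 0, Step.op 1 1],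
    [Step.op 0 0, Step.op 3 0, Step.sy 0, Step.tr 2 3, Step.sy 1, Step.tr 5 4],
    [Step.op 3 0, Step.op 1 1, Step.op 0 2],
    [Step.op 1 0, Step.tr 0 1, Step.sy 2],
    [Step.op 1 0, Step.op 3 0, Step.sy 0, Step.tr 1 2, Step.tr 2 3, Step.op 1 4, Step.tr 6 5],
    [Step.sy 0],
    [Step.op 0 0, Step.sy 0, Step.op 2 1, Step.tr 3 2],
    [Step.op 2 0, Step.tr 0 1, Step.sy 2],
    [Step.op 0 0, Step.op 1 0, Step.op 3 0, Step.tr 3 2, Step.op 0 1, Step.op 4 4, Step.tr 6 5, Step.sy 7],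
    [Step.op 3 0, Step.sy 0, Step.op 2 1, Step.tr 3 2],
    [Step.op 3 0, Step.sy 1],
    [],
    [Step.op 3 0, Step.op 0 1, Step.sy 2],
    [Step.op 3 0, Step.op 1 1, Step.op 0 2],
    [Step.op 3 0, Step.op 1 1, Step.op 0 2]],
   [[Step.op 0 0, Step.op 4 1, Step.tr 2 0, Step.sy 3],
    [Step.op 3 0, Step.op 4 0, Step.op 0 1, Step.tr 3 2],
    [Step.op 0 0, Step.sy 1],
    [Step.op 3 0, Step.op 0 1],
    [Step.op 1 0, Step.op 3 0, Step.sy 0, Step.tr 0 1, Step.tr 2 3, Step.op 1 1, Step.op 0 5, Step.tr 4 7, Step.op 4 8, Step.tr 6 9],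
    [Step.op 1 0, Step.op 3 0, Step.sy 0, Step.tr 2 3, Step.op 1 1, Step.op 1 2, Step.tr 2 6, Step.tr 5 4, Step.op 4 7, Step.tr 8 9],
    [Step.op 3 0, Step.sy 0, Step.op 4 1, Step.tr 2 3],
    [Step.op 0 0, Step.op 2 1, Step.op 4 1, Step.tr 3 0, Step.sy 4, Step.tr 2 5],
    [Step.op 0 0, Step.op 2 0, Step.tr 0 2, Step.op 4 1, Step.tr 4 3, Step.sy 5],
    [Step.op 0 0, Step.op 1 0, Step.op 3 0, Step.tr 3 2, Step.op 0 1, Step.op 1 2, Step.op 0 4, Step.tr 5 7, Step.tr 6 2, Step.op 4 8, Step.tr 9 10],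
    [Step.op 0 0, Step.op 3 0, Step.tr 1 2, Step.op 4 1, Step.op 2 3, Step.tr 4 0, Step.sy 6, Step.tr 5 7],
    [Step.op 3 0, Step.op 0 1],
    [Step.op 3 0, Step.op 0 1],
    [],
    [Step.op 3 0, Step.op 0 1],
    [Step.op 3 0, Step.op 1 1, Step.tr 1 2, Step.op 0 3]],
   [[Step.op 3 0, Step.op 1 1],
    [Step.op 1 0, Step.op 3 0, Step.op 4 0, Step.op 1 1, Step.op 0 2, Step.tr 5 3, Step.tr 4 6],
    [Step.op 1 0, Step.op 3 0, Step.sy 0, Step.tr 2 3, Step.op 0 4, Step.op 1 4, Step.tr 1 5, Step.tr 6 4, Step.op 4 7, Step.tr 8 9],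
    [Step.op 3 0, Step.op 1 1, Step.tr 2 1],
    [Step.op 1 0, Step.op 1 1],
    [Step.op 1 0, Step.op 3 0, Step.sy 0, Step.tr 2 3, Step.op 4 1, Step.op 1 4, Step.tr 4 5, Step.tr 6 7],
    [Step.op 1 0, Step.op 3 0, Step.op 1 1, Step.sy 1, Step.tr 3 1, Step.tr 4 2, Step.op 4 6, Step.tr 5 7],
    [Step.op 1 0, Step.op 3 0, Step.op 4 0, Step.tr 1 3, Step.op 0 1, Step.op 1 1, Step.op 1 2, Step.tr 6 4, Step.tr 7 5, Step.op 4 9, Step.tr 8 10],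
    [Step.op 1 0, Step.op 1 1, Step.tr 2 1],
    [Step.op 1 0, Step.op 1 1, Step.tr 2 1],
    [Step.op 0 0, Step.op 1 0, Step.op 3 0, Step.op 0 1, Step.op 1 2, Step.op 1 3, Step.tr 4 6, Step.tr 5 2, Step.op 4 7, Step.tr 8 9],
    [Step.op 3 0, Step.op 1 1],
    [Step.op 3 0, Step.op 1 1],
    [Step.op 3 0, Step.op 1 1],
    [],
    [Step.op 3 0, Step.op 1 1]],
   [[Step.op 1 0, Step.sy 0, Step.op 0 1, Step.op 4 3, Step.tr 2 4],
    [Step.op 0 0, Step.op 1 0, Step.op 3 0, Step.op 4 0, Step.tr 1 4, Step.op 1 2, Step.tr 3 5, Step.tr 6 7],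
    [Step.op 1 0, Step.op 3 0, Step.sy 0, Step.tr 1 2, Step.tr 2 3, Step.op 0 1, Step.op 1 4, Step.op 0 5, Step.tr 6 8, Step.tr 7 5, Step.op 4 9, Step.tr 10 11],
    [Step.op 3 0, Step.op 0 1, Step.op 1 2],
    [Step.op 0 0, Step.op 1 0, Step.tr 0 2, Step.op 4 1, Step.tr 4 3, Step.sy 5],
    [Step.op 1 0, Step.op 1 1],
    [Step.op 3 0, Step.sy 0, Step.op 4 1, Step.tr 2 3],
    [Step.op 0 0, Step.op 1 0, Step.sy 0, Step.op 2 1, Step.op 0 2, Step.tr 4 3, Step.op 4 5, Step.tr 6 7],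
    [Step.op 1 0, Step.op 2 0, Step.tr 0 2, Step.op 0 1, Step.sy 3, Step.op 4 4, Step.tr 5 6],
    [Step.op 1 0, Step.op 3 0, Step.tr 2 1, Step.op 1 1, Step.sy 1, Step.op 0 3, Step.tr 4 1, Step.tr 5 6, Step.op 4 8, Step.tr 7 9],
    [Step.op 0 0, Step.op 1 0, Step.sy 0, Step.op 1 1, Step.op 0 2, Step.tr 1 4, Step.op 4 5, Step.op 2 6, Step.tr 3 7, Step.tr 8 9],
    [Step.op 3 0, Step.sy 1],
    [Step.op 3 0, Step.op 0 1, Step.op 1 2, Step.tr 3 2],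
    [Step.op 3 0, Step.op 0 1, Step.op 1 2],
    [Step.op 3 0, Step.op 0 1, Step.op 1 2],
    []]]

def m2111C2 (x y : Fin 16) : List (Step (Fin 16) 5) := nth [] (nth [] m2111C2Table x.val) y.val

def m2111C3 : M2111 → List (Step (Fin 16) 5)
  | M2111.bot => [Step.op 0 0, Step.op 1 0, Step.op 4 0, Step.rf 1, Step.rf 4, Step.rf 5, Step.rf 6, Step.rf 7, Step.rf 8, Step.rf 9, Step.rf 10, Step.rf 12, Step.rf 13, Step.rf 14, Step.rf 15]
  | M2111.a1 => [Step.op 0 0, Step.op 1 0, Step.op 2 0, Step.op 4 0, Step.sy 0, Step.tr 0 5, Step.tr 4 5, Step.rf 1, Step.rf 6, Step.rf 12, Step.op 1 1, Step.op 2 1, Step.op 4 1, Step.op 1 2, Step.op 4 2, Step.sy 3, Step.tr 0 15, Step.tr 11 1, Step.op 2 14, Step.sy 17, Step.op 2 18, Step.op 4 18]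
  | M2111.a2 => [Step.op 0 0, Step.op 1 0, Step.op 2 0, Step.op 3 0, Step.op 4 0, Step.sy 0, Step.tr 0 6, Step.tr 5 2, Step.rf 0, Step.op 0 1, Step.op 1 1, Step.op 2 1, Step.op 4 1, Step.op 1 2, Step.op 4 2, Step.sy 3, Step.tr 2 14, Step.tr 8 14, Step.tr 10 15, Step.tr 11 1, Step.tr 13 6, Step.op 4 11, Step.op 2 14, Step.sy 19, Step.op 2 20, Step.tr 22 21]
  | M2111.b => [Step.op 0 0, Step.op 1 0, Step.op 2 0, Step.op 4 0, Step.sy 0, Step.tr 0 5, Step.tr 1 2, Step.rf 4, Step.rf 7, Step.rf 9, Step.rf 11, Step.rf 14, Step.op 1 1, Step.op 4 1, Step.op 2 2, Step.sy 3, Step.sy 4, Step.tr 14 2, Step.op 2 13, Step.op 4 13]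
  | M2111.c => [Step.op 0 0, Step.op 1 0, Step.tr 0 1, Step.rf 1, Step.rf 3, Step.rf 6, Step.rf 8, Step.rf 11, Step.rf 12, Step.op 1 1, Step.op 2 1, Step.op 4 1, Step.op 1 2, Step.op 2 10, Step.op 4 10, Step.op 2 13, Step.op 4 13]
  | M2111.d => [Step.op 0 0, Step.op 1 0, Step.op 2 0, Step.op 4 0, Step.sy 0, Step.tr 0 5, Step.rf 1, Step.rf 2, Step.rf 6, Step.rf 7, Step.rf 11, Step.rf 13, Step.op 2 1, Step.op 4 1, Step.sy 1, Step.op 0 2, Step.op 2 2, Step.op 4 2, Step.sy 3, Step.sy 4, Step.tr 16 18, Step.sy 13, Step.sy 14, Step.sy 21]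
  | M2111.top => [Step.op 0 0, Step.op 1 0, Step.op 2 0, Step.op 3 0, Step.op 4 0, Step.sy 0, Step.tr 0 6, Step.tr 5 2, Step.tr 6 4, Step.op 0 1, Step.op 1 1, Step.op 4 1, Step.op 1 2, Step.op 4 2, Step.sy 3, Step.op 2 4, Step.sy 4, Step.op 1 9, Step.tr 1 17, Step.tr 2 13, Step.tr 8 13, Step.tr 10 14, Step.tr 12 6, Step.op 2 11, Step.op 4 11, Step.op 2 13, Step.sy 16, Step.op 0 18, Step.op 2 19, Step.sy 22, Step.tr 24 29, Step.tr 25 23]

def m2111PathTable : List (List (List (Fin 16))) :=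
  [[[], [3], [12], [1], [2], [5], [12]],
   [[3], [3], [12], [11, 12], [14, 12], [3, 12], [12]],
   [[12], [12], [12], [6, 12], [7, 12], [3, 12], [12]],
   [[1], [11, 12], [6, 12], [1], [2, 13, 11, 12], [1, 12], [12]],
   [[2], [14, 12], [7, 12], [2, 13, 11, 12], [2], [5, 3, 12], [12]],
   [[5], [3, 12], [3, 12], [1, 12], [5, 3, 12], [5], [12]],
   [[12], [12], [12], [12], [12], [12], [12]]]

def m2111Path (l1 l2 : M2111) : List (Fin 16) := nth [] (nth [] m2111PathTable (m2111Idx l1)) (m2111Idx l2)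

theorem m2111_h1 : ∀ l i x y, m2111Rep l x = m2111Rep l y → m2111Rep l (m2111Ops i x) = m2111Rep l (m2111Ops i y) := by
  decide +kernel

theorem m2111_h2 : ∀ l l' : M2111, l ≤ l' ↔ ∀ x y, m2111Rep l x = m2111Rep l y → m2111Rep l' x = m2111Rep l' y := by
  decide +kernel

theorem m2111_ha : ∀ x y, m2111Rep (m2111T x y) x = m2111Rep (m2111T x y) y := by
  decide +kernel

theorem m2111_hp2 : ∀ x y, x ≠ y → m2111Probe (m2111T x y) ∈ run m2111Ops (x, y) (m2111C2 x y) [(x, y)] := by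
  decide +kernel

theorem m2111_hp3 : ∀ l u, (u, m2111Rep l u) ∈ run m2111Ops (m2111Probe l) (m2111C3 l) [m2111Probe l] := by
  decide +kernel

theorem m2111_hp4 : ∀ l l', l ≤ m2111Ub l l' ∧ l' ≤ m2111Ub l l' ∧
    pathOK (fun u v => decide (m2111Rep l u = m2111Rep l v) || decide (m2111Rep l' u = m2111Rep l' v))
      (m2111Probe (m2111Ub l l')).1 (m2111Path l l') (m2111Probe (m2111Ub l l')).2 = true := by
  decide +kernel

/-- The lattice `M2111` is the congruence lattice of the unary algebra on `Fin 16` with the 5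
operations `m2111Ops`. -/
theorem m2111_representable : Representable M2111 :=
  representable_of_cert m2111Ops m2111Rep m2111T m2111Probe m2111Ub M2111.bot m2111C2 m2111C3 m2111Path
    m2111_h1 m2111_h2 rfl m2111_ha m2111_hp2 m2111_hp3 m2111_hp4

end Vale.Agent.Lib.P183
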