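import Vale.Agent.Lib.P183.Cert

namespace Vale.Agent.Lib.P183

instance M221.decLe : DecidableRel (fun a b : M221 => a ≤ b) :=
  fun a b => inferInstanceAs (Decidable (M221.leb a b = true))

/-- The carrier: the nine points of the 3 x 3 grid. -/
abbrev Grid : Type := Fin 3 × Fin 3

/-- The five unary operations `(r,c) ↦ (0,r), (r,0), (r,r), (r,1), (c,2)`. -/
def gridOps : Fin 5 → Grid → Grid :=
  ![fun p => (0, p.1), fun p => (p.1, 0), fun p => (p.1, p.1), fun p => (p.1, 1), fun p => (p.2, 2)]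

def gridIdx (p : Grid) : ℕ := 3 * p.1.val + p.2.val

def m221Idx : M221 → ℕ
  | M221.bot => 0
  | M221.j1 => 1
  | M221.m1 => 2
  | M221.j2 => 3
  | M221.m2 => 4
  | M221.k => 5
  | M221.top => 6

def m221RepTable : M221 → List Grid
  | M221.bot => [(0, 0), (0, 1), (0, 2), (1, 0), (1, 1), (1, 2), (2, 0), (2, 1), (2, 2)]
  | M221.j1 => [(0, 0), (0, 0), (0, 2), (0, 0), (0, 0), (0, 2), (2, 0), (2, 1), (2, 2)]
  | M221.m1 => [(0, 0), (0, 0), (0, 2), (0, 0), (0, 0), (0, 2), (2, 0), (2, 0), (2, 2)]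
  | M221.j2 => [(0, 0), (0, 1), (0, 0), (1, 0), (1, 1), (1, 2), (0, 0), (0, 1), (0, 0)]
  | M221.m2 => [(0, 0), (0, 1), (0, 0), (1, 0), (1, 1), (1, 0), (0, 0), (0, 1), (0, 0)]
  | M221.k => [(0, 0), (0, 1), (0, 1), (1, 0), (1, 1), (1, 1), (1, 0), (1, 1), (1, 1)]
  | M221.top => [(0, 0), (0, 0), (0, 0), (0, 0), (0, 0), (0, 0), (0, 0), (0, 0), (0, 0)]

def m221Rep (l : M221) (p : Grid) : Grid := nth (0, 0) (m221RepTable l) (gridIdx p)

def m221TTable : List (List M221) :=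
  [[M221.bot, M221.j1, M221.j2, M221.j1, M221.j1, M221.top, M221.j2, M221.top, M221.j2],
   [M221.j1, M221.bot, M221.k, M221.j1, M221.j1, M221.top, M221.top, M221.j2, M221.top],
   [M221.j2, M221.k, M221.bot, M221.top, M221.top, M221.j1, M221.j2, M221.top, M221.j2],
   [M221.j1, M221.j1, M221.top, M221.bot, M221.j1, M221.m2, M221.k, M221.top, M221.top],
   [M221.j1, M221.j1, M221.top, M221.j1, M221.bot, M221.k, M221.top, M221.k, M221.k],
   [M221.top, M221.top, M221.j1, M221.m2, M221.k, M221.bot, M221.top, M221.k, M221.k],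
   [M221.j2, M221.top, M221.j2, M221.k, M221.top, M221.top, M221.bot, M221.m1, M221.j2],
   [M221.top, M221.j2, M221.top, M221.top, M221.k, M221.k, M221.m1, M221.bot, M221.k],
   [M221.j2, M221.top, M221.j2, M221.top, M221.k, M221.k, M221.j2, M221.k, M221.bot]]

def m221T (x y : Grid) : M221 := nth M221.bot (nth [] m221TTable (gridIdx x)) (gridIdx y)

def m221Probe : M221 → Grid × Grid
  | M221.bot => ((0, 0), (0, 0))
  | M221.j1 => ((0, 0), (0, 1))
  | M221.m1 => ((2, 0), (2, 1))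
  | M221.j2 => ((0, 0), (0, 2))
  | M221.m2 => ((1, 0), (1, 2))
  | M221.k => ((0, 1), (0, 2))
  | M221.top => ((0, 0), (1, 2))

def m221Ub (a b : M221) : M221 := if M221.leb a b then b else if M221.leb b a then a else M221.top

def m221C2Table : List (List (List (Step Grid 5))) :=
  [[[],
    [],
    [],
    [Step.op 0 0],
    [Step.op 0 0],
    [],
    [Step.op 0 0],
    [Step.op 0 0, Step.op 4 0, Step.tr 1 2],
    [Step.op 0 0]],
   [[Step.sy 0],
    [],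
    [],
    [Step.op 0 0],
    [Step.op 0 0],
    [Step.op 0 0, Step.tr 1 0],
    [Step.op 0 0, Step.op 4 0, Step.sy 2, Step.tr 1 3],
    [Step.op 0 0],
    [Step.op 0 0, Step.op 2 0, Step.sy 0, Step.tr 2 3, Step.op 4 4, Step.tr 1 5]],
   [[Step.sy 0],
    [Step.sy 0],
    [],
    [Step.op 0 0, Step.op 1 0, Step.sy 0, Step.tr 2 3, Step.op 4 1, Step.tr 4 5],
    [Step.op 0 0, Step.op 2 0, Step.sy 0, Step.tr 2 3, Step.op 4 1, Step.tr 4 5],
    [Step.op 0 0],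
    [Step.op 0 0],
    [Step.op 2 0, Step.op 4 0, Step.tr 1 2],
    [Step.op 0 0]],
   [[Step.op 0 0, Step.sy 1],
    [Step.op 0 0, Step.sy 1],
    [Step.op 0 0, Step.op 1 0, Step.sy 0, Step.tr 3 2, Step.op 4 1, Step.tr 5 4, Step.sy 6],
    [],
    [Step.op 4 0, Step.op 0 1],
    [],
    [Step.op 0 0],
    [Step.op 0 0, Step.op 4 0, Step.tr 1 2, Step.op 0 2, Step.tr 4 3],
    [Step.op 2 0, Step.op 4 0, Step.sy 0, Step.tr 1 3, Step.op 0 2, Step.op 4 4, Step.sy 6, Step.tr 5 7]],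
   [[Step.op 3 0, Step.sy 0, Step.tr 2 1],
    [Step.op 0 0, Step.sy 1],
    [Step.op 0 0, Step.op 2 0, Step.sy 0, Step.tr 3 2, Step.op 4 1, Step.tr 5 4, Step.sy 6],
    [Step.op 4 0, Step.op 0 1, Step.sy 2],
    [],
    [Step.op 4 0, Step.op 0 1],
    [Step.op 0 0, Step.op 4 0, Step.op 0 2, Step.sy 2, Step.tr 1 4, Step.sy 3, Step.tr 6 5],
    [Step.op 0 0],
    [Step.op 0 0]],
   [[Step.sy 0],
    [Step.op 0 0, Step.tr 0 1, Step.sy 2],
    [Step.op 0 0, Step.sy 1],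
    [Step.sy 0],
    [Step.op 4 0, Step.op 0 1, Step.sy 2],
    [],
    [Step.op 4 0, Step.op 1 1, Step.tr 0 2, Step.sy 3],
    [Step.op 0 0],
    [Step.op 0 0]],
   [[Step.op 0 0, Step.sy 1],
    [Step.op 0 0, Step.op 4 0, Step.sy 1, Step.tr 3 2],
    [Step.op 0 0, Step.sy 1],
    [Step.op 0 0, Step.sy 1],
    [Step.op 0 0, Step.op 4 0, Step.sy 1, Step.op 0 2, Step.tr 3 2, Step.tr 4 5],
    [Step.op 4 0, Step.op 1 1, Step.tr 2 0],
    [],
    [],
    [Step.op 4 0, Step.op 0 1]],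
   [[Step.op 0 0, Step.op 4 0, Step.tr 2 1, Step.sy 3],
    [Step.op 0 0, Step.sy 1],
    [Step.op 2 0, Step.op 4 0, Step.tr 2 1, Step.sy 3],
    [Step.op 0 0, Step.op 4 0, Step.tr 2 1, Step.op 0 2, Step.tr 3 4, Step.sy 5],
    [Step.op 0 0, Step.sy 1],
    [Step.op 0 0, Step.sy 1],
    [Step.sy 0],
    [],
    [Step.op 4 0, Step.op 0 1]],
   [[Step.op 4 0, Step.sy 0, Step.tr 2 1],
    [Step.op 2 0, Step.op 4 0, Step.sy 1, Step.tr 3 2],
    [Step.op 0 0, Step.sy 1],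
    [Step.op 2 0, Step.op 4 0, Step.sy 0, Step.tr 3 1, Step.op 0 2, Step.op 4 4, Step.sy 5, Step.tr 7 6],
    [Step.op 0 0, Step.sy 1],
    [Step.op 0 0, Step.sy 1],
    [Step.op 4 0, Step.op 0 1, Step.sy 2],
    [Step.op 4 0, Step.op 0 1, Step.sy 2],
    []]]

def m221C2 (x y : Grid) : List (Step Grid 5) := nth [] (nth [] m221C2Table (gridIdx x)) (gridIdx y)

def m221C3 : M221 → List (Step Grid 5)
  | M221.bot => [Step.op 3 0, Step.op 4 0, Step.rf (1, 0), Step.rf (1, 1), Step.rf (1, 2), Step.rf (2, 0), Step.rf (2, 1), Step.rf (2, 2)]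
  | M221.j1 => [Step.op 0 0, Step.op 4 0, Step.sy 0, Step.rf (0, 2), Step.rf (2, 0), Step.rf (2, 1), Step.rf (2, 2), Step.op 1 2, Step.op 2 2, Step.sy 2, Step.sy 8, Step.sy 9]
  | M221.m1 => [Step.op 0 0, Step.op 1 0, Step.op 2 0, Step.op 4 0, Step.sy 0, Step.rf (0, 0), Step.op 0 4, Step.op 1 4, Step.op 2 4, Step.sy 4, Step.sy 7, Step.sy 8, Step.sy 9]
  | M221.j2 => [Step.op 0 0, Step.op 3 0, Step.op 4 0, Step.sy 0, Step.tr 0 3, Step.rf (1, 0), Step.rf (1, 1), Step.rf (1, 2), Step.op 1 3, Step.op 3 3, Step.sy 5, Step.sy 9, Step.sy 10]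
  | M221.m2 => [Step.op 0 0, Step.op 1 0, Step.op 2 0, Step.op 4 0, Step.sy 0, Step.rf (0, 0), Step.op 0 4, Step.op 1 4, Step.op 2 4, Step.op 3 4, Step.sy 7, Step.sy 8, Step.sy 9, Step.sy 10]
  | M221.k => [Step.op 0 0, Step.op 3 0, Step.op 4 0, Step.sy 0, Step.rf (1, 0), Step.rf (1, 1), Step.op 1 3, Step.op 2 3, Step.op 3 3, Step.sy 3, Step.tr 8 10, Step.sy 7, Step.sy 8, Step.sy 9, Step.sy 11]
  | M221.top => [Step.op 0 0, Step.op 1 0, Step.op 2 0, Step.op 4 0, Step.sy 0, Step.tr 0 5, Step.tr 5 1, Step.op 4 1, Step.sy 1, Step.sy 2, Step.sy 3, Step.op 1 4, Step.op 3 4, Step.op 4 7, Step.tr 1 13, Step.tr 8 5, Step.tr 14 5, Step.sy 12, Step.sy 15]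

def m221PathTable : List (List (List Grid)) :=
  [[[], [(0, 1)], [(2, 1)], [(0, 2)], [(1, 2)], [(0, 2)], [(1, 2)]],
   [[(0, 1)], [(0, 1)], [(2, 1)], [(0, 2), (1, 2)], [(0, 2), (1, 2)], [(1, 1), (1, 2)], [(1, 2)]],
   [[(2, 1)], [(2, 1)], [(2, 1)], [(0, 2), (1, 2)], [(0, 2), (1, 2)], [(1, 1), (1, 2)], [(1, 2)]],
   [[(0, 2)], [(0, 2), (1, 2)], [(0, 2), (1, 2)], [(0, 2)], [(1, 2)], [(2, 2), (1, 2)], [(1, 2)]],
   [[(1, 2)], [(0, 2), (1, 2)], [(0, 2), (1, 2)], [(1, 2)], [(1, 2)], [(2, 2), (1, 2)], [(1, 2)]],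
   [[(0, 2)], [(1, 1), (1, 2)], [(1, 1), (1, 2)], [(2, 2), (1, 2)], [(2, 2), (1, 2)], [(0, 2)], [(1, 2)]],
   [[(1, 2)], [(1, 2)], [(1, 2)], [(1, 2)], [(1, 2)], [(1, 2)], [(1, 2)]]]

def m221Path (a b : M221) : List Grid := nth [] (nth [] m221PathTable (m221Idx a)) (m221Idx b)

theorem m221_h1 : ∀ l i x y, m221Rep l x = m221Rep l y → m221Rep l (gridOps i x) = m221Rep l (gridOps i y) := by
  decide

theorem m221_h2 : ∀ l l' : M221, l ≤ l' ↔ ∀ x y, m221Rep l x = m221Rep l y → m221Rep l' x = m221Rep l' y := by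
  decide

theorem m221_ha : ∀ x y, m221Rep (m221T x y) x = m221Rep (m221T x y) y := by
  decide

theorem m221_hp2 : ∀ x y, x ≠ y → m221Probe (m221T x y) ∈ run gridOps (x, y) (m221C2 x y) [(x, y)] := by
  decide

theorem m221_hp3 : ∀ l u, (u, m221Rep l u) ∈ run gridOps (m221Probe l) (m221C3 l) [m221Probe l] := by
  decide +kernel

theorem m221_hp4 : ∀ l l', l ≤ m221Ub l l' ∧ l' ≤ m221Ub l l' ∧
    pathOK (fun u v => decide (m221Rep l u = m221Rep l v) || decide (m221Rep l' u = m221Rep l' v))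
      (m221Probe (m221Ub l l')).1 (m221Path l l') (m221Probe (m221Ub l l')).2 = true := by
  decide

/-- The lattice `M(2,2,1)` is the congruence lattice of the unary algebra on the 3 x 3 grid
with the five operations `gridOps`. -/
theorem m221_representable : Representable M221 :=
  representable_of_cert gridOps m221Rep m221T m221Probe m221Ub M221.bot m221C2 m221C3 m221Path
    m221_h1 m221_h2 rfl m221_ha m221_hp2 m221_hp3 m221_hp4

end Vale.Agent.Lib.P183
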