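import Vale.Agent.Lib.P183.Cert
import Vale.Agent.Lib.P183.ParDefs

namespace Vale.Agent.Lib.P183

instance M311.decLe : DecidableRel (fun l1 l2 : M311 => l1 ≤ l2) :=
  fun l1 l2 => inferInstanceAs (Decidable (M311.leb l1 l2 = true))

/-- The tables of the 3 unary operations on the 11 points `0, ..., 10`. -/
def m311OpTable : List (List (Fin 11)) :=
  [[0, 3, 4, 0, 0, 4, 4, 0, 0, 4, 4],
   [0, 1, 2, 7, 8, 9, 10, 1, 2, 0, 1],
   [5, 6, 2, 5, 5, 2, 2, 5, 5, 2, 2]]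

/-- The three unary operations of the eleven-point algebra, read off the tables. -/
def m311Ops (i : Fin 3) (x : Fin 11) : Fin 11 := nth 0 (nth [] m311OpTable i.val) x.val

def m311Idx : M311 → ℕ
  | M311.bot => 0
  | M311.a1 => 1
  | M311.a2 => 2
  | M311.a3 => 3
  | M311.b => 4
  | M311.c => 5
  | M311.top => 6

def m311RepTable : M311 → List (Fin 11)
  | M311.bot => [0, 1, 2, 3, 4, 5, 6, 7, 8, 9, 10]
  | M311.a1 => [0, 1, 0, 3, 0, 0, 6, 7, 0, 0, 10]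
  | M311.a2 => [0, 1, 0, 3, 0, 0, 6, 7, 0, 0, 7]
  | M311.a3 => [0, 1, 0, 3, 0, 0, 3, 7, 0, 0, 7]
  | M311.b => [0, 0, 2, 0, 4, 5, 5, 0, 8, 9, 9]
  | M311.c => [0, 1, 1, 3, 3, 5, 1, 7, 7, 9, 1]
  | M311.top => [0, 0, 0, 0, 0, 0, 0, 0, 0, 0, 0]

def m311Rep (l : M311) (p : Fin 11) : Fin 11 := nth 0 (m311RepTable l) p.val

def m311TTable : List (List M311) :=
  [[M311.bot, M311.b, M311.a1, M311.b, M311.a1, M311.a1, M311.top, M311.b, M311.a1, M311.a1, M311.top],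
   [M311.b, M311.bot, M311.c, M311.b, M311.top, M311.top, M311.c, M311.b, M311.top, M311.top, M311.c],
   [M311.a1, M311.c, M311.bot, M311.top, M311.a1, M311.a1, M311.c, M311.top, M311.a1, M311.a1, M311.c],
   [M311.b, M311.b, M311.top, M311.bot, M311.c, M311.top, M311.a3, M311.b, M311.top, M311.top, M311.top],
   [M311.a1, M311.top, M311.a1, M311.c, M311.bot, M311.a1, M311.top, M311.top, M311.a1, M311.a1, M311.top],
   [M311.a1, M311.top, M311.a1, M311.top, M311.a1, M311.bot, M311.b, M311.top, M311.a1, M311.a1, M311.top],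
   [M311.top, M311.c, M311.c, M311.a3, M311.top, M311.b, M311.bot, M311.top, M311.top, M311.top, M311.c],
   [M311.b, M311.b, M311.top, M311.b, M311.top, M311.top, M311.top, M311.bot, M311.c, M311.top, M311.a2],
   [M311.a1, M311.top, M311.a1, M311.top, M311.a1, M311.a1, M311.top, M311.c, M311.bot, M311.a1, M311.top],
   [M311.a1, M311.top, M311.a1, M311.top, M311.a1, M311.a1, M311.top, M311.top, M311.a1, M311.bot, M311.b],
   [M311.top, M311.c, M311.c, M311.top, M311.top, M311.top, M311.c, M311.a2, M311.top, M311.b, M311.bot]]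

def m311T (x y : Fin 11) : M311 := nth M311.bot (nth [] m311TTable x.val) y.val

def m311Probe : M311 → Fin 11 × Fin 11
  | M311.bot => (0, 0)
  | M311.a1 => (0, 2)
  | M311.a2 => (7, 10)
  | M311.a3 => (3, 6)
  | M311.b => (0, 1)
  | M311.c => (1, 2)
  | M311.top => (0, 6)

def m311Ub (l1 l2 : M311) : M311 := if M311.leb l1 l2 then l2 else if M311.leb l2 l1 then l1 else M311.top

def m311C2Table : List (List (List (Step (Fin 11) 3))) :=
  [[[],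
    [],
    [],
    [Step.op 1 0, Step.op 1 1],
    [Step.op 1 0, Step.op 1 1],
    [Step.op 2 0, Step.tr 0 1],
    [],
    [Step.op 1 0],
    [Step.op 1 0],
    [Step.op 2 0, Step.op 1 1, Step.tr 0 2],
    [Step.op 0 0, Step.op 1 0, Step.sy 0, Step.tr 3 2, Step.op 1 1, Step.op 2 4, Step.op 1 5, Step.tr 7 6]],
   [[Step.sy 0],
    [],
    [],
    [Step.op 0 0, Step.tr 0 1, Step.sy 2],
    [Step.op 1 0, Step.sy 0, Step.tr 2 1, Step.op 1 1, Step.op 1 3, Step.tr 2 4, Step.op 2 4, Step.op 0 5, Step.sy 6, Step.tr 7 9, Step.sy 10, Step.tr 8 11],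
    [Step.op 1 0, Step.sy 0, Step.op 1 1, Step.tr 2 3, Step.op 2 3, Step.tr 5 4, Step.sy 6],
    [Step.op 2 0, Step.tr 0 1],
    [Step.op 0 0, Step.op 1 1, Step.tr 0 2, Step.sy 3],
    [Step.op 1 0, Step.sy 0, Step.tr 2 1, Step.op 2 1, Step.op 0 3, Step.sy 3, Step.tr 4 6, Step.op 1 5, Step.sy 7, Step.tr 8 9],
    [Step.op 0 0, Step.op 1 0, Step.op 2 0, Step.op 1 1, Step.sy 2, Step.sy 3, Step.op 1 4, Step.tr 7 6, Step.tr 5 8],
    [Step.op 2 0, Step.op 1 1, Step.tr 0 2]],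
   [[Step.sy 0],
    [Step.sy 0],
    [],
    [Step.op 1 0, Step.sy 0, Step.tr 2 1, Step.op 1 1, Step.op 1 3, Step.op 2 4, Step.op 0 5, Step.tr 2 6, Step.tr 7 8],
    [Step.op 0 0, Step.tr 0 1, Step.sy 2],
    [Step.op 1 0, Step.op 1 1, Step.sy 2],
    [Step.op 1 0, Step.op 1 1, Step.sy 2],
    [Step.op 1 0, Step.sy 0, Step.tr 2 1, Step.op 2 1, Step.op 0 3, Step.tr 2 4, Step.op 1 5, Step.tr 7 6],
    [Step.op 0 0, Step.op 1 1, Step.tr 0 2, Step.sy 3],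
    [Step.op 1 0, Step.sy 1],
    [Step.op 1 0, Step.sy 1]],
   [[Step.op 1 0, Step.op 1 1, Step.sy 2],
    [Step.op 0 0, Step.tr 1 0],
    [Step.op 0 0, Step.op 1 0, Step.op 1 1, Step.op 1 2, Step.op 1 3, Step.op 2 4, Step.sy 6, Step.tr 5 7],
    [],
    [Step.op 1 0, Step.op 1 1],
    [Step.op 0 0, Step.op 1 0, Step.op 2 0, Step.op 1 1, Step.op 1 2, Step.op 1 4, Step.op 2 5, Step.tr 7 3, Step.sy 8, Step.tr 6 9],
    [],
    [Step.op 1 0, Step.tr 0 1, Step.op 0 1, Step.tr 3 2],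
    [Step.op 1 0, Step.op 0 1, Step.op 1 1, Step.op 1 2, Step.op 2 3, Step.op 1 4, Step.sy 5, Step.tr 6 7],
    [Step.op 0 0, Step.op 1 0, Step.op 2 0, Step.op 1 1, Step.op 1 2, Step.op 1 4, Step.op 2 5, Step.tr 7 3, Step.sy 8, Step.tr 6 9],
    [Step.op 0 0, Step.op 1 0, Step.op 2 0, Step.op 1 1, Step.op 2 2, Step.sy 3, Step.tr 6 5, Step.op 1 4, Step.tr 8 7]],
   [[Step.op 1 0, Step.op 1 1, Step.sy 2],
    [Step.op 0 0, Step.op 1 0, Step.op 1 1, Step.op 1 2, Step.op 1 3, Step.op 2 4, Step.sy 4, Step.tr 7 6, Step.tr 5 8],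
    [Step.op 0 0, Step.tr 1 0],
    [Step.op 1 0, Step.op 1 1, Step.sy 2],
    [],
    [Step.op 0 0, Step.op 2 0, Step.tr 0 2, Step.tr 1 3],
    [Step.op 0 0, Step.tr 1 0],
    [Step.op 1 0, Step.op 0 1, Step.op 1 1, Step.op 1 2, Step.op 2 3, Step.sy 3, Step.tr 6 5, Step.op 1 4, Step.tr 8 7],
    [Step.op 1 0, Step.tr 0 1, Step.op 0 1, Step.tr 3 2],
    [Step.op 0 0, Step.op 2 0, Step.tr 1 0, Step.op 1 2, Step.tr 3 4],
    [Step.op 0 0, Step.op 1 0, Step.op 2 0, Step.op 1 1, Step.op 2 2, Step.sy 3, Step.tr 6 5, Step.op 1 4, Step.tr 8 7]],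
   [[Step.op 2 0, Step.tr 1 0, Step.sy 2],
    [Step.op 1 0, Step.sy 0, Step.op 1 1, Step.tr 3 2, Step.op 2 3, Step.tr 4 5],
    [Step.op 1 0, Step.op 1 1],
    [Step.op 1 0, Step.sy 0, Step.op 1 1, Step.op 0 3, Step.op 2 3, Step.tr 2 5, Step.tr 4 6],
    [Step.op 1 0, Step.op 1 1],
    [],
    [Step.op 1 0, Step.op 1 1],
    [Step.op 0 0, Step.op 1 0, Step.op 2 0, Step.tr 3 0, Step.sy 1, Step.op 0 2, Step.op 2 2, Step.sy 4, Step.tr 5 6, Step.tr 8 7, Step.op 1 9, Step.tr 11 10],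
    [Step.op 1 0, Step.op 1 1],
    [Step.op 1 0, Step.tr 0 1, Step.op 2 1, Step.tr 3 2, Step.sy 4],
    [Step.op 1 0, Step.sy 0, Step.op 1 1, Step.op 2 3, Step.tr 2 4, Step.op 1 5, Step.tr 6 5, Step.tr 3 7]],
   [[Step.sy 0],
    [Step.op 2 0, Step.tr 1 0, Step.sy 2],
    [Step.op 1 0, Step.op 1 1],
    [Step.sy 0],
    [Step.op 0 0, Step.tr 0 1, Step.sy 2],
    [Step.op 1 0, Step.op 1 1, Step.sy 2],
    [],
    [Step.op 0 0, Step.op 1 0, Step.sy 0, Step.sy 1, Step.op 0 2, Step.tr 4 5, Step.op 1 6, Step.tr 7 3],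
    [Step.op 0 0, Step.op 1 1, Step.tr 0 2, Step.sy 3],
    [Step.op 1 0, Step.sy 0, Step.op 1 1, Step.op 2 3, Step.tr 2 4, Step.op 1 5, Step.tr 6 2],
    [Step.op 1 0, Step.tr 0 1, Step.op 2 1, Step.tr 3 2, Step.sy 4]],
   [[Step.op 1 0, Step.sy 1],
    [Step.op 0 0, Step.op 1 1, Step.tr 2 0],
    [Step.op 0 0, Step.op 1 0, Step.op 1 1, Step.op 2 2, Step.op 1 3, Step.sy 4, Step.tr 5 6],
    [Step.op 1 0, Step.tr 1 0, Step.op 0 1, Step.tr 2 3, Step.sy 4],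
    [Step.op 1 0, Step.op 1 1, Step.sy 1, Step.tr 3 2, Step.op 2 2, Step.op 0 4, Step.sy 4, Step.tr 5 7, Step.op 1 6, Step.sy 8, Step.tr 9 10],
    [Step.op 0 0, Step.op 1 0, Step.op 1 1, Step.op 2 2, Step.op 1 3, Step.sy 4, Step.tr 5 6],
    [Step.op 0 0, Step.op 1 0, Step.op 1 1, Step.op 2 2, Step.op 1 3, Step.sy 4, Step.tr 5 6],
    [],
    [Step.op 1 0],
    [Step.op 0 0, Step.op 1 0, Step.op 2 0, Step.op 1 1, Step.op 2 2, Step.tr 5 3, Step.op 1 4, Step.sy 6, Step.tr 7 8],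
    []],
   [[Step.op 1 0, Step.sy 1],
    [Step.op 0 0, Step.op 1 0, Step.op 1 1, Step.op 2 2, Step.sy 2, Step.tr 5 4, Step.op 1 3, Step.tr 7 6],
    [Step.op 0 0, Step.op 1 1, Step.tr 2 0],
    [Step.op 1 0, Step.op 1 1, Step.sy 1, Step.tr 3 2, Step.op 2 2, Step.op 0 4, Step.tr 3 5, Step.op 1 6, Step.tr 8 7],
    [Step.op 1 0, Step.tr 1 0, Step.op 0 1, Step.tr 2 3, Step.sy 4],
    [Step.op 0 0, Step.op 2 0, Step.tr 0 2, Step.op 1 1, Step.tr 4 3],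
    [Step.op 0 0, Step.op 1 1, Step.tr 2 0],
    [Step.op 1 0, Step.sy 1],
    [],
    [Step.op 1 0, Step.sy 1],
    [Step.op 0 0, Step.op 1 0, Step.op 1 1, Step.op 2 2, Step.op 1 3, Step.tr 5 4]],
   [[Step.op 2 0, Step.op 1 1, Step.tr 2 0, Step.sy 3],
    [Step.op 0 0, Step.op 1 0, Step.op 2 0, Step.op 1 1, Step.sy 3, Step.op 1 4, Step.tr 5 6, Step.sy 7, Step.tr 2 8],
    [Step.op 1 0],
    [Step.op 1 0, Step.op 2 0, Step.sy 0, Step.op 1 1, Step.op 1 2, Step.sy 2, Step.tr 6 5, Step.op 0 4, Step.op 2 4, Step.sy 7, Step.tr 8 3, Step.tr 10 9, Step.tr 11 12],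
    [Step.op 1 0, Step.op 1 1],
    [Step.op 1 0, Step.tr 1 0, Step.op 2 1, Step.tr 2 3],
    [Step.op 1 0, Step.op 0 1, Step.op 1 1, Step.sy 1, Step.tr 4 3, Step.op 1 2, Step.op 2 5, Step.op 1 6, Step.tr 8 7],
    [Step.op 0 0, Step.op 1 0, Step.op 2 0, Step.op 1 1, Step.op 2 2, Step.tr 3 5, Step.op 1 4, Step.sy 6, Step.tr 8 7, Step.sy 9],
    [Step.op 1 0],
    [],
    [Step.op 1 0]],
   [[Step.op 0 0, Step.op 1 0, Step.sy 0, Step.tr 2 3, Step.op 1 1, Step.op 2 4, Step.op 1 5, Step.tr 6 7, Step.sy 8],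
    [Step.op 2 0, Step.op 1 1, Step.tr 2 0, Step.sy 3],
    [Step.op 1 0],
    [Step.op 0 0, Step.op 1 0, Step.op 2 0, Step.op 1 1, Step.op 2 2, Step.sy 3, Step.tr 5 6, Step.op 1 4, Step.tr 7 8, Step.sy 9],
    [Step.op 0 0, Step.op 1 0, Step.op 2 0, Step.op 1 1, Step.op 2 2, Step.sy 3, Step.tr 5 6, Step.op 1 4, Step.tr 7 8, Step.sy 9],
    [Step.op 1 0, Step.op 0 1, Step.op 1 1, Step.op 2 1, Step.op 1 2, Step.sy 3, Step.sy 4, Step.op 1 5, Step.tr 8 7, Step.tr 6 9],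
    [Step.op 1 0, Step.tr 1 0, Step.op 2 1, Step.tr 2 3],
    [Step.sy 0],
    [Step.op 0 0, Step.op 1 0, Step.op 1 1, Step.op 2 2, Step.op 1 3, Step.tr 4 5, Step.sy 6],
    [Step.op 1 0, Step.sy 1],
    []]]

def m311C2 (x y : Fin 11) : List (Step (Fin 11) 3) := nth [] (nth [] m311C2Table x.val) y.val

def m311C3 : M311 → List (Step (Fin 11) 3)
  | M311.bot => [Step.op 2 0, Step.rf 1, Step.rf 2, Step.rf 3, Step.rf 4, Step.rf 6, Step.rf 7, Step.rf 8, Step.rf 9, Step.rf 10]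
  | M311.a1 => [Step.op 0 0, Step.op 2 0, Step.sy 0, Step.tr 0 3, Step.tr 2 3, Step.rf 1, Step.rf 3, Step.rf 6, Step.rf 7, Step.rf 10, Step.op 1 1, Step.sy 1, Step.op 1 5, Step.sy 11]
  | M311.a2 => [Step.op 0 0, Step.op 1 0, Step.op 2 0, Step.sy 0, Step.tr 0 4, Step.rf 0, Step.rf 3, Step.rf 6, Step.op 1 1, Step.sy 1, Step.op 1 3, Step.sy 3, Step.tr 11 12, Step.op 1 9, Step.sy 9, Step.op 1 13, Step.tr 14 12, Step.sy 14, Step.sy 16, Step.sy 17]
  | M311.a3 => [Step.op 0 0, Step.op 1 0, Step.op 2 0, Step.sy 0, Step.tr 0 4, Step.rf 0, Step.rf 1, Step.rf 7, Step.op 1 1, Step.sy 1, Step.sy 2, Step.op 1 3, Step.sy 3, Step.tr 12 13, Step.op 1 9, Step.sy 9, Step.op 1 14, Step.tr 15 13, Step.sy 15, Step.sy 17, Step.sy 18]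
  | M311.b => [Step.op 0 0, Step.op 2 0, Step.sy 0, Step.tr 0 3, Step.rf 2, Step.rf 4, Step.rf 5, Step.rf 8, Step.rf 9, Step.op 1 1, Step.sy 1, Step.op 1 2, Step.sy 2, Step.sy 10, Step.sy 12]
  | M311.c => [Step.op 0 0, Step.op 2 0, Step.sy 0, Step.tr 0 3, Step.tr 2 3, Step.rf 0, Step.rf 3, Step.rf 5, Step.rf 7, Step.rf 9, Step.op 1 1, Step.sy 1, Step.op 1 5, Step.sy 11]
  | M311.top => [Step.op 0 0, Step.op 1 0, Step.op 2 0, Step.sy 0, Step.tr 0 4, Step.tr 4 2, Step.op 1 1, Step.sy 1, Step.op 1 2, Step.sy 2, Step.op 1 3, Step.sy 3, Step.op 1 6, Step.tr 11 12, Step.sy 7, Step.op 0 9, Step.op 2 9, Step.sy 9, Step.op 2 13, Step.op 1 14, Step.tr 17 4, Step.tr 19 4, Step.op 1 16, Step.sy 16, Step.sy 20, Step.sy 23]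

def m311PathTable : List (List (List (Fin 11))) :=
  [[[], [2], [10], [6], [1], [2], [6]],
   [[2], [2], [10], [6], [5, 6], [2, 6], [6]],
   [[10], [10], [10], [6], [5, 6], [2, 6], [6]],
   [[6], [6], [6], [6], [3, 6], [2, 6], [6]],
   [[1], [5, 6], [5, 6], [3, 6], [1], [1, 6], [6]],
   [[2], [2, 6], [2, 6], [2, 6], [1, 6], [2], [6]],
   [[6], [6], [6], [6], [6], [6], [6]]]

def m311Path (l1 l2 : M311) : List (Fin 11) := nth [] (nth [] m311PathTable (m311Idx l1)) (m311Idx l2)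

theorem m311_h1 : ∀ l i x y, m311Rep l x = m311Rep l y → m311Rep l (m311Ops i x) = m311Rep l (m311Ops i y) := by
  decide +kernel

theorem m311_h2 : ∀ l l' : M311, l ≤ l' ↔ ∀ x y, m311Rep l x = m311Rep l y → m311Rep l' x = m311Rep l' y := by
  decide +kernel

theorem m311_ha : ∀ x y, m311Rep (m311T x y) x = m311Rep (m311T x y) y := by
  decide +kernel

theorem m311_hp2 : ∀ x y, x ≠ y → m311Probe (m311T x y) ∈ run m311Ops (x, y) (m311C2 x y) [(x, y)] := by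
  decide +kernel

theorem m311_hp3 : ∀ l u, (u, m311Rep l u) ∈ run m311Ops (m311Probe l) (m311C3 l) [m311Probe l] := by
  decide +kernel

theorem m311_hp4 : ∀ l l', l ≤ m311Ub l l' ∧ l' ≤ m311Ub l l' ∧
    pathOK (fun u v => decide (m311Rep l u = m311Rep l v) || decide (m311Rep l' u = m311Rep l' v))
      (m311Probe (m311Ub l l')).1 (m311Path l l') (m311Probe (m311Ub l l')).2 = true := by
  decide +kernel

/-- The lattice `M311` is the congruence lattice of the unary algebra on `Fin 11` with the 3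
operations `m311Ops`. -/
theorem m311_representable : Representable M311 :=
  representable_of_cert m311Ops m311Rep m311T m311Probe m311Ub M311.bot m311C2 m311C3 m311Path
    m311_h1 m311_h2 rfl m311_ha m311_hp2 m311_hp3 m311_hp4

end Vale.Agent.Lib.P183
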