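import Vale.Agent.Lib.P183.MIData

namespace Vale.Agent.Lib.P183.MI

open Vale.Agent.Lib.P183

/-- The point with a given index. -/
def pt (n : ℕ) : Fin 252 := ⟨n % 252, Nat.mod_lt n (by norm_num)⟩

/-- Entry `b` of a table stored with eight bits per entry. -/
def lk8 (C b : ℕ) : ℕ := Nat.land (Nat.shiftRight C (Nat.mul 8 b)) 255

/-- Entry `x` of a table of words stored in rows of 16. -/
def wd (T : List (List (List ℕ))) (x : ℕ) : List ℕ := (T.getD (x / 16) []).getD (x % 16) []

/-- The operations: index 1 is the second permutation, every other index the first one. -/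
def g (i : ℕ) (x : Fin 252) : Fin 252 :=
  if i = 1 then pt (lk8 tC x.1) else pt (lk8 aC x.1)

/-- The inverse operations. -/
def gi (i : ℕ) (x : Fin 252) : Fin 252 :=
  if i = 1 then pt (lk8 tIC x.1) else pt (lk8 aIC x.1)

/-- The element of the lattice with a given index. -/
def ofI : ℕ → M221
  | 0 => M221.bot
  | 1 => M221.j1
  | 2 => M221.m1
  | 3 => M221.j2
  | 4 => M221.m2
  | 5 => M221.k
  | _ => M221.top

/-- The class label of a point for the congruence attached to `c`. -/
def lab (c : M221) (x : Fin 252) : ℕ := lk8 (labC c) x.1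

/-- The class of a point. -/
def cls (x : Fin 252) : M221 := ofI (lk8 clsC x.1)

/-- The base point of a class. -/
def base (c : M221) : Fin 252 := pt (baseT.getD (m221Idx c) 0)

/-- The word leading from the point 0 to the base point of a class. -/
def wb (c : M221) : List ℕ := wbT.getD (m221Idx c) []

/-- One step of a join path: the two points are related by one of the two congruences. -/
def stepOK (c d : M221) (u v : Fin 252) : Bool :=
  decide (lab c u = lab c v) || decide (lab d u = lab d v)

/-- The join of two elements, from the table. -/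
def jn (c d : M221) : M221 := ofI ((jT.getD (m221Idx c) []).getD (m221Idx d) 0)

theorem gi_g0 : ∀ x : Fin 252, gi 0 (g 0 x) = x := by decide +kernel

theorem gi_g1 : ∀ x : Fin 252, gi 1 (g 1 x) = x := by decide +kernel

theorem lab_a : ∀ (c : M221) (x : Fin 252),
    lab c (g 0 x) = lk8 (faC c) (lab c x) := by decide +kernel

theorem lab_t : ∀ (c : M221) (x : Fin 252),
    lab c (g 1 x) = lk8 (ftC c) (lab c x) := by decide +kernel

theorem g0_fix : g 0 (pt 0) = pt 0 := by decide +kernel

theorem hwb : ∀ c : M221, evalW g (wb c) (pt 0) = base c := by decide +kernel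

theorem hblock0 : ∀ (c : M221) (x : Fin 252), lab c (pt 0) = lab c x ↔ cls x ≤ c := by
  decide +kernel

theorem hclsb : ∀ c : M221, cls (base c) = c := by decide +kernel

theorem hbot : ∀ x : Fin 252, cls x ≤ cls (pt 0) → x = pt 0 := by decide +kernel

theorem hdesc0 : ∀ x : Fin 252, x = base (cls x) ∨
    (evalW g (wd wT x.1) (pt 0) = x ∧
      evalU g (wd wT x.1) (wd uT x.1) x = base (cls x)) := by decide +kernel

theorem hspan0 : ∀ y : Fin 252, wb (cls y) = [1] ∨ y = pt 0 ∨
    evalU g (wb (cls y)) (wd sT y.1) (base (cls y)) = y := by decide +kernel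

theorem hcross0 : ∀ c c' : M221, c' ≤ c → wb c = [1] ∨ c' = c ∨ base c' = pt 0 ∨
    evalU g (wb c) ((cT.getD (m221Idx c) []).getD (m221Idx c') []) (base c) = base c' := by
  decide +kernel

theorem hjoin0 : ∀ c d : M221, c ≤ jn c d ∧ d ≤ jn c d ∧ (jn c d = c ∨ jn c d = d ∨
    pathOK (stepOK c d) (pt 0) (((pT.getD (m221Idx c) []).getD (m221Idx d) []).map pt)
      (base (jn c d)) = true) := by decide +kernel

end Vale.Agent.Lib.P183.MI
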