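import Vale.Agent.Lib.P183.MIChk

namespace Vale.Agent.Lib.P183.MI

open Vale.Agent.Lib.P183

theorem g_ne (i : ℕ) (h : i ≠ 1) : g i = g 0 := by
  funext x
  show (if i = 1 then pt (lk8 tC x.1) else pt (lk8 aC x.1)) =
    (if (0 : ℕ) = 1 then pt (lk8 tC x.1) else pt (lk8 aC x.1))
  rw [if_neg h, if_neg (by norm_num)]

theorem g_inj : ∀ i, Function.Injective (g i) := by
  intro i
  by_cases h : i = 1
  · rw [h]
    exact Function.LeftInverse.injective gi_g1
  · rw [g_ne i h]
    exact Function.LeftInverse.injective gi_g0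

/-- The congruence attached to an element of the lattice: equality of class labels. -/
def E (c : M221) : Setoid (Fin 252) :=
  ⟨fun x y => lab c x = lab c y, ⟨fun _ => rfl, fun h => h.symm, fun h1 h2 => h1.trans h2⟩⟩

theorem hE : ∀ (c : M221) (i : ℕ) (x y : Fin 252), (E c).r x y → (E c).r (g i x) (g i y) := by
  intro c i x y h
  have h' : lab c x = lab c y := h
  show lab c (g i x) = lab c (g i y)
  by_cases hi : i = 1
  · rw [hi, lab_t, lab_t, h']
  · rw [g_ne i hi, lab_a, lab_a, h']

theorem hstab : ∀ i, i ≠ 1 → g i (pt 0) = pt 0 := by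
  intro i h
  rw [g_ne i h]
  exact g0_fix

theorem hblock : ∀ (c : M221) (x : Fin 252), (E c).r (pt 0) x ↔ cls x ≤ c := hblock0

theorem hdesc : ∀ x : Fin 252, x = base (cls x) ∨ ∃ w u, (w = [] ∨ evalW g w (pt 0) = x) ∧
    ((((fun _ : Fin 252 => (0 : ℕ)) (evalU g w u x) < (fun _ : Fin 252 => (0 : ℕ)) x) ∧
        cls (evalU g w u x) = cls x) ∨ evalU g w u x = base (cls x)) := by
  intro x
  rcases hdesc0 x with h | ⟨h1, h2⟩
  · exact Or.inl h
  · exact Or.inr ⟨_, _, Or.inr h1, Or.inr h2⟩

theorem hspan : ∀ y : Fin 252, wb (cls y) = [1] ∨ y = pt 0 ∨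
    ∃ u, evalU g (wb (cls y)) u (base (cls y)) = y := by
  intro y
  rcases hspan0 y with h | h | h
  · exact Or.inl h
  · exact Or.inr (Or.inl h)
  · exact Or.inr (Or.inr ⟨_, h⟩)

theorem hcross : ∀ c c' : M221, c' ≤ c → wb c = [1] ∨ c' = c ∨ base c' = pt 0 ∨
    ∃ u, evalU g (wb c) u (base c) = base c' := by
  intro c c' hle
  rcases hcross0 c c' hle with h | h | h | h
  · exact Or.inl h
  · exact Or.inr (Or.inl h)
  · exact Or.inr (Or.inr (Or.inl h))
  · exact Or.inr (Or.inr (Or.inr ⟨_, h⟩))

theorem path_rtg {α : Type} [DecidableEq α] (R : α → α → Bool) :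
    ∀ (cs : List α) (a b : α), pathOK R a cs b = true →
      Relation.ReflTransGen (fun u v => R u v = true) a b
  | [], a, b => by
      intro h
      have hab : a = b := by simpa [pathOK] using h
      rw [hab]
  | c :: cs, a, b => by
      intro h
      have h' : R a c = true ∧ pathOK R c cs b = true := by simpa [pathOK] using h
      exact Relation.ReflTransGen.head h'.1 (path_rtg R cs c b h'.2)

theorem hjoin : ∀ c d : M221, ∃ e, c ≤ e ∧ d ≤ e ∧ (e = c ∨ e = d ∨
    Relation.ReflTransGen (fun u v => (E c).r u v ∨ (E d).r u v) (pt 0) (base e)) := by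
  intro c d
  obtain ⟨h1, h2, h3⟩ := hjoin0 c d
  refine ⟨jn c d, h1, h2, ?_⟩
  rcases h3 with h | h | h
  · exact Or.inl h
  · exact Or.inr (Or.inl h)
  · refine Or.inr (Or.inr ?_)
    have hmono : (fun u v => stepOK c d u v = true) ≤
        (fun u v => (E c).r u v ∨ (E d).r u v) := by
      intro u v huv
      rcases Bool.or_eq_true_iff.1 huv with h' | h'
      · have h'' : lab c u = lab c v := of_decide_eq_true h'
        exact Or.inl h''
      · have h'' : lab d u = lab d v := of_decide_eq_true h'
        exact Or.inr h''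
    exact Relation.ReflTransGen.mono hmono _ _ (path_rtg (stepOK c d) _ _ _ h)

/-- The seven-element lattice `M(2,2,1)` is the interval above a subgroup in the subgroup lattice
of a finite group (generated by two permutations of 252 points, above a point stabiliser). -/
theorem m221_interval :
    ∃ (G : Type) (_ : Group G) (_ : Finite G) (H : Subgroup G),
      Nonempty (M221 ≃o Set.Ici H) :=
  interval_of_transitive_cert (L := M221) (α := Fin 252) g g_inj (pt 0) hstab
    (fun _ => 0) E hE cls base wb hwb hblock hclsb hbot hdesc hspan hcross hjoin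

end Vale.Agent.Lib.P183.MI
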