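import Vale.Agent.Lib.P183.Defs

namespace Vale.Agent.Lib.P183

/-- The seven elements of the lattice `ForkChain`: a bottom, a top, a fork `a < b`, `a < c`
(with `b`, `c` incomparable) and a two-element chain `d < e`. -/
inductive ForkChain : Type
  | bot | a | b | c | d | e | top
  deriving DecidableEq

instance ForkChain.fintype : Fintype ForkChain where
  elems := {ForkChain.bot, ForkChain.a, ForkChain.b, ForkChain.c, ForkChain.d, ForkChain.e,
    ForkChain.top}
  complete := by
    intro x
    cases x <;> decide

/-- The order of `ForkChain` as a Boolean table: `bot` is least, `top` is greatest, `a < b`,
`a < c`, `d < e`, and there are no other strict comparabilities. -/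
def ForkChain.leb : ForkChain → ForkChain → Bool
  | .bot, _ => true
  | _, .top => true
  | .a, .a => true
  | .a, .b => true
  | .a, .c => true
  | .b, .b => true
  | .c, .c => true
  | .d, .d => true
  | .d, .e => true
  | .e, .e => true
  | _, _ => false

instance ForkChain.order : PartialOrder ForkChain where
  le x y := ForkChain.leb x y = true
  le_refl := by decide
  le_trans := by decide
  le_antisymm := by decide

/-- The seven elements of the lattice `PentaPlus`: a bottom, a top, a chain `a < b < c`, an
element `d < c` incomparable with `a` and `b`, and a further element `e`. -/
inductive PentaPlus : Type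
  | bot | a | b | c | d | e | top
  deriving DecidableEq

instance PentaPlus.fintype : Fintype PentaPlus where
  elems := {PentaPlus.bot, PentaPlus.a, PentaPlus.b, PentaPlus.c, PentaPlus.d, PentaPlus.e,
    PentaPlus.top}
  complete := by
    intro x
    cases x <;> decide

/-- The order of `PentaPlus` as a Boolean table: `bot` is least, `top` is greatest,
`a < b < c`, `d < c`, and there are no other strict comparabilities (so `bot, a, b, d, c` form a
pentagon, and `e` is comparable only with `bot` and `top`). -/
def PentaPlus.leb : PentaPlus → PentaPlus → Bool
  | .bot, _ => true
  | _, .top => true
  | .a, .a => true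
  | .a, .b => true
  | .a, .c => true
  | .b, .b => true
  | .b, .c => true
  | .c, .c => true
  | .d, .d => true
  | .d, .c => true
  | .e, .e => true
  | _, _ => false

instance PentaPlus.order : PartialOrder PentaPlus where
  le x y := PentaPlus.leb x y = true
  le_refl := by decide
  le_trans := by decide
  le_antisymm := by decide

end Vale.Agent.Lib.P183
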