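import Vale.Agent.Lib.P183.Cert
import Vale.Agent.Lib.P183.Par2Defs

namespace Vale.Agent.Lib.P183

instance PentaPlus.decLe : DecidableRel (fun l1 l2 : PentaPlus => l1 ≤ l2) :=
  fun l1 l2 => inferInstanceAs (Decidable (PentaPlus.leb l1 l2 = true))

/-- The tables of the 3 unary operations on the 9 points `0, ..., 8`. -/
def pentaPlusOpTable : List (List (Fin 9)) :=
  [[3, 2, 6, 6, 2, 2, 3, 2, 0],
   [7, 7, 5, 4, 5, 4, 1, 1, 5],
   [2, 2, 0, 1, 0, 1, 8, 8, 0]]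

/-- The three unary operations of the nine-point algebra, read off the tables. -/
def pentaPlusOps (i : Fin 3) (x : Fin 9) : Fin 9 := nth 0 (nth [] pentaPlusOpTable i.val) x.val

def pentaPlusIdx : PentaPlus → ℕ
  | PentaPlus.bot => 0
  | PentaPlus.a => 1
  | PentaPlus.b => 2
  | PentaPlus.c => 3
  | PentaPlus.d => 4
  | PentaPlus.e => 5
  | PentaPlus.top => 6

def pentaPlusRepTable : PentaPlus → List (Fin 9)
  | PentaPlus.bot => [0, 1, 2, 3, 4, 5, 6, 7, 8]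
  | PentaPlus.a => [0, 0, 2, 2, 4, 4, 6, 7, 8]
  | PentaPlus.b => [0, 0, 2, 2, 4, 4, 6, 6, 8]
  | PentaPlus.c => [0, 0, 2, 2, 4, 4, 0, 0, 2]
  | PentaPlus.d => [0, 1, 2, 3, 4, 5, 0, 1, 2]
  | PentaPlus.e => [0, 1, 0, 3, 1, 5, 3, 5, 1]
  | PentaPlus.top => [0, 0, 0, 0, 0, 0, 0, 0, 0]

def pentaPlusRep (l : PentaPlus) (p : Fin 9) : Fin 9 := nth 0 (pentaPlusRepTable l) p.val

def pentaPlusTTable : List (List PentaPlus) :=
  [[PentaPlus.bot, PentaPlus.a, PentaPlus.e, PentaPlus.top, PentaPlus.top, PentaPlus.top, PentaPlus.d, PentaPlus.c, PentaPlus.top],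
   [PentaPlus.a, PentaPlus.bot, PentaPlus.top, PentaPlus.top, PentaPlus.e, PentaPlus.top, PentaPlus.c, PentaPlus.d, PentaPlus.e],
   [PentaPlus.e, PentaPlus.top, PentaPlus.bot, PentaPlus.a, PentaPlus.top, PentaPlus.top, PentaPlus.top, PentaPlus.top, PentaPlus.d],
   [PentaPlus.top, PentaPlus.top, PentaPlus.a, PentaPlus.bot, PentaPlus.top, PentaPlus.top, PentaPlus.e, PentaPlus.top, PentaPlus.c],
   [PentaPlus.top, PentaPlus.e, PentaPlus.top, PentaPlus.top, PentaPlus.bot, PentaPlus.a, PentaPlus.top, PentaPlus.top, PentaPlus.e],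
   [PentaPlus.top, PentaPlus.top, PentaPlus.top, PentaPlus.top, PentaPlus.a, PentaPlus.bot, PentaPlus.top, PentaPlus.e, PentaPlus.top],
   [PentaPlus.d, PentaPlus.c, PentaPlus.top, PentaPlus.e, PentaPlus.top, PentaPlus.top, PentaPlus.bot, PentaPlus.b, PentaPlus.top],
   [PentaPlus.c, PentaPlus.d, PentaPlus.top, PentaPlus.top, PentaPlus.top, PentaPlus.e, PentaPlus.b, PentaPlus.bot, PentaPlus.top],
   [PentaPlus.top, PentaPlus.e, PentaPlus.d, PentaPlus.c, PentaPlus.e, PentaPlus.top, PentaPlus.top, PentaPlus.top, PentaPlus.bot]]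

def pentaPlusT (x y : Fin 9) : PentaPlus := nth PentaPlus.bot (nth [] pentaPlusTTable x.val) y.val

def pentaPlusProbe : PentaPlus → Fin 9 × Fin 9
  | PentaPlus.bot => (0, 0)
  | PentaPlus.a => (0, 1)
  | PentaPlus.b => (6, 7)
  | PentaPlus.c => (0, 7)
  | PentaPlus.d => (0, 6)
  | PentaPlus.e => (0, 2)
  | PentaPlus.top => (0, 3)

def pentaPlusUbTable : List (List PentaPlus) :=
  [[PentaPlus.bot, PentaPlus.a, PentaPlus.b, PentaPlus.c, PentaPlus.d, PentaPlus.e, PentaPlus.top],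
   [PentaPlus.a, PentaPlus.a, PentaPlus.b, PentaPlus.c, PentaPlus.c, PentaPlus.top, PentaPlus.top],
   [PentaPlus.b, PentaPlus.b, PentaPlus.b, PentaPlus.c, PentaPlus.c, PentaPlus.top, PentaPlus.top],
   [PentaPlus.c, PentaPlus.c, PentaPlus.c, PentaPlus.c, PentaPlus.c, PentaPlus.top, PentaPlus.top],
   [PentaPlus.d, PentaPlus.c, PentaPlus.c, PentaPlus.c, PentaPlus.d, PentaPlus.top, PentaPlus.top],
   [PentaPlus.e, PentaPlus.top, PentaPlus.top, PentaPlus.top, PentaPlus.top, PentaPlus.e, PentaPlus.top],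
   [PentaPlus.top, PentaPlus.top, PentaPlus.top, PentaPlus.top, PentaPlus.top, PentaPlus.top, PentaPlus.top]]

def pentaPlusUb (l1 l2 : PentaPlus) : PentaPlus := nth PentaPlus.top (nth [] pentaPlusUbTable (pentaPlusIdx l1)) (pentaPlusIdx l2)

def pentaPlusC2Table : List (List (List (Step (Fin 9) 3))) :=
  [[[],
    [],
    [],
    [],
    [Step.op 0 0, Step.op 2 0, Step.tr 1 2, Step.sy 3],
    [Step.op 0 0, Step.op 2 0, Step.sy 1, Step.op 2 2, Step.tr 4 3],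
    [],
    [],
    [Step.op 0 0, Step.sy 1]],
   [[Step.sy 0],
    [],
    [Step.op 0 0, Step.op 2 0, Step.tr 0 1, Step.op 2 2, Step.op 0 3, Step.tr 4 5],
    [Step.op 2 0, Step.tr 1 0, Step.op 2 1, Step.tr 3 2],
    [Step.op 2 0, Step.op 2 1],
    [Step.op 1 0, Step.op 2 1, Step.op 0 2],
    [Step.op 0 0, Step.op 1 0, Step.op 2 1, Step.op 1 2, Step.tr 3 4],
    [Step.op 1 0, Step.op 2 1, Step.op 0 2],
    [Step.op 0 0, Step.op 2 1]],
   [[Step.op 2 0],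
    [Step.op 0 0, Step.op 2 1, Step.op 0 2],
    [],
    [Step.op 2 0],
    [Step.op 0 0, Step.op 2 1, Step.op 0 2],
    [Step.op 0 0, Step.op 2 1, Step.op 0 2],
    [Step.op 2 0, Step.op 0 1, Step.sy 2],
    [Step.op 0 0, Step.op 2 1, Step.op 0 2],
    [Step.op 0 0, Step.sy 1]],
   [[Step.sy 0],
    [Step.op 0 0, Step.op 2 1, Step.op 0 2],
    [Step.op 1 0, Step.op 2 1],
    [],
    [Step.op 0 0, Step.op 2 1, Step.op 0 2],
    [Step.op 0 0, Step.op 2 1, Step.op 0 2],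
    [Step.op 1 0, Step.op 2 1],
    [Step.op 0 0, Step.op 2 1, Step.op 0 2],
    [Step.op 0 0, Step.op 1 0, Step.op 1 1, Step.op 2 2, Step.tr 4 3]],
   [[Step.op 0 0, Step.op 2 0, Step.tr 2 1],
    [Step.op 2 0],
    [Step.op 0 0, Step.op 2 1, Step.op 0 2, Step.sy 3],
    [Step.op 0 0, Step.op 1 0, Step.op 2 0, Step.tr 2 0, Step.op 1 1, Step.sy 4, Step.tr 6 5, Step.sy 7, Step.tr 3 8],
    [],
    [Step.op 2 0],
    [Step.op 2 0, Step.op 0 1, Step.sy 2],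
    [Step.op 2 0, Step.op 0 1, Step.sy 2],
    [Step.op 0 0, Step.op 2 1]],
   [[Step.op 0 0, Step.op 2 0, Step.tr 2 1, Step.op 2 1, Step.tr 4 3],
    [Step.op 2 0, Step.tr 0 1, Step.op 2 1, Step.op 2 2, Step.op 2 3, Step.op 0 4, Step.tr 5 6],
    [Step.op 0 0, Step.op 2 0, Step.tr 0 1, Step.op 0 2, Step.op 1 3, Step.op 2 5, Step.tr 6 4],
    [Step.op 0 0, Step.sy 0, Step.op 0 1, Step.op 1 1, Step.tr 1 3, Step.tr 2 4, Step.op 2 5, Step.sy 6, Step.tr 7 8],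
    [Step.op 1 0, Step.op 2 1],
    [],
    [Step.op 0 0, Step.op 1 0, Step.op 2 2, Step.tr 3 1],
    [Step.op 1 0, Step.op 2 1],
    [Step.op 0 0, Step.op 2 0, Step.op 2 1, Step.op 0 2, Step.tr 3 4]],
   [[Step.sy 0],
    [Step.op 1 0, Step.op 2 0, Step.tr 0 1, Step.op 0 2, Step.tr 4 3],
    [Step.op 2 0, Step.op 0 1],
    [Step.op 2 0, Step.op 0 1],
    [Step.op 2 0, Step.op 0 1],
    [Step.op 0 0, Step.op 2 0, Step.sy 1, Step.op 0 2, Step.tr 4 3],
    [],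
    [],
    [Step.op 0 0, Step.sy 1]],
   [[Step.sy 0],
    [Step.op 2 0, Step.op 0 1],
    [Step.op 2 0, Step.op 0 1],
    [Step.op 0 0, Step.op 2 0, Step.op 0 1, Step.op 0 2, Step.tr 1 3, Step.tr 4 5],
    [Step.op 2 0, Step.op 0 1],
    [Step.op 2 0, Step.op 0 1],
    [Step.sy 0],
    [],
    [Step.op 2 0, Step.op 0 1]],
   [[Step.op 0 0],
    [Step.op 0 0],
    [Step.op 0 0],
    [Step.op 0 0, Step.op 1 0, Step.op 1 1, Step.op 2 2, Step.tr 3 4, Step.sy 5],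
    [Step.op 0 0],
    [Step.op 0 0, Step.op 2 0, Step.op 2 1, Step.op 0 2, Step.tr 4 3, Step.sy 5],
    [Step.op 0 0],
    [Step.op 2 0, Step.op 0 1, Step.sy 2],
    []]]

def pentaPlusC2 (x y : Fin 9) : List (Step (Fin 9) 3) := nth [] (nth [] pentaPlusC2Table x.val) y.val

def pentaPlusC3 : PentaPlus → List (Step (Fin 9) 3)
  | PentaPlus.bot => [Step.op 0 0, Step.op 1 0, Step.op 2 0, Step.rf 1, Step.rf 4, Step.rf 5, Step.rf 6, Step.rf 8]
  | PentaPlus.a => [Step.op 0 0, Step.op 1 0, Step.op 2 0, Step.sy 0, Step.tr 0 4, Step.rf 4, Step.rf 6, Step.rf 8, Step.op 1 1, Step.op 1 9]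
  | PentaPlus.b => [Step.op 0 0, Step.op 2 0, Step.sy 0, Step.tr 0 3, Step.rf 0, Step.rf 2, Step.rf 4, Step.op 1 1, Step.op 2 1, Step.op 1 8]
  | PentaPlus.c => [Step.op 0 0, Step.op 1 0, Step.op 2 0, Step.sy 0, Step.tr 0 4, Step.rf 2, Step.rf 4, Step.op 1 1, Step.op 2 1, Step.op 2 2, Step.op 0 3, Step.op 1 8]
  | PentaPlus.d => [Step.op 0 0, Step.op 1 0, Step.sy 0, Step.tr 0 3, Step.rf 1, Step.rf 2, Step.rf 4, Step.rf 5, Step.op 2 2]
  | PentaPlus.e => [Step.op 0 0, Step.op 1 0, Step.op 2 0, Step.tr 0 3, Step.rf 1, Step.rf 3, Step.rf 5, Step.op 0 1, Step.op 1 1, Step.op 2 2]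
  | PentaPlus.top => [Step.op 0 0, Step.op 1 0, Step.op 2 0, Step.sy 0, Step.tr 0 1, Step.tr 0 4, Step.op 1 1, Step.op 2 1, Step.op 2 2, Step.op 1 3, Step.op 1 5, Step.op 2 5, Step.sy 5, Step.tr 8 9, Step.tr 10 11, Step.tr 12 9, Step.tr 7 14, Step.tr 11 14, Step.tr 15 14]

def pentaPlusPathTable : List (List (List (Fin 9))) :=
  [[[], [1], [7], [7], [6], [2], [3]],
   [[1], [1], [7], [7], [1, 7], [2, 3], [3]],
   [[7], [7], [7], [7], [1, 7], [2, 3], [3]],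
   [[7], [7], [7], [7], [7], [2, 3], [3]],
   [[6], [1, 7], [1, 7], [7], [6], [6, 3], [3]],
   [[2], [2, 3], [2, 3], [2, 3], [6, 3], [2], [3]],
   [[3], [3], [3], [3], [3], [3], [3]]]

def pentaPlusPath (l1 l2 : PentaPlus) : List (Fin 9) := nth [] (nth [] pentaPlusPathTable (pentaPlusIdx l1)) (pentaPlusIdx l2)

theorem pentaPlus_h1 : ∀ l i x y, pentaPlusRep l x = pentaPlusRep l y → pentaPlusRep l (pentaPlusOps i x) = pentaPlusRep l (pentaPlusOps i y) := by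
  decide +kernel

theorem pentaPlus_h2 : ∀ l l' : PentaPlus, l ≤ l' ↔ ∀ x y, pentaPlusRep l x = pentaPlusRep l y → pentaPlusRep l' x = pentaPlusRep l' y := by
  decide +kernel

theorem pentaPlus_ha : ∀ x y, pentaPlusRep (pentaPlusT x y) x = pentaPlusRep (pentaPlusT x y) y := by
  decide +kernel

theorem pentaPlus_hp2 : ∀ x y, x ≠ y → pentaPlusProbe (pentaPlusT x y) ∈ run pentaPlusOps (x, y) (pentaPlusC2 x y) [(x, y)] := by
  decide +kernel

theorem pentaPlus_hp3 : ∀ l u, (u, pentaPlusRep l u) ∈ run pentaPlusOps (pentaPlusProbe l) (pentaPlusC3 l) [pentaPlusProbe l] := by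
  decide +kernel

theorem pentaPlus_hp4 : ∀ l l', l ≤ pentaPlusUb l l' ∧ l' ≤ pentaPlusUb l l' ∧
    pathOK (fun u v => decide (pentaPlusRep l u = pentaPlusRep l v) || decide (pentaPlusRep l' u = pentaPlusRep l' v))
      (pentaPlusProbe (pentaPlusUb l l')).1 (pentaPlusPath l l') (pentaPlusProbe (pentaPlusUb l l')).2 = true := by
  decide +kernel

/-- The lattice `PentaPlus` is the congruence lattice of the unary algebra on `Fin 9` with the 3
operations `pentaPlusOps`. -/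
theorem pentaPlus_representable : Representable PentaPlus :=
  representable_of_cert pentaPlusOps pentaPlusRep pentaPlusT pentaPlusProbe pentaPlusUb PentaPlus.bot pentaPlusC2 pentaPlusC3 pentaPlusPath
    pentaPlus_h1 pentaPlus_h2 rfl pentaPlus_ha pentaPlus_hp2 pentaPlus_hp3 pentaPlus_hp4

end Vale.Agent.Lib.P183
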