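import Vale.Agent.Lib.P183.Cert

namespace Vale.Agent.Lib.P183

/-- Evaluate a word (list of operation indices) on a point; the head is applied first. -/
def evalW {α : Type} (g : ℕ → α → α) : List ℕ → α → α
  | [], x => x
  | i :: w, x => evalW g w (g i x)

/-- Evaluate a word in which the letter `1` stands for the whole word `w`. -/
def evalU {α : Type} (g : ℕ → α → α) (w : List ℕ) : List ℕ → α → α
  | [], x => x
  | i :: u, x => evalU g w u (if i = 1 then evalW g w x else g i x)

/-- The maps generated by the operations `g i` under composition. -/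
inductive Adm {α : Type} (g : ℕ → α → α) : (α → α) → Prop
  | one : Adm g id
  | gen (i : ℕ) : Adm g (g i)
  | comp {v v' : α → α} : Adm g v → Adm g v' → Adm g (v ∘ v')

theorem evalW_adm {α : Type} (g : ℕ → α → α) : ∀ w : List ℕ, Adm g (evalW g w)
  | [] => Adm.one
  | i :: w => by
      have h : evalW g (i :: w) = evalW g w ∘ g i := rfl
      rw [h]
      exact Adm.comp (evalW_adm g w) (Adm.gen i)

theorem evalU_adm {α : Type} (g : ℕ → α → α) (w : List ℕ) : ∀ u : List ℕ, Adm g (evalU g w u)
  | [] => Adm.one
  | i :: u => by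
      by_cases hi : i = 1
      · have h : evalU g w (i :: u) = evalU g w u ∘ evalW g w := by
          funext x
          simp [evalU, hi]
        rw [h]
        exact Adm.comp (evalU_adm g w u) (evalW_adm g w)
      · have h : evalU g w (i :: u) = evalU g w u ∘ g i := by
          funext x
          simp [evalU, hi]
        rw [h]
        exact Adm.comp (evalU_adm g w u) (Adm.gen i)

theorem adm_congr {α : Type} (g : ℕ → α → α) (r : Setoid α)
    (hc : ∀ i x y, r.r x y → r.r (g i x) (g i y)) {v : α → α} (hv : Adm g v) :
    ∀ x y, r.r x y → r.r (v x) (v y) := by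
  induction hv with
  | one => intro x y h; exact h
  | gen i => intro x y h; exact hc i x y h
  | comp _ _ ih1 ih2 => intro x y h; exact ih1 _ _ (ih2 x y h)

theorem adm_inj {α : Type} (g : ℕ → α → α) (hinj : ∀ i, Function.Injective (g i))
    {v : α → α} (hv : Adm g v) : Function.Injective v := by
  induction hv with
  | one => exact Function.injective_id
  | gen i => exact hinj i
  | comp _ _ ih1 ih2 => exact ih1.comp ih2

theorem adm_iter {α : Type} (g : ℕ → α → α) {v : α → α} (hv : Adm g v) :
    ∀ n : ℕ, Adm g (v^[n])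
  | 0 => Adm.one
  | n + 1 => by
      rw [Function.iterate_succ]
      exact Adm.comp (adm_iter g hv n) hv

theorem adm_inv {α : Type} [Finite α] (g : ℕ → α → α) (hinj : ∀ i, Function.Injective (g i))
    {v : α → α} (hv : Adm g v) : ∃ v', Adm g v' ∧ (∀ x, v' (v x) = x) ∧ ∀ x, v (v' x) = x := by
  classical
  have hi : Function.Injective v := adm_inj g hinj hv
  have hb : Function.Bijective v := ⟨hi, Finite.injective_iff_surjective.1 hi⟩
  let σ : Equiv.Perm α := Equiv.ofBijective v hb
  have hpos : 0 < orderOf σ := orderOf_pos σ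
  have h1 : σ ^ orderOf σ = 1 := pow_orderOf_eq_one σ
  have hit : ∀ x, v^[orderOf σ] x = x := by
    intro x
    have h2 : (σ ^ orderOf σ) x = x := by rw [h1]; rfl
    rw [← Equiv.Perm.iterate_eq_pow] at h2
    exact h2
  obtain ⟨n, hn⟩ : ∃ n, orderOf σ = n + 1 := ⟨orderOf σ - 1, by omega⟩
  rw [hn] at hit
  have hl : ∀ x, v^[n] (v x) = x := by
    intro x
    have := hit x
    rw [Function.iterate_succ_apply] at this
    exact this
  refine ⟨v^[n], adm_iter g hv n, hl, ?_⟩
  intro x
  apply adm_inj g hinj (adm_iter g hv n)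
  exact hl _

/-- Congruences of a transitive algebra of permutations are determined by their blocks through
the base point. -/
theorem block_determines {α : Type} [Finite α] (g : ℕ → α → α)
    (hinj : ∀ i, Function.Injective (g i)) (o : α) (htr : ∀ x, ∃ v, Adm g v ∧ v o = x)
    (r r' : Setoid α) (hc : ∀ i x y, r.r x y → r.r (g i x) (g i y))
    (hc' : ∀ i x y, r'.r x y → r'.r (g i x) (g i y))
    (hsub : ∀ y, r.r o y → r'.r o y) : ∀ x y, r.r x y → r'.r x y := by
  intro x y hxy
  obtain ⟨v, hv, hvo⟩ := htr x
  obtain ⟨v', hv', hl, hr⟩ := adm_inv g hinj hv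
  have h1 : r.r (v' x) (v' y) := adm_congr g r hc hv' x y hxy
  rw [← hvo, hl] at h1
  have h2 : r'.r o (v' y) := hsub _ h1
  have h3 : r'.r (v o) (v (v' y)) := adm_congr g r' hc' hv _ _ h2
  rw [hvo, hr] at h3
  exact h3

/-- The two facts behind the certificate criterion: the operations act transitively, and the
block through `o` of every congruence is the block of some `E m`. -/
theorem transitive_cert_facts
    {L : Type} [PartialOrder L] [Fintype L]
    {α : Type} [Fintype α]
    (g : ℕ → α → α)
    (hinj : ∀ i, Function.Injective (g i))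
    (o : α) (hstab : ∀ i, i ≠ 1 → g i o = o)
    (μ : α → ℕ)
    (E : L → Setoid α)
    (hE : ∀ c i x y, (E c).r x y → (E c).r (g i x) (g i y))
    (cls : α → L) (base : L → α) (wb : L → List ℕ)
    (hwb : ∀ c, evalW g (wb c) o = base c)
    (hblock : ∀ c x, (E c).r o x ↔ cls x ≤ c)
    (hbot : ∀ x, cls x ≤ cls o → x = o)
    (hdesc : ∀ x, x = base (cls x) ∨ ∃ w u, (w = [] ∨ evalW g w o = x) ∧
        ((μ (evalU g w u x) < μ x ∧ cls (evalU g w u x) = cls x) ∨
          evalU g w u x = base (cls x)))
    (hspan : ∀ y, wb (cls y) = [1] ∨ y = o ∨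
        ∃ u, evalU g (wb (cls y)) u (base (cls y)) = y)
    (hcross : ∀ c c', c' ≤ c → wb c = [1] ∨ c' = c ∨ base c' = o ∨
        ∃ u, evalU g (wb c) u (base c) = base c')
    (hjoin : ∀ c d, ∃ e, c ≤ e ∧ d ≤ e ∧ (e = c ∨ e = d ∨
        Relation.ReflTransGen (fun u v => (E c).r u v ∨ (E d).r u v) o (base e))) :
    (∀ x, ∃ v, Adm g v ∧ v o = x) ∧
    (∀ r : Setoid α, (∀ i x y, r.r x y → r.r (g i x) (g i y)) →
      ∃ m, ∀ y, r.r o y ↔ cls y ≤ m) := by
  classical
  -- transitivity of the action
  have htrans : ∀ n x, μ x = n → ∃ v, Adm g v ∧ v o = x := by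
    intro n
    induction n using Nat.strong_induction_on with
    | _ n ih =>
      intro x hx
      rcases hdesc x with hb | ⟨w, u, -, hd⟩
      · exact ⟨evalW g (wb (cls x)), evalW_adm g _, by rw [hwb]; exact hb.symm⟩
      · have hadm : Adm g (evalU g w u) := evalU_adm g w u
        obtain ⟨a', ha', hl, -⟩ := adm_inv g hinj hadm
        have hx'' : ∃ v, Adm g v ∧ v o = evalU g w u x := by
          rcases hd with ⟨hlt, -⟩ | hbase
          · exact ih _ (by rw [← hx]; exact hlt) _ rfl
          · exact ⟨evalW g (wb (cls x)), evalW_adm g _, by rw [hwb]; exact hbase.symm⟩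
        obtain ⟨v, hv, hvo⟩ := hx''
        refine ⟨a' ∘ v, Adm.comp ha' hv, ?_⟩
        show a' (v o) = x
        rw [hvo]
        exact hl x
  have htr : ∀ x, ∃ v, Adm g v ∧ v o = x := fun x => htrans (μ x) x rfl
  -- closure of the block through `o` under the certified moves
  have hclosed : ∀ r : Setoid α, (∀ i x y, r.r x y → r.r (g i x) (g i y)) →
      ∀ x, r.r o x → ∀ w : List ℕ, (w = [] ∨ evalW g w o = x) →
      ∀ (u : List ℕ) (z : α), r.r o z → r.r o (evalU g w u z) := by
    intro r hc x hx w hw u
    induction u with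
    | nil => intro z hz; exact hz
    | cons i u ih =>
      intro z hz
      have hstep : r.r o (if i = 1 then evalW g w z else g i z) := by
        by_cases hi : i = 1
        · rw [if_pos hi]
          rcases hw with hw | hw
          · rw [hw]; exact hz
          · have h1 : r.r (evalW g w o) (evalW g w z) :=
              adm_congr g r hc (evalW_adm g w) o z hz
            rw [hw] at h1
            exact r.iseqv.trans hx h1
        · rw [if_neg hi]
          have h1 : r.r (g i o) (g i z) := hc i o z hz
          rw [hstab i hi] at h1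
          exact h1
      exact ih _ hstep
  -- a congruence containing (o, g 1 o) is everything
  have htop : ∀ r : Setoid α, (∀ i x y, r.r x y → r.r (g i x) (g i y)) →
      ∀ c, wb c = [1] → r.r o (base c) → ∀ y, r.r o y := by
    intro r hc c hwc hb y
    have hb1 : r.r o (g 1 o) := by
      have h := hwb c
      rw [hwc] at h
      have h2 : evalW g [1] o = g 1 o := rfl
      rw [h2] at h
      rw [h]
      exact hb
    have hall : ∀ v, Adm g v → r.r o (v o) := by
      intro v hv
      induction hv with
      | one => exact r.iseqv.refl o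
      | gen i =>
        by_cases hi : i = 1
        · rw [hi]; exact hb1
        · rw [hstab i hi]
      | comp hv1 _ ih1 ih2 =>
        exact r.iseqv.trans ih1 (adm_congr g r hc hv1 _ _ ih2)
    obtain ⟨v, hv, hvo⟩ := htr y
    rw [← hvo]
    exact hall v hv
  have hsp : ∀ r : Setoid α, (∀ i x y, r.r x y → r.r (g i x) (g i y)) →
      ∀ y, r.r o (base (cls y)) → r.r o y := by
    intro r hc y hb
    rcases hspan y with h | h | ⟨u, hu⟩
    · exact htop r hc (cls y) h hb y
    · rw [h]
    · rw [← hu]
      exact hclosed r hc (base (cls y)) hb (wb (cls y)) (Or.inr (hwb _)) u _ hb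
  have hbase : ∀ r : Setoid α, (∀ i x y, r.r x y → r.r (g i x) (g i y)) →
      ∀ c, r.r o (base c) → ∀ y, cls y ≤ c → r.r o y := by
    intro r hc c hb y hy
    rcases hcross c (cls y) hy with h | h | h | ⟨u, hu⟩
    · exact htop r hc c h hb y
    · apply hsp r hc y
      rw [h]; exact hb
    · apply hsp r hc y
      rw [h]
    · apply hsp r hc y
      rw [← hu]
      exact hclosed r hc (base c) hb (wb c) (Or.inr (hwb _)) u _ hb
  have hgen : ∀ r : Setoid α, (∀ i x y, r.r x y → r.r (g i x) (g i y)) →
      ∀ n x, μ x = n → r.r o x → ∀ y, cls y ≤ cls x → r.r o y := by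
    intro r hc n
    induction n using Nat.strong_induction_on with
    | _ n ih =>
      intro x hx hox y hy
      rcases hdesc x with hb | ⟨w, u, hw, hd⟩
      · apply hbase r hc (cls x) _ y hy
        rw [← hb]; exact hox
      · have hx'' : r.r o (evalU g w u x) := hclosed r hc x hox w hw u x hox
        rcases hd with ⟨hlt, hcl⟩ | hb
        · apply ih _ (by rw [← hx]; exact hlt) _ rfl hx'' y
          rw [hcl]; exact hy
        · apply hbase r hc (cls x) _ y hy
          rw [← hb]; exact hx''
  refine ⟨htr, ?_⟩
  intro r hc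
  let S : Finset L := Finset.univ.filter (fun c => ∀ y, cls y ≤ c → r.r o y)
  have hS : ∀ c, c ∈ S ↔ ∀ y, cls y ≤ c → r.r o y := by
    intro c
    simp [S]
  have hsub : ∀ c ∈ S, ∀ x y, (E c).r x y → r.r x y := by
    intro c hcS
    apply block_determines g hinj o htr (E c) r (hE c) hc
    intro y hy
    exact (hS c).1 hcS y ((hblock c y).1 hy)
  have hdir : ∀ c ∈ S, ∀ d ∈ S, ∃ e' ∈ S, c ≤ e' ∧ d ≤ e' := by
    intro c hcS d hdS
    obtain ⟨e', hce, hde, h⟩ := hjoin c d
    refine ⟨e', ?_, hce, hde⟩
    rcases h with h | h | h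
    · rw [h]; exact hcS
    · rw [h]; exact hdS
    · rw [hS]
      have hob : ∀ b, Relation.ReflTransGen (fun u v => (E c).r u v ∨ (E d).r u v) o b →
          r.r o b := by
        intro b hb
        induction hb with
        | refl => exact r.iseqv.refl o
        | tail _ hstep ih =>
          rcases hstep with h1 | h1
          · exact r.iseqv.trans ih (hsub c hcS _ _ h1)
          · exact r.iseqv.trans ih (hsub d hdS _ _ h1)
      exact hbase r hc e' (hob _ h)
  have hne : S.Nonempty := by
    refine ⟨cls o, ?_⟩
    rw [hS]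
    intro y hy
    rw [hbot y hy]
  obtain ⟨m, hmax⟩ := S.exists_maximal hne
  have hm : m ∈ S := hmax.1
  have hmle : ∀ c ∈ S, c ≤ m := by
    intro c hcS
    obtain ⟨e', he', hce, hme⟩ := hdir c hcS m hm
    exact le_trans hce (hmax.2 he' hme)
  refine ⟨m, ?_⟩
  intro y
  constructor
  · intro hy
    apply hmle
    rw [hS]
    intro y' hy'
    exact hgen r hc (μ y) y rfl hy y' hy'
  · intro hy
    exact (hS m).1 hm y hy

/-- Certificate criterion for transitive unary algebras.  The algebra has the unary operations
`g 0, ..., g (k-1)` on `α`, all of them injective, and all but `g 1` fix the base point `o`.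
`E c` is a family of congruences indexed by `L` whose blocks through `o` are described by
`cls`.  The remaining hypotheses are certificates showing that every congruence containing a
pair `(o, x)` contains the whole block of `E (cls x)` through `o`, and that joins are as in `L`.
Conclusion: `c ↦ E c` is an isomorphism from `L` onto the congruence lattice. -/
theorem representable_of_transitive_cert
    {L : Type} [PartialOrder L] [Fintype L]
    {α : Type} [Fintype α] [Nonempty α]
    (k : ℕ) (g : ℕ → α → α)
    (hg : ∀ i, ∃ j : Fin k, g i = g j.1)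
    (hinj : ∀ i, Function.Injective (g i))
    (o : α) (hstab : ∀ i, i ≠ 1 → g i o = o)
    (μ : α → ℕ)
    (E : L → Setoid α)
    (hE : ∀ c i x y, (E c).r x y → (E c).r (g i x) (g i y))
    (cls : α → L) (base : L → α) (wb : L → List ℕ)
    (hwb : ∀ c, evalW g (wb c) o = base c)
    (hblock : ∀ c x, (E c).r o x ↔ cls x ≤ c)
    (hclsb : ∀ c, cls (base c) = c)
    (hbot : ∀ x, cls x ≤ cls o → x = o)
    (hdesc : ∀ x, x = base (cls x) ∨ ∃ w u, (w = [] ∨ evalW g w o = x) ∧
        ((μ (evalU g w u x) < μ x ∧ cls (evalU g w u x) = cls x) ∨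
          evalU g w u x = base (cls x)))
    (hspan : ∀ y, wb (cls y) = [1] ∨ y = o ∨
        ∃ u, evalU g (wb (cls y)) u (base (cls y)) = y)
    (hcross : ∀ c c', c' ≤ c → wb c = [1] ∨ c' = c ∨ base c' = o ∨
        ∃ u, evalU g (wb c) u (base c) = base c')
    (hjoin : ∀ c d, ∃ e, c ≤ e ∧ d ≤ e ∧ (e = c ∨ e = d ∨
        Relation.ReflTransGen (fun u v => (E c).r u v ∨ (E d).r u v) o (base e))) :
    Representable L := by
  classical
  obtain ⟨htr, hfact⟩ := transitive_cert_facts g hinj o hstab μ E hE cls base wb hwb hblock hbot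
    hdesc hspan hcross hjoin
  let f : Fin k → α → α := fun i => g i.1
  refine ⟨unaryAlg k f, ?_⟩
  have hcong : ∀ r : Setoid α, (unaryAlg k f).IsCongr r ↔
      ∀ i x y, r.r x y → r.r (g i x) (g i y) := by
    intro r
    rw [unaryAlg_isCongr]
    constructor
    · intro h i x y hxy
      obtain ⟨j, hj⟩ := hg i
      rw [hj]
      exact h j x y hxy
    · intro h i x y hxy
      exact h i.1 x y hxy
  let e : L → (unaryAlg k f).Con := fun c => ⟨E c, (hcong (E c)).2 (hE c)⟩
  have hle : ∀ c d, e c ≤ e d ↔ c ≤ d := by
    intro c d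
    constructor
    · intro h
      have h1 : (E c).r o (base c) := (hblock c (base c)).2 (by rw [hclsb])
      have h2 : (E d).r o (base c) := h o (base c) h1
      have h3 := (hblock d (base c)).1 h2
      rw [hclsb] at h3
      exact h3
    · intro h
      apply block_determines g hinj o htr (E c) (E d) (hE c) (hE d)
      intro y hy
      exact (hblock d y).2 (le_trans ((hblock c y).1 hy) h)
  have hsurj : Function.Surjective e := by
    rintro ⟨r, hr⟩
    have hc : ∀ i x y, r.r x y → r.r (g i x) (g i y) := (hcong r).1 hr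
    obtain ⟨m, hm⟩ := hfact r hc
    refine ⟨m, ?_⟩
    apply Subtype.ext
    apply Setoid.ext
    intro x y
    constructor
    · intro h
      revert x y
      apply block_determines g hinj o htr (E m) r (hE m) hc
      intro y hy
      exact (hm y).2 ((hblock m y).1 hy)
    · intro h
      revert x y
      apply block_determines g hinj o htr r (E m) hc (hE m)
      intro y hy
      exact (hblock m y).2 ((hm y).1 hy)
  have hinj' : Function.Injective e := by
    intro c d h
    exact le_antisymm ((hle c d).1 (le_of_eq h)) ((hle d c).1 (le_of_eq h.symm))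
  exact ⟨{ toEquiv := Equiv.ofBijective e ⟨hinj', hsurj⟩
           map_rel_iff' := by
             intro a b
             exact hle a b }⟩

end Vale.Agent.Lib.P183
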