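import Vale.Agent.Lib.P183.Trans
import Mathlib.GroupTheory.GroupAction.Blocks

namespace Vale.Agent.Lib.P183

open MulAction
open scoped Pointwise

/-- A permutation whose underlying map is generated by the `g i` has an inverse of the same
kind. -/
theorem adm_perm_inv {α : Type} [Finite α] (g : ℕ → α → α)
    (hinj : ∀ i, Function.Injective (g i)) (τ : Equiv.Perm α) (hτ : Adm g ⇑τ) :
    Adm g ⇑τ⁻¹ := by
  obtain ⟨v', hv', hl, -⟩ := adm_inv g hinj hτ
  have h : ⇑τ⁻¹ = v' := by
    funext x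
    have h1 : v' (τ (τ.symm x)) = τ.symm x := hl (τ.symm x)
    rw [Equiv.apply_symm_apply] at h1
    exact h1.symm
  rw [h]
  exact hv'

/-- The class of `o` of an equivalence relation invariant under a permutation group is a block. -/
theorem isBlock_class {α : Type} (Gp : Subgroup (Equiv.Perm α)) (r : Setoid α)
    (hr : ∀ τ ∈ Gp, ∀ x y, r.r x y → r.r (τ x) (τ y)) (o : α) :
    IsBlock ↥Gp {y | r.r o y} := by
  rw [isBlock_iff_smul_eq_of_mem]
  intro τ a ha hτa
  have ha' : r.r o a := ha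
  have hτa' : r.r o ((τ : Equiv.Perm α) a) := hτa
  have h1 : r.r o ((τ : Equiv.Perm α) o) :=
    r.iseqv.trans hτa' (r.iseqv.symm (hr τ.1 τ.2 _ _ ha'))
  ext z
  rw [Set.mem_smul_set_iff_inv_smul_mem]
  show r.r o ((τ⁻¹ : ↥Gp).1 z) ↔ r.r o z
  constructor
  · intro h
    have h2 := hr τ.1 τ.2 _ _ h
    have h3 : (τ : Equiv.Perm α) ((τ⁻¹ : ↥Gp).1 z) = z := by
      show (τ : Equiv.Perm α) ((τ : Equiv.Perm α).symm z) = z
      exact Equiv.apply_symm_apply _ _
    rw [h3] at h2
    exact r.iseqv.trans h1 h2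
  · intro h
    have h2 : r.r ((τ : Equiv.Perm α) o) z := r.iseqv.trans (r.iseqv.symm h1) h
    have h3 := hr (τ⁻¹ : ↥Gp).1 (τ⁻¹ : ↥Gp).2 _ _ h2
    have h4 : (τ⁻¹ : ↥Gp).1 ((τ : Equiv.Perm α) o) = o := by
      show (τ : Equiv.Perm α).symm ((τ : Equiv.Perm α) o) = o
      exact Equiv.symm_apply_apply _ _
    rw [h4] at h3
    exact h3

/-- Group form of the certificate criterion: under the hypotheses of
`representable_of_transitive_cert`, the lattice `L` is isomorphic to the interval above a point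
stabiliser in the subgroup lattice of the (finite) permutation group generated by the
operations. -/
theorem interval_of_transitive_cert
    {L : Type} [PartialOrder L] [Fintype L]
    {α : Type} [Fintype α]
    (g : ℕ → α → α)
    (hinj : ∀ i, Function.Injective (g i))
    (o : α) (hstab : ∀ i, i ≠ 1 → g i o = o)
    (μ : α → ℕ)
    (E : L → Setoid α)
    (hE : ∀ c i x y, (E c).r x y → (E c).r (g i x) (g i y))
    (cls : α → L) (base : L → α) (wb : L → List ℕ)
    (hwb : ∀ c, evalW g (wb c) o = base c)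
    (hblock : ∀ c x, (E c).r o x ↔ cls x ≤ c)
    (hclsb : ∀ c, cls (base c) = c)
    (hbot : ∀ x, cls x ≤ cls o → x = o)
    (hdesc : ∀ x, x = base (cls x) ∨ ∃ w u, (w = [] ∨ evalW g w o = x) ∧
        ((μ (evalU g w u x) < μ x ∧ cls (evalU g w u x) = cls x) ∨
          evalU g w u x = base (cls x)))
    (hspan : ∀ y, wb (cls y) = [1] ∨ y = o ∨
        ∃ u, evalU g (wb (cls y)) u (base (cls y)) = y)
    (hcross : ∀ c c', c' ≤ c → wb c = [1] ∨ c' = c ∨ base c' = o ∨
        ∃ u, evalU g (wb c) u (base c) = base c')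
    (hjoin : ∀ c d, ∃ e, c ≤ e ∧ d ≤ e ∧ (e = c ∨ e = d ∨
        Relation.ReflTransGen (fun u v => (E c).r u v ∨ (E d).r u v) o (base e))) :
    ∃ (G : Type) (_ : Group G) (_ : Finite G) (H : Subgroup G), Nonempty (L ≃o Set.Ici H) := by
  classical
  obtain ⟨htr, hfact⟩ := transitive_cert_facts g hinj o hstab μ E hE cls base wb hwb hblock hbot
    hdesc hspan hcross hjoin
  have hbij : ∀ i, Function.Bijective (g i) :=
    fun i => ⟨hinj i, Finite.injective_iff_surjective.1 (hinj i)⟩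
  let σ : ℕ → Equiv.Perm α := fun i => Equiv.ofBijective (g i) (hbij i)
  have hσ : ∀ i, ⇑(σ i) = g i := fun i => rfl
  let Gp : Subgroup (Equiv.Perm α) := Subgroup.closure (Set.range σ)
  -- every element of the group is a composition of operations
  have hadm : ∀ τ ∈ Gp, Adm g ⇑τ := by
    intro τ hτ
    induction hτ using Subgroup.closure_induction with
    | mem x hx =>
      obtain ⟨i, rfl⟩ := hx
      rw [hσ]
      exact Adm.gen i
    | one => exact Adm.one
    | mul x y _ _ ihx ihy =>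
      show Adm g (⇑x ∘ ⇑y)
      exact Adm.comp ihx ihy
    | inv x _ ih => exact adm_perm_inv g hinj x ih
  -- and conversely
  have hgp : ∀ v, Adm g v → ∃ τ ∈ Gp, ⇑τ = v := by
    intro v hv
    induction hv with
    | one => exact ⟨1, Gp.one_mem, rfl⟩
    | gen i => exact ⟨σ i, Subgroup.subset_closure ⟨i, rfl⟩, rfl⟩
    | comp _ _ ih1 ih2 =>
      obtain ⟨τ1, h1, e1⟩ := ih1
      obtain ⟨τ2, h2, e2⟩ := ih2
      refine ⟨τ1 * τ2, Gp.mul_mem h1 h2, ?_⟩
      rw [← e1, ← e2]
      rfl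
  have hpre : IsPretransitive ↥Gp α := by
    refine ⟨fun x y => ?_⟩
    obtain ⟨v1, hv1, e1⟩ := htr x
    obtain ⟨v2, hv2, e2⟩ := htr y
    obtain ⟨τ1, h1, t1⟩ := hgp v1 hv1
    obtain ⟨τ2, h2, t2⟩ := hgp v2 hv2
    refine ⟨⟨τ2 * τ1⁻¹, Gp.mul_mem h2 (Gp.inv_mem h1)⟩, ?_⟩
    show (τ2 * τ1⁻¹) x = y
    have hx : τ1 o = x := by rw [t1]; exact e1
    have hy : τ2 o = y := by rw [t2]; exact e2
    rw [← hx, ← hy]
    show τ2 (τ1.symm (τ1 o)) = τ2 o
    rw [Equiv.symm_apply_apply]
  -- the blocks of the certified congruences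
  have hEinv : ∀ c, ∀ τ ∈ Gp, ∀ x y, (E c).r x y → (E c).r (τ x) (τ y) :=
    fun c τ hτ x y h => adm_congr g (E c) (hE c) (hadm τ hτ) x y h
  have hBeq : ∀ c, {y | cls y ≤ c} = {y | (E c).r o y} := by
    intro c
    ext y
    exact (hblock c y).symm
  have hBblock : ∀ c, IsBlock ↥Gp {y | cls y ≤ c} := by
    intro c
    rw [hBeq]
    exact isBlock_class Gp (E c) (hEinv c) o
  have hBo : ∀ c, o ∈ {y | cls y ≤ c} := by
    intro c
    rw [hBeq]
    exact (E c).iseqv.refl o
  let F : L → { B : Set α // o ∈ B ∧ IsBlock ↥Gp B } :=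
    fun c => ⟨{y | cls y ≤ c}, hBo c, hBblock c⟩
  have hFle : ∀ c d, F c ≤ F d ↔ c ≤ d := by
    intro c d
    constructor
    · intro h
      have h1 : base c ∈ {y | cls y ≤ c} := by
        show cls (base c) ≤ c
        rw [hclsb]
      have h2 : base c ∈ {y | cls y ≤ d} := h h1
      have h3 : cls (base c) ≤ d := h2
      rw [hclsb] at h3
      exact h3
    · intro h y hy
      exact le_trans hy h
  have hFsurj : Function.Surjective F := by
    rintro ⟨B, hoB, hB⟩
    let rB : Setoid α :=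
      { r := fun x y => ∀ τ : ↥Gp, τ • x ∈ B ↔ τ • y ∈ B
        iseqv := ⟨fun x τ => Iff.rfl, fun h τ => (h τ).symm,
          fun h1 h2 τ => (h1 τ).trans (h2 τ)⟩ }
    have hrB : ∀ i x y, rB.r x y → rB.r (g i x) (g i y) := by
      intro i x y h τ
      have hmem : σ i ∈ Gp := Subgroup.subset_closure ⟨i, rfl⟩
      have h1 := h (τ * ⟨σ i, hmem⟩)
      rw [mul_smul, mul_smul] at h1
      exact h1
    obtain ⟨m, hm⟩ := hfact rB hrB
    refine ⟨m, ?_⟩
    apply Subtype.ext
    show {y | cls y ≤ m} = B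
    ext y
    show cls y ≤ m ↔ y ∈ B
    rw [← hm y]
    constructor
    · intro h
      have h1 := h 1
      rw [one_smul, one_smul] at h1
      exact h1.1 hoB
    · intro hy τ
      constructor
      · intro h
        have h1 : τ • B = B := hB.smul_eq_of_mem hoB h
        rw [← h1]
        exact Set.smul_mem_smul_set hy
      · intro h
        have h1 : τ • B = B := hB.smul_eq_of_mem hy h
        rw [← h1]
        exact Set.smul_mem_smul_set hoB
  let e1 : L ≃o { B : Set α // o ∈ B ∧ IsBlock ↥Gp B } :=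
    RelIso.ofSurjective (OrderEmbedding.ofMapLEIff F hFle) hFsurj
  exact ⟨↥Gp, inferInstance, inferInstance, stabilizer ↥Gp o,
    ⟨e1.trans (block_stabilizerOrderIso ↥Gp o)⟩⟩

end Vale.Agent.Lib.P183
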