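import Vale.Agent.Lib.P183.W10Data

namespace Vale.Agent.Lib.P183.W10

open Vale.Agent.Lib.P183

theorem c1 : 0 < cert.gC.length := by decide

theorem c2 : ∀ (i : Fin cert.gC.length) (x : Fin (cert.n + 1)), cert.gi i.1 (cert.g i.1 x) = x := by
  decide +kernel

theorem c3 : ∀ (c : cert.Lat) (i : Fin cert.gC.length) (x : Fin (cert.n + 1)),
    cert.lab c (cert.g i.1 x) = lk16 ((cert.fC.getD c.v.1 []).getD i.1 0) (cert.lab c x) := by
  decide +kernel

theorem c4 : ∀ x : Fin (cert.n + 1), evalW cert.g (cert.W x) cert.o = x := by decide +kernel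

theorem c5 : ∀ (c : cert.Lat) (x : Fin (cert.n + 1)),
    cert.lab c cert.o = cert.lab c x ↔ cert.cls x ≤ c := by decide +kernel

theorem c6 : ∀ x : Fin (cert.n + 1), cert.cls x ≤ cert.cls cert.o → x = cert.o := by
  decide +kernel

theorem c7 : ∀ x : Fin (cert.n + 1), cert.cls (cert.base (cert.cls x)) = cert.cls x := by
  decide +kernel

theorem c8 : ∀ x : Fin (cert.n + 1),
    cert.base (cert.cls x) ∈ runD cert.g cert.o (cert.dA x) [cert.o, x] := by decide +kernel

theorem c9 : ∀ y : Fin (cert.n + 1),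
    y ∈ runD cert.g cert.o (cert.dB y) [cert.o, cert.base (cert.cls y)] := by decide +kernel

end Vale.Agent.Lib.P183.W10
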