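import Vale.Agent.Lib.P183.W10Data

namespace Vale.Agent.Lib.P183.W10

open Vale.Agent.Lib.P183

theorem c10 : ∀ p q : cert.Lat, cert.cls (cert.base p) = p → cert.cls (cert.base q) = q → q ≤ p →
    cert.base q ∈ runD cert.g cert.o (cert.dC p q) [cert.o, cert.base p] := by decide +kernel

theorem c12 : ∀ c d : cert.Lat,
    (∀ q : cert.Lat, cert.cls (cert.base q) = q → q ≤ c → q ≤ d) → c ≤ d := by decide +kernel

theorem c13 : ∀ q ∈ cert.Q, cert.cls (cert.base q) = q := by decide +kernel

end Vale.Agent.Lib.P183.W10
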