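import Vale.Agent.Lib.P183.W10Data

namespace Vale.Agent.Lib.P183.W10

open Vale.Agent.Lib.P183

theorem c11 : ∀ c p : cert.Lat, cert.cls (cert.base p) = p →
    c ≤ cert.jn c p ∧ p ≤ cert.jn c p ∧
      ∀ q : cert.Lat, cert.cls (cert.base q) = q → q ≤ cert.jn c p → q ≤ c ∨ q ≤ p ∨
        pathOK (cert.stepOK c p) cert.o (cert.path c p q) (cert.base q) = true := by
  decide +kernel

end Vale.Agent.Lib.P183.W10
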