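import Vale.Agent.Lib.P183.W10DataA
import Vale.Agent.Lib.P183.W10DataP0
import Vale.Agent.Lib.P183.W10DataP1
import Vale.Agent.Lib.P183.W10DataP2

/-!
Certificate data for a seven-element lattice (a fork and a two-element chain between a bottom and a top): a transitive permutation action on 330 points whose congruence lattice has 34 elements, with the data of the ideal-filter criterion.
-/

namespace Vale.Agent.Lib.P183.W10

open Vale.Agent.Lib.P183

/-- The certificate data. -/
def cert : FICert where
  n := 329
  m := 33
  gC := gCd0
  giC := giCd0
  labC := labCd0 ++ labCd1
  fC := fCd0 ++ fCd1 ++ fCd2
  clsC := 12562940989030651156173611039369438210921836355645065599139507848672605593908208392447475904266412536779557028507209721978721985062548346264907054921036497297436425776361267165645153486301331338192857627865323836983960000067768641516610353079937477254304961159904072585525590055091715125024725516785998701692652687820140130152056316103405055457132465221336227004871589830387180498589499209182126908625436534821451968713850145793301145044022136359103506870862783090523108184720145459130091536318831327380069367490163244450808842892895452361731211099034823283702719666192117682162618488527360225070030945470271046980001129238515910248023938908061980028029728959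691776697696400869856728725679921340845706639126602500918802726254374539380091266306497714277355198065789868795998896918327976706478361158656921113009921661854741259236496239377298181981859751658775914102607001779760034590668207206670493513442149730001202356241084845344503871784424791974460282200788082806864297208262216461345186816560086587750376590884972053749496330866927534053008581620783819349402543766153074909863863287893331320263955796764246246886257608590157657167112319730634468144128491433564830111999176288181258284921070642802253817714235766399186105376180536705475747426533537534942175753229169090264100789160417506388175339178620308933897335422369545549674666898108265826921901485587487449043052116718697924582359166385779344289043289811771655017648481195382850886037142575328435873900339735262689882374074720949701351886992328451623646897929609974795511535098478416771840385361956808763557890408038134829875200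
  dnT := [1, 3, 5, 9, 17, 33, 65, 129, 257, 513, 1025, 2049, 4097, 8193, 16385, 32769, 65537, 131093, 262211, 524291, 1049615, 2097667, 4194309, 8388649, 16777353, 33554441, 67109125, 167778633, 272697893, 541089989, 1074278451, 2181087769, 4295590275, 17179869183]
  baseT := [0, 170, 181, 329, 84, 144, 176, 173, 149, 209, 221, 2, 25, 202, 136, 75, 30, 297, 295, 179, 0, 280, 138, 125, 220, 129, 270, 61, 73, 21, 19, 17, 11, 1]
  wT := wTd0
  dAT := dATd0 ++ dATd1
  dBT := dBTd0
  dCT := dCTd0
  jT := jTd0
  pT := [pTd0r0,
    pTd1r0,
    pTd2r0,
    pTd3r0,
    pTd4r0,
    pTd5r0,
    pTd6r0,
    pTd7r0,
    pTd8r0,
    pTd9r0,
    pTd10r0,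
    pTd11r0,
    pTd12r0,
    pTd13r0,
    pTd14r0,
    pTd15r0,
    pTd16r0,
    pTd17r0,
    pTd18r0,
    pTd19r0,
    pTd20r0,
    pTd21r0,
    pTd22r0,
    pTd23r0,
    pTd24r0,
    pTd25r0,
    pTd26r0,
    pTd27r0,
    pTd28r0,
    pTd29r0,
    pTd30r0,
    pTd31r0,
    pTd32r0,
    pTd33r0]
  bI := 22
  qT := [15]

end Vale.Agent.Lib.P183.W10
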