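import Vale.Agent.Lib.P183.W10ChkA
import Vale.Agent.Lib.P183.W10ChkB
import Vale.Agent.Lib.P183.W10ChkC
import Vale.Agent.Lib.P183.Par2Defs

namespace Vale.Agent.Lib.P183.W10

open Vale.Agent.Lib.P183

instance : DecidableRel (fun x y : ForkChain => x ≤ y) :=
  fun x y => inferInstanceAs (Decidable (ForkChain.leb x y = true))

/-- The lattice element of the certificate attached to an element of `ForkChain`. -/
def emb : ForkChain → cert.Lat
  | .bot => cert.lt 0
  | .a => cert.lt 15
  | .b => cert.lt 31
  | .c => cert.lt 32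
  | .d => cert.lt 2
  | .e => cert.lt 22
  | .top => cert.lt 33

theorem c14 : ∀ x y : ForkChain, emb x ≤ emb y ↔ x ≤ y := by decide +kernel

theorem c15 : ∀ e : cert.Lat, (e ≤ cert.b ∨ ∀ q ∈ cert.Q, q ≤ e) ↔ ∃ x : ForkChain, emb x = e := by
  decide +kernel

/-- The lattice `ForkChain` is the congruence lattice of a finite unary algebra on 330 points. -/
theorem forkChain_representable : Representable ForkChain :=
  cert.representable emb c1 c2 c3 c4 c5 c6 c7 c8 c9 c10 c11 c12 c13 c14 c15

end Vale.Agent.Lib.P183.W10
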