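import Vale.Agent.Lib.P183.W22Data
import Vale.Agent.Lib.P183.ChordDefs

namespace Vale.Agent.Lib.P183.W22

open Vale.Agent.Lib.P183

instance : DecidableRel (fun a b : Chord7 => a ≤ b) :=
  fun a b => inferInstanceAs (Decidable (Chord7.leb a b = true))

/-- The lattice element of the certificate attached to an element of `Chord7`. -/
def emb : Chord7 → cert.Lat
  | .bot => cert.lt 0
  | .j1 => cert.lt 1
  | .k => cert.lt 11
  | .m2 => cert.lt 17
  | .m1 => cert.lt 10
  | .j2 => cert.lt 9
  | .top => cert.lt 21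

theorem c1 : 0 < cert.gC.length := by decide

theorem c2 : ∀ (i : Fin cert.gC.length) (x : Fin (cert.n + 1)), cert.gi i.1 (cert.g i.1 x) = x := by
  decide +kernel

theorem c3 : ∀ (c : cert.Lat) (i : Fin cert.gC.length) (x : Fin (cert.n + 1)),
    cert.lab c (cert.g i.1 x) = lk16 ((cert.fC.getD c.v.1 []).getD i.1 0) (cert.lab c x) := by
  decide +kernel

theorem c4 : ∀ x : Fin (cert.n + 1), evalW cert.g (cert.W x) cert.o = x := by decide +kernel

theorem c5 : ∀ (c : cert.Lat) (x : Fin (cert.n + 1)),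
    cert.lab c cert.o = cert.lab c x ↔ cert.cls x ≤ c := by decide +kernel

theorem c6 : ∀ x : Fin (cert.n + 1), cert.cls x ≤ cert.cls cert.o → x = cert.o := by
  decide +kernel

theorem c7 : ∀ x : Fin (cert.n + 1), cert.cls (cert.base (cert.cls x)) = cert.cls x := by
  decide +kernel

theorem c8 : ∀ x : Fin (cert.n + 1),
    cert.base (cert.cls x) ∈ runD cert.g cert.o (cert.dA x) [cert.o, x] := by decide +kernel

theorem c9 : ∀ y : Fin (cert.n + 1),
    y ∈ runD cert.g cert.o (cert.dB y) [cert.o, cert.base (cert.cls y)] := by decide +kernel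

theorem c10 : ∀ p q : cert.Lat, cert.cls (cert.base p) = p → cert.cls (cert.base q) = q → q ≤ p →
    cert.base q ∈ runD cert.g cert.o (cert.dC p q) [cert.o, cert.base p] := by decide +kernel

theorem c11 : ∀ c p : cert.Lat, cert.cls (cert.base p) = p →
    c ≤ cert.jn c p ∧ p ≤ cert.jn c p ∧
      ∀ q : cert.Lat, cert.cls (cert.base q) = q → q ≤ cert.jn c p → q ≤ c ∨ q ≤ p ∨
        pathOK (cert.stepOK c p) cert.o (cert.path c p q) (cert.base q) = true := by
  decide +kernel

theorem c12 : ∀ c d : cert.Lat,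
    (∀ q : cert.Lat, cert.cls (cert.base q) = q → q ≤ c → q ≤ d) → c ≤ d := by decide +kernel

theorem c13 : ∀ q ∈ cert.Q, cert.cls (cert.base q) = q := by decide +kernel

theorem c14 : ∀ x y : Chord7, emb x ≤ emb y ↔ x ≤ y := by decide +kernel

theorem c15 : ∀ e : cert.Lat, (e ≤ cert.b ∨ ∀ q ∈ cert.Q, q ≤ e) ↔ ∃ x : Chord7, emb x = e := by
  decide +kernel

/-- The lattice `Chord7` is the congruence lattice of a finite unary algebra on 96 points. -/
theorem chord7_representable : Representable Chord7 :=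
  cert.representable emb c1 c2 c3 c4 c5 c6 c7 c8 c9 c10 c11 c12 c13 c14 c15

end Vale.Agent.Lib.P183.W22
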