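namespace Vale.Agent.Lib.P183.Z

/-- `forceB v k = k v`; the kernel evaluates `v` once before entering `k`. -/
noncomputable def forceB (v : Nat) (k : Nat → Bool) : Bool :=
  Nat.rec (motive := fun _ => Bool) (k 0) (fun n _ => k n) (Nat.add v 1)

/-- `forceN v k = k v`; the kernel evaluates `v` once before entering `k`. -/
noncomputable def forceN (v : Nat) (k : Nat → Nat) : Nat :=
  Nat.rec (motive := fun _ => Nat) (k 0) (fun n _ => k n) (Nat.add v 1)

/-- Boolean conjunction, evaluating `b` only if `a` is true. -/
noncomputable def band (a b : Bool) : Bool := Bool.rec (motive := fun _ => Bool) false b a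

/-- Boolean disjunction, evaluating `b` only if `a` is false. -/
noncomputable def bor (a b : Bool) : Bool := Bool.rec (motive := fun _ => Bool) b true a

/-- Boolean negation. -/
noncomputable def bnot (a : Bool) : Bool := Bool.rec (motive := fun _ => Bool) true false a

/-- `bifB c a b` is `a` if `c` is true and `b` otherwise. -/
noncomputable def bifB (c a b : Bool) : Bool := Bool.rec (motive := fun _ => Bool) b a c

/-- `bifN c a b` is `a` if `c` is true and `b` otherwise. -/
noncomputable def bifN (c : Bool) (a b : Nat) : Nat := Bool.rec (motive := fun _ => Nat) b a c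

/-- Equality of two Booleans. -/
noncomputable def beqB (a b : Bool) : Bool := Bool.rec (motive := fun _ => Bool) (bnot b) b a

/-- `allBelow n P`: `P k` holds for all `k < n`. -/
noncomputable def allBelow (n : Nat) (P : Nat → Bool) : Bool :=
  Nat.rec (motive := fun _ => Bool) true
    (fun k ih => Bool.rec (motive := fun _ => Bool) false ih (P k)) n

/-- The `i`-th entry of a list of numbers (0 if out of range). -/
noncomputable def nthC (l : List Nat) (i : Nat) : Nat :=
  List.rec (motive := fun _ => Nat → Nat) (fun _ => 0)
    (fun c _ ih i => Nat.rec (motive := fun _ => Nat) c (fun j _ => ih j) i) l i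

/-- The `i`-th entry of a list of lists (empty if out of range). -/
noncomputable def nthL (l : List (List Nat)) (i : Nat) : List Nat :=
  List.rec (motive := fun _ => Nat → List Nat) (fun _ => [])
    (fun c _ ih i => Nat.rec (motive := fun _ => List Nat) c (fun j _ => ih j) i) l i

/-- The `c`-th chunk of a table stored as a list of groups of 16 chunks. -/
noncomputable def nthC2 (T : List (List Nat)) (c : Nat) : Nat :=
  nthC (nthL T (Nat.shiftRight c 4)) (Nat.land c 15)

/-- The `b`-th 16-bit field of `C`. -/
def lk16 (C b : Nat) : Nat := Nat.land (Nat.shiftRight C (Nat.mul 16 b)) 65535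

/-- The `b`-th 64-bit field of `C`. -/
def lk64 (C b : Nat) : Nat := Nat.land (Nat.shiftRight C (Nat.mul 64 b)) 18446744073709551615

/-- The `b`-th 4-bit field of `C`. -/
def lk4 (C b : Nat) : Nat := Nat.land (Nat.shiftRight C (Nat.mul 4 b)) 15

/-- Entry `r` of a table stored in chunks of 210 entries of 16 bits each. -/
noncomputable def tlk (T : List (List Nat)) (r : Nat) : Nat :=
  forceN (Nat.div r 210) fun c => lk16 (nthC2 T c) (Nat.mod r 210)

/-- Entry `r` of a table stored in chunks of 64 entries of 64 bits each. -/
noncomputable def tlk64 (T : List (List Nat)) (r : Nat) : Nat :=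
  forceN (Nat.div r 64) fun c => lk64 (nthC2 T c) (Nat.mod r 64)

/-- The operation with index `i` (indices above 2 count as 2), given the three tables. -/
noncomputable def opSel (T0 T1 T2 : List (List Nat)) (i r : Nat) : Nat :=
  Bool.rec (motive := fun _ => Nat)
    (Bool.rec (motive := fun _ => Nat) (tlk T2 r) (tlk T1 r) (Nat.beq i 1))
    (tlk T0 r) (Nat.beq i 0)

/-- Apply the word with `n` letters packed in `d` (2 bits per letter, lowest first) to `r`. -/
noncomputable def runWK (T0 T1 T2 : List (List Nat)) (n d r : Nat) : Nat :=
  Nat.rec (motive := fun _ => Nat → Nat → Nat) (fun _ r => r)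
    (fun _ ih d r => forceN d fun d => forceN (opSel T0 T1 T2 (Nat.land d 3) r) fun r' =>
      ih (Nat.shiftRight d 2) r') n d r

/-- Apply the packed word `(n, d)` to `r`, the letter 1 standing for the packed word
`(wn, wd)`. -/
noncomputable def runUK (T0 T1 T2 : List (List Nat)) (wn wd n d r : Nat) : Nat :=
  Nat.rec (motive := fun _ => Nat → Nat → Nat) (fun _ r => r)
    (fun _ ih d r => forceN d fun d => forceN (Nat.land d 3) fun l =>
      forceN (Bool.rec (motive := fun _ => Nat) (opSel T0 T1 T2 l r)
        (runWK T0 T1 T2 wn wd r) (Nat.beq l 1)) fun r' =>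
      ih (Nat.shiftRight d 2) r') n d r

/-- The compatibility check at the point `r = 210 a + b` for the operation with table `T`
(inverse table `TI`, class-image table `P`, class tables `KR`, `KT`). -/
noncomputable def k2body (T TI P KR KT : List (List Nat)) (a b : Nat) : Bool :=
  forceB (Nat.add (Nat.mul 210 a) b) fun r =>
  forceB (lk16 (nthC2 T a) b) fun r' =>
  band (Nat.blt r' 43680)
  (band (Nat.beq (tlk TI r') r)
  (band (Nat.beq (Nat.div r' 7) (tlk P (Nat.div r 7)))
  (band (Nat.beq (Nat.div r' 21) (tlk P (Nat.add 6240 (Nat.div r 21))))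
  (band (Nat.beq (tlk KR r') (tlk P (Nat.add 8320 (lk16 (nthC2 KR a) b))))
        (Nat.beq (tlk KT r') (tlk P (Nat.add 8840 (lk16 (nthC2 KT a) b))))))))

/-- The compatibility check for all `r = 210 a + b` with `a0 ≤ a < a0 + n`, `b < 210`. -/
noncomputable def k2chk (T TI P KR KT : List (List Nat)) (a0 n : Nat) : Bool :=
  allBelow n (fun a' => forceB (Nat.add a0 a') fun a =>
    allBelow 210 (fun b => k2body T TI P KR KT a b))

end Vale.Agent.Lib.P183.Z
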