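import Vale.Agent.Lib.P183.ZTab

namespace Vale.Agent.Lib.P183.Z

theorem k2_2_0 : k2chk OP2c OP2c PUSH2c KRc KTc 0 16 = true := by decide +kernel

theorem k2_2_1 : k2chk OP2c OP2c PUSH2c KRc KTc 16 16 = true := by decide +kernel

theorem k2_2_2 : k2chk OP2c OP2c PUSH2c KRc KTc 32 16 = true := by decide +kernel

theorem k2_2_3 : k2chk OP2c OP2c PUSH2c KRc KTc 48 16 = true := by decide +kernel

theorem k2_2_4 : k2chk OP2c OP2c PUSH2c KRc KTc 64 16 = true := by decide +kernel

theorem k2_2_5 : k2chk OP2c OP2c PUSH2c KRc KTc 80 16 = true := by decide +kernel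

theorem k2_2_6 : k2chk OP2c OP2c PUSH2c KRc KTc 96 16 = true := by decide +kernel

theorem k2_2_7 : k2chk OP2c OP2c PUSH2c KRc KTc 112 16 = true := by decide +kernel

theorem k2_2_8 : k2chk OP2c OP2c PUSH2c KRc KTc 128 16 = true := by decide +kernel

theorem k2_2_9 : k2chk OP2c OP2c PUSH2c KRc KTc 144 16 = true := by decide +kernel

theorem k2_2_10 : k2chk OP2c OP2c PUSH2c KRc KTc 160 16 = true := by decide +kernel

theorem k2_2_11 : k2chk OP2c OP2c PUSH2c KRc KTc 176 16 = true := by decide +kernel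

theorem k2_2_12 : k2chk OP2c OP2c PUSH2c KRc KTc 192 16 = true := by decide +kernel

end Vale.Agent.Lib.P183.Z
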