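import Vale.Agent.Lib.P183.ZTab

namespace Vale.Agent.Lib.P183.Z

theorem stab_ok : stabchk = true := by decide +kernel

theorem wb_ok : wbchk = true := by decide +kernel

theorem cross_ok : crosschk = true := by decide +kernel

theorem join_ok : joinchk = true := by decide +kernel

theorem span_ok : spanchk = true := by decide +kernel

theorem block_ok_0 : blockchk 0 16 = true := by decide +kernel

theorem block_ok_1 : blockchk 16 16 = true := by decide +kernel

theorem block_ok_2 : blockchk 32 16 = true := by decide +kernel

theorem block_ok_3 : blockchk 48 16 = true := by decide +kernel

theorem block_ok_4 : blockchk 64 16 = true := by decide +kernel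

theorem block_ok_5 : blockchk 80 16 = true := by decide +kernel

theorem block_ok_6 : blockchk 96 16 = true := by decide +kernel

theorem block_ok_7 : blockchk 112 16 = true := by decide +kernel

theorem block_ok_8 : blockchk 128 16 = true := by decide +kernel

theorem block_ok_9 : blockchk 144 16 = true := by decide +kernel

theorem block_ok_10 : blockchk 160 16 = true := by decide +kernel

theorem block_ok_11 : blockchk 176 16 = true := by decide +kernel

theorem block_ok_12 : blockchk 192 16 = true := by decide +kernel

end Vale.Agent.Lib.P183.Z
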