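import Vale.Agent.Lib.P183.ZTab

namespace Vale.Agent.Lib.P183.Z

theorem desc_ok_0 : descchk 0 16 = true := by decide +kernel

theorem desc_ok_1 : descchk 16 16 = true := by decide +kernel

theorem desc_ok_2 : descchk 32 16 = true := by decide +kernel

theorem desc_ok_3 : descchk 48 16 = true := by decide +kernel

theorem desc_ok_4 : descchk 64 16 = true := by decide +kernel

theorem desc_ok_5 : descchk 80 16 = true := by decide +kernel

theorem desc_ok_6 : descchk 96 16 = true := by decide +kernel

theorem desc_ok_7 : descchk 112 16 = true := by decide +kernel

theorem desc_ok_8 : descchk 128 16 = true := by decide +kernel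

theorem desc_ok_9 : descchk 144 16 = true := by decide +kernel

theorem desc_ok_10 : descchk 160 16 = true := by decide +kernel

theorem desc_ok_11 : descchk 176 16 = true := by decide +kernel

theorem desc_ok_12 : descchk 192 16 = true := by decide +kernel

end Vale.Agent.Lib.P183.Z
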