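import Mathlib
import Vale.Agent.Lib.P183.ZChk0
import Vale.Agent.Lib.P183.ZChk1
import Vale.Agent.Lib.P183.ZChk2
import Vale.Agent.Lib.P183.ZChkD
import Vale.Agent.Lib.P183.ZChkE

namespace Vale.Agent.Lib.P183.Z

theorem k2_0_all : ∀ k, k < 13 → k2chk OP0c INV0c PUSH0c KRc KTc (16 * k) 16 = true := by
  intro k hk
  interval_cases k
  · exact k2_0_0
  · exact k2_0_1
  · exact k2_0_2
  · exact k2_0_3
  · exact k2_0_4
  · exact k2_0_5
  · exact k2_0_6
  · exact k2_0_7
  · exact k2_0_8
  · exact k2_0_9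
  · exact k2_0_10
  · exact k2_0_11
  · exact k2_0_12

theorem k2_1_all : ∀ k, k < 13 → k2chk OP1c INV1c PUSH1c KRc KTc (16 * k) 16 = true := by
  intro k hk
  interval_cases k
  · exact k2_1_0
  · exact k2_1_1
  · exact k2_1_2
  · exact k2_1_3
  · exact k2_1_4
  · exact k2_1_5
  · exact k2_1_6
  · exact k2_1_7
  · exact k2_1_8
  · exact k2_1_9
  · exact k2_1_10
  · exact k2_1_11
  · exact k2_1_12

theorem k2_2_all : ∀ k, k < 13 → k2chk OP2c OP2c PUSH2c KRc KTc (16 * k) 16 = true := by
  intro k hk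
  interval_cases k
  · exact k2_2_0
  · exact k2_2_1
  · exact k2_2_2
  · exact k2_2_3
  · exact k2_2_4
  · exact k2_2_5
  · exact k2_2_6
  · exact k2_2_7
  · exact k2_2_8
  · exact k2_2_9
  · exact k2_2_10
  · exact k2_2_11
  · exact k2_2_12

theorem block_ok_all : ∀ k, k < 13 → blockchk (16 * k) 16 = true := by
  intro k hk
  interval_cases k
  · exact block_ok_0
  · exact block_ok_1
  · exact block_ok_2
  · exact block_ok_3
  · exact block_ok_4
  · exact block_ok_5
  · exact block_ok_6
  · exact block_ok_7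
  · exact block_ok_8
  · exact block_ok_9
  · exact block_ok_10
  · exact block_ok_11
  · exact block_ok_12

theorem desc_ok_all : ∀ k, k < 13 → descchk (16 * k) 16 = true := by
  intro k hk
  interval_cases k
  · exact desc_ok_0
  · exact desc_ok_1
  · exact desc_ok_2
  · exact desc_ok_3
  · exact desc_ok_4
  · exact desc_ok_5
  · exact desc_ok_6
  · exact desc_ok_7
  · exact desc_ok_8
  · exact desc_ok_9
  · exact desc_ok_10
  · exact desc_ok_11
  · exact desc_ok_12

end Vale.Agent.Lib.P183.Z
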