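import Vale.Agent.Lib.P183.ZMain
import Vale.Agent.Lib.P183.TransGroup

namespace Vale.Agent.Lib.P183.Z

open Vale.Agent.Lib.P183

/-- The seven-element lattice `Zigzag` is the interval above a subgroup in the subgroup lattice
of a finite group (the group generated by three permutations of 43680 points, above a point
stabiliser). -/
theorem zigzag_interval :
    ∃ (G : Type) (_ : Group G) (_ : Finite G) (H : Subgroup G),
      Nonempty (Zigzag ≃o Set.Ici H) :=
  interval_of_transitive_cert (L := Zigzag) (α := Fin 43680) gF zg_hinj
    (pt 0) zg_hstab (fun x => x.1) Ez zg_hE clsF baseF wbF zg_hwb zg_hblock zg_hclsb zg_hbot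
    zg_hdesc zg_hspan zg_hcross zg_hjoin

end Vale.Agent.Lib.P183.Z
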