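import Vale.Agent.Lib.P183.Defs

namespace Vale.Agent.Lib.P183

/-- The seven-element lattice `Z` with least element `bot`, greatest element `top` and five
further elements `p`, `s`, `q`, `r`, `t`, where `p < q`, `p < r`, `s < q` and there are no other
strict comparabilities among these five.  So `bot` is covered by `p`, `s`, `t`; `p` is covered by
`q` and `r`; `s` is covered by `q`; and `q`, `r`, `t` are covered by `top`. -/
inductive Zigzag : Type
  | bot | p | s | q | r | t | top
  deriving DecidableEq

instance Zigzag.fintype : Fintype Zigzag where
  elems := {Zigzag.bot, Zigzag.p, Zigzag.s, Zigzag.q, Zigzag.r, Zigzag.t, Zigzag.top}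
  complete := by
    intro x
    cases x <;> decide

/-- The order of `Zigzag` as a Boolean table: `bot` is least, `top` is greatest, `p < q`,
`p < r`, `s < q`, and there are no other strict comparabilities. -/
def Zigzag.leb : Zigzag → Zigzag → Bool
  | .bot, _ => true
  | _, .top => true
  | .p, .p => true
  | .p, .q => true
  | .p, .r => true
  | .s, .s => true
  | .s, .q => true
  | .q, .q => true
  | .r, .r => true
  | .t, .t => true
  | _, _ => false

instance Zigzag.order : PartialOrder Zigzag where
  le a b := Zigzag.leb a b = true
  le_refl := by decide
  le_trans := by decide
  le_antisymm := by decide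

end Vale.Agent.Lib.P183
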