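import Vale.Agent.Lib.P183.ZSpecB
import Vale.Agent.Lib.P183.ZigzagDefs

namespace Vale.Agent.Lib.P183.Z

open Vale.Agent.Lib.P183

/-- Index of an element of the lattice. -/
def idx : Zigzag → ℕ
  | .bot => 0
  | .p => 1
  | .s => 2
  | .q => 3
  | .r => 4
  | .t => 5
  | .top => 6

/-- The element of the lattice with a given index. -/
def ofIdx : ℕ → Zigzag
  | 0 => .bot
  | 1 => .p
  | 2 => .s
  | 3 => .q
  | 4 => .r
  | 5 => .t
  | _ => .top

theorem idx_lt (c : Zigzag) : idx c < 7 := by cases c <;> decide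

theorem ofIdx_idx (c : Zigzag) : ofIdx (idx c) = c := by cases c <;> rfl

theorem idx_ofIdx : ∀ n, n < 7 → idx (ofIdx n) = n := by decide

theorem le_iff (c d : Zigzag) : c ≤ d ↔ leN (idx c) (idx d) = true := by
  show Zigzag.leb c d = true ↔ leN (idx c) (idx d) = true
  cases c <;> cases d <;> decide +kernel

/-- The point with number `n` (reduced modulo 43680). -/
def pt (n : ℕ) : Fin 43680 := ⟨n % 43680, Nat.mod_lt n (by norm_num)⟩

theorem pt_val {n : ℕ} (h : n < 43680) : (pt n).1 = n := Nat.mod_eq_of_lt h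

/-- The unary operations on the points (indices above 2 repeat the last one). -/
noncomputable def gF (i : ℕ) (x : Fin 43680) : Fin 43680 := ⟨opN i x.1, (opOK i).1 x.1 x.2⟩

theorem evalW_val : ∀ (w : List ℕ) (x : Fin 43680), (evalW gF w x).1 = evalW opN w x.1
  | [], _ => rfl
  | i :: w, x => by
      show (evalW gF w (gF i x)).1 = evalW opN w (opN i x.1)
      rw [evalW_val w]
      rfl

theorem evalU_val (w : List ℕ) :
    ∀ (u : List ℕ) (x : Fin 43680), (evalU gF w u x).1 = evalU opN w u x.1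
  | [], _ => rfl
  | i :: u, x => by
      show (evalU gF w u (if i = 1 then evalW gF w x else gF i x)).1 =
        evalU opN w u (if i = 1 then evalW opN w x.1 else opN i x.1)
      rw [evalU_val w u]
      by_cases hi : i = 1
      · rw [if_pos hi, if_pos hi, evalW_val]
      · rw [if_neg hi, if_neg hi]
        rfl

/-- The equivalence relation with class index `j`: two points are related if they have the
same key. -/
noncomputable def EN (j : ℕ) : Setoid (Fin 43680) :=
  Setoid.ker (fun x : Fin 43680 => (key1 j x.1, key2 j x.1))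

theorem EN_iff (j : ℕ) (x y : Fin 43680) :
    (EN j).r x y ↔ key1 j x.1 = key1 j y.1 ∧ key2 j x.1 = key2 j y.1 := by
  show (key1 j x.1, key2 j x.1) = (key1 j y.1, key2 j y.1) ↔ _
  constructor
  · intro h
    exact ⟨congrArg Prod.fst h, congrArg Prod.snd h⟩
  · rintro ⟨h1, h2⟩
    exact Prod.ext h1 h2

theorem key1_0 (r : ℕ) : key1 0 r = r := rfl

theorem key1_1 (r : ℕ) : key1 1 r = r / 21 := rfl

theorem key1_2 (r : ℕ) : key1 2 r = r / 7 := rfl

theorem key1_3 (r : ℕ) : key1 3 r = r / 21 := rfl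

theorem key1_4 (r : ℕ) : key1 4 r = tlk KRc r := rfl

theorem key1_5 (r : ℕ) : key1 5 r = tlk KTc r := rfl

theorem key1_6 (n r : ℕ) : key1 (n + 6) r = 0 := rfl

theorem key2_0 (r : ℕ) : key2 0 r = 0 := rfl

theorem key2_1 (r : ℕ) : key2 1 r = tlk KRc r := rfl

theorem key2_2 (n r : ℕ) : key2 (n + 2) r = 0 := rfl

theorem key_compat (j i : ℕ) (r s : ℕ) (hr : r < 43680) (hs : s < 43680)
    (h1 : key1 j r = key1 j s) (h2 : key2 j r = key2 j s) :
    key1 j (opN i r) = key1 j (opN i s) ∧ key2 j (opN i r) = key2 j (opN i s) := by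
  obtain ⟨-, -, hc⟩ := opOK i
  obtain ⟨c7, c21, cR, cT⟩ := hc r s hr hs
  by_cases j0 : j = 0
  · subst j0
    rw [key1_0, key1_0] at h1
    subst h1
    exact ⟨rfl, rfl⟩
  by_cases j1 : j = 1
  · subst j1
    rw [key1_1, key1_1] at h1
    rw [key2_1, key2_1] at h2
    rw [key1_1, key1_1, key2_1, key2_1]
    exact ⟨c21 h1, cR h2⟩
  obtain ⟨n, rfl⟩ : ∃ n, j = n + 2 := ⟨j - 2, by omega⟩
  rw [key2_2, key2_2]
  refine ⟨?_, rfl⟩
  by_cases n0 : n = 0
  · subst n0
    rw [key1_2, key1_2] at h1
    rw [key1_2, key1_2]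
    exact c7 h1
  by_cases n1 : n = 1
  · subst n1
    rw [key1_3, key1_3] at h1
    rw [key1_3, key1_3]
    exact c21 h1
  by_cases n2 : n = 2
  · subst n2
    rw [key1_4, key1_4] at h1
    rw [key1_4, key1_4]
    exact cR h1
  by_cases n3 : n = 3
  · subst n3
    rw [key1_5, key1_5] at h1
    rw [key1_5, key1_5]
    exact cT h1
  obtain ⟨m, rfl⟩ : ∃ m, n = m + 4 := ⟨n - 4, by omega⟩
  rw [key1_6 m, key1_6 m]

theorem EN_compat (j i : ℕ) (x y : Fin 43680) (h : (EN j).r x y) :
    (EN j).r (gF i x) (gF i y) := by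
  rw [EN_iff] at h ⊢
  exact key_compat j i x.1 y.1 x.2 y.2 h.1 h.2

theorem key_block (r : ℕ) (hr : r < 43680) (j : ℕ) (hj : j < 7) :
    (key1 j 0 = key1 j r ∧ key2 j 0 = key2 j r) ↔ leN (clsK r) j = true := by
  obtain ⟨hcl, b0, b2, b3, b4, b5⟩ := block_all r hr
  obtain ⟨-, -, k0, t0⟩ := stab_spec
  interval_cases j
  · rw [leN_zero_iff _ hcl, ← b0, key1_0, key1_0, key2_0, key2_0]
    constructor
    · intro h; exact h.1.symm
    · intro h; exact ⟨h.symm, rfl⟩
  · rw [leN_one_iff _ hcl, ← b3, ← b4, key1_1, key1_1, key2_1, key2_1, k0]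
    constructor
    · rintro ⟨h1, h2⟩; exact ⟨by omega, h2.symm⟩
    · rintro ⟨h1, h2⟩; exact ⟨by omega, h2.symm⟩
  · rw [← b2, key1_2, key1_2, key2_2 0, key2_2 0]
    constructor
    · rintro ⟨h1, -⟩; omega
    · intro h; exact ⟨by omega, rfl⟩
  · rw [← b3, key1_3, key1_3, key2_2 1, key2_2 1]
    constructor
    · rintro ⟨h1, -⟩; omega
    · intro h; exact ⟨by omega, rfl⟩
  · rw [← b4, key1_4, key1_4, key2_2 2, key2_2 2, k0]
    constructor
    · rintro ⟨h1, -⟩; exact h1.symm
    · intro h; exact ⟨h.symm, rfl⟩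
  · rw [← b5, key1_5, key1_5, key2_2 3, key2_2 3, t0]
    constructor
    · rintro ⟨h1, -⟩; exact h1.symm
    · intro h; exact ⟨h.symm, rfl⟩
  · rw [leN_six _ hcl, key1_6 0, key1_6 0, key2_2 4, key2_2 4]
    simp

theorem keyEq_spec {i a c : ℕ} (h : keyEq i a c = true) :
    key1 i a = key1 i c ∧ key2 i a = key2 i c := by
  unfold keyEq at h
  obtain ⟨h1, h2⟩ := band_true h
  exact ⟨beq_true h1, beq_true h2⟩

theorem path_sound (i j b : ℕ) : ∀ (l : List ℕ) (a : ℕ), a < 43680 →
    pathOK i j l a b = true →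
    Relation.ReflTransGen (fun u v => (EN i).r u v ∨ (EN j).r u v) (pt a) (pt b)
  | [], a, _, h => by
      have hab : a = b := beq_true h
      subst hab
      exact Relation.ReflTransGen.refl
  | c :: cs, a, ha, h => by
      have h' : band (Nat.blt c 43680)
          (band (bor (keyEq i a c) (keyEq j a c)) (pathOK i j cs c b)) = true := h
      obtain ⟨h1, h'⟩ := band_true h'
      obtain ⟨h2, h3⟩ := band_true h'
      have hc := blt_true h1
      refine Relation.ReflTransGen.head ?_ (path_sound i j b cs c hc h3)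
      rcases bor_true h2 with h2 | h2
      · left
        rw [EN_iff, pt_val ha, pt_val hc]
        exact keyEq_spec h2
      · right
        rw [EN_iff, pt_val ha, pt_val hc]
        exact keyEq_spec h2

theorem wb_top : wordOf (wbnK 6) (wbdK 6) = [1] := by decide +kernel

theorem baseK_zero : baseK 0 = 0 := by decide +kernel

/-- The congruence attached to an element of the lattice. -/
noncomputable def Ez (c : Zigzag) : Setoid (Fin 43680) := EN (idx c)

/-- The class of a point. -/
noncomputable def clsF (x : Fin 43680) : Zigzag := ofIdx (clsK x.1)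

/-- The base point of a class. -/
def baseF (c : Zigzag) : Fin 43680 := pt (baseK (idx c))

/-- The word leading from the point 0 to the base point of a class. -/
def wbF (c : Zigzag) : List ℕ := wordOf (wbnK (idx c)) (wbdK (idx c))

theorem clsK_lt (x : Fin 43680) : clsK x.1 < 7 := (block_all x.1 x.2).1

theorem idx_clsF (x : Fin 43680) : idx (clsF x) = clsK x.1 := idx_ofIdx _ (clsK_lt x)

theorem baseF_val (c : Zigzag) : (baseF c).1 = baseK (idx c) :=
  pt_val (wb_spec (idx c) (idx_lt c)).2.2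

theorem pt_zero_val : (pt 0).1 = 0 := rfl

theorem zg_hg : ∀ i, ∃ j : Fin 3, gF i = gF j.1 := by
  -- every operation index is one of the three operations
  intro i
  by_cases h : i < 3
  · exact ⟨⟨i, h⟩, rfl⟩
  · obtain ⟨n, rfl⟩ : ∃ n, i = n + 2 := ⟨i - 2, by omega⟩
    refine ⟨⟨2, by norm_num⟩, ?_⟩
    funext x
    apply Fin.ext
    show opN (n + 2) x.1 = opN 2 x.1
    rw [opN_two n, ← opN_two 0]

theorem zg_hinj : ∀ i, Function.Injective (gF i) := by
  intro i x y h
  apply Fin.ext
  exact (opOK i).2.1 x.1 y.1 x.2 y.2 (congrArg Fin.val h)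

theorem zg_hstab : ∀ i, i ≠ 1 → gF i (pt 0) = pt 0 := by
  -- the operations other than 1 fix the point 0
  intro i hi
  apply Fin.ext
  show opN i 0 = 0
  obtain ⟨s0, s2, -, -⟩ := stab_spec
  rcases i with _ | _ | n
  · exact s0
  · exact absurd rfl hi
  · rw [opN_two n, ← opN_two 0]
    exact s2

theorem zg_hE : ∀ (c : Zigzag) (i : ℕ) (x y : Fin 43680),
    (Ez c).r x y → (Ez c).r (gF i x) (gF i y) := by
  intro c i x y h
  exact EN_compat (idx c) i x y h

theorem zg_hwb : ∀ c, evalW gF (wbF c) (pt 0) = baseF c := by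
  -- the words wb lead to the base points
  intro c
  apply Fin.ext
  rw [evalW_val, baseF_val, pt_zero_val]
  show evalW opN (wordOf (wbnK (idx c)) (wbdK (idx c))) 0 = baseK (idx c)
  rw [← runW_eq]
  exact (wb_spec (idx c) (idx_lt c)).1

theorem zg_hblock : ∀ c x, (Ez c).r (pt 0) x ↔ clsF x ≤ c := by
  intro c x
  rw [le_iff, idx_clsF]
  show (EN (idx c)).r (pt 0) x ↔ _
  rw [EN_iff, pt_zero_val]
  exact key_block x.1 x.2 (idx c) (idx_lt c)

theorem zg_hclsb : ∀ c, clsF (baseF c) = c := by
  -- the base point of a class lies in the class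
  intro c
  show ofIdx (clsK (baseF c).1) = c
  rw [baseF_val, (wb_spec (idx c) (idx_lt c)).2.1, ofIdx_idx]

theorem zg_hbot : ∀ x, clsF x ≤ clsF (pt 0) → x = pt 0 := by
  -- the class of the point 0 is the least one
  intro x hx
  rw [le_iff, idx_clsF, idx_clsF, pt_zero_val] at hx
  have h0 : clsK 0 = 0 := (block_all 0 (by norm_num)).2.1.1 rfl
  rw [h0, leN_zero_iff _ (clsK_lt x)] at hx
  apply Fin.ext
  rw [pt_zero_val]
  exact (block_all x.1 x.2).2.1.2 hx

theorem zg_hdesc : ∀ x : Fin 43680, x = baseF (clsF x) ∨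
    ∃ w u, (w = [] ∨ evalW gF w (pt 0) = x) ∧
      (((evalU gF w u x).1 < x.1 ∧ clsF (evalU gF w u x) = clsF x) ∨
        evalU gF w u x = baseF (clsF x)) := by
  intro x
  rcases desc_all x.1 x.2 with h | ⟨wn, wd, un, ud, hw, hd⟩
  · left
    apply Fin.ext
    rw [baseF_val, idx_clsF]
    exact h
  · right
    refine ⟨wordOf wn wd, wordOf un ud, ?_, ?_⟩
    · rcases hw with hw | hw
      · left
        rw [hw]
        rfl
      · right
        apply Fin.ext
        rw [evalW_val, pt_zero_val, ← runW_eq]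
        exact hw
    · have hv : (evalU gF (wordOf wn wd) (wordOf un ud) x).1 = runU wn wd un ud x.1 := by
        rw [evalU_val, ← runU_eq]
      rcases hd with ⟨h1, h2⟩ | h1
      · left
        refine ⟨?_, ?_⟩
        · show (evalU gF (wordOf wn wd) (wordOf un ud) x).1 < x.1
          rw [hv]
          exact h1
        · show ofIdx (clsK (evalU gF (wordOf wn wd) (wordOf un ud) x).1) = ofIdx (clsK x.1)
          rw [hv, h2]
      · right
        apply Fin.ext
        rw [hv, baseF_val, idx_clsF]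
        exact h1

theorem zg_hspan : ∀ y : Fin 43680, wbF (clsF y) = [1] ∨ y = pt 0 ∨
    ∃ u, evalU gF (wbF (clsF y)) u (baseF (clsF y)) = y := by
  intro y
  rcases span_all y.1 with h | h | ⟨un, ud, h⟩
  · left
    show wordOf (wbnK (idx (clsF y))) (wbdK (idx (clsF y))) = [1]
    rw [idx_clsF, h]
    exact wb_top
  · right
    left
    apply Fin.ext
    rw [pt_zero_val]
    exact h
  · right
    right
    refine ⟨wordOf un ud, ?_⟩
    apply Fin.ext
    rw [evalU_val, baseF_val]
    show evalU opN (wordOf (wbnK (idx (clsF y))) (wbdK (idx (clsF y)))) (wordOf un ud)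
      (baseK (idx (clsF y))) = y.1
    rw [idx_clsF, ← runU_eq]
    exact h

theorem zg_hcross : ∀ c c' : Zigzag, c' ≤ c → wbF c = [1] ∨ c' = c ∨ baseF c' = pt 0 ∨
    ∃ u, evalU gF (wbF c) u (baseF c) = baseF c' := by
  -- base points of smaller classes
  intro c c' hle
  rcases cross_spec (idx c) (idx_lt c) (idx c') (idx_lt c') ((le_iff c' c).1 hle) with
    h | h | h | ⟨un, ud, h⟩
  · left
    show wordOf (wbnK (idx c)) (wbdK (idx c)) = [1]
    rw [h]
    exact wb_top
  · right
    left
    rw [← ofIdx_idx c', h, ofIdx_idx]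
  · right
    right
    left
    apply Fin.ext
    rw [baseF_val, h, pt_zero_val]
    exact baseK_zero
  · right
    right
    right
    refine ⟨wordOf un ud, ?_⟩
    apply Fin.ext
    rw [evalU_val, baseF_val, baseF_val]
    show evalU opN (wordOf (wbnK (idx c)) (wbdK (idx c))) (wordOf un ud) (baseK (idx c)) =
      baseK (idx c')
    rw [← runU_eq]
    exact h

theorem zg_hjoin : ∀ c d : Zigzag, ∃ e, c ≤ e ∧ d ≤ e ∧ (e = c ∨ e = d ∨
    Relation.ReflTransGen (fun u v => (Ez c).r u v ∨ (Ez d).r u v) (pt 0) (baseF e)) := by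
  intro c d
  obtain ⟨h1, h2, h3⟩ := join_spec (idx c) (idx_lt c) (idx d) (idx_lt d)
  have hlt := joinN_lt (idx c) (idx_lt c) (idx d) (idx_lt d)
  have hidx : idx (ofIdx (joinN (idx c) (idx d))) = joinN (idx c) (idx d) := idx_ofIdx _ hlt
  refine ⟨ofIdx (joinN (idx c) (idx d)), ?_, ?_, ?_⟩
  · rw [le_iff, hidx]
    exact h1
  · rw [le_iff, hidx]
    exact h2
  · rcases h3 with h3 | h3 | h3
    · left
      rw [h3, ofIdx_idx]
    · right
      left
      rw [h3, ofIdx_idx]
    · right
      right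
      show Relation.ReflTransGen (fun u v => (EN (idx c)).r u v ∨ (EN (idx d)).r u v) (pt 0)
        (pt (baseK (idx (ofIdx (joinN (idx c) (idx d))))))
      rw [hidx]
      exact path_sound (idx c) (idx d) _ _ 0 (by norm_num) h3

/-- The seven-element lattice `Zigzag` is the congruence lattice of a finite algebra (with
43680 elements and three unary operations). -/
theorem zigzag_representable : Representable Zigzag := by
  haveI : Nonempty (Fin 43680) := ⟨pt 0⟩
  exact representable_of_transitive_cert (L := Zigzag) (α := Fin 43680) 3 gF zg_hg zg_hinj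
    (pt 0) zg_hstab (fun x => x.1) Ez zg_hE clsF baseF wbF zg_hwb zg_hblock zg_hclsb zg_hbot
    zg_hdesc zg_hspan zg_hcross zg_hjoin

end Vale.Agent.Lib.P183.Z
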