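import Vale.Agent.Lib.P183.ZComb

namespace Vale.Agent.Lib.P183.Z

theorem forceB_eq (v : ℕ) (k : ℕ → Bool) : forceB v k = k v := rfl

theorem forceN_eq (v : ℕ) (k : ℕ → ℕ) : forceN v k = k v := rfl

theorem band_true {a b : Bool} (h : band a b = true) : a = true ∧ b = true := by
  cases a
  · exact (Bool.false_ne_true h).elim
  · exact ⟨rfl, h⟩

theorem bor_true {a b : Bool} (h : bor a b = true) : a = true ∨ b = true := by
  cases a
  · exact Or.inr h
  · exact Or.inl rfl

theorem bnot_true {a : Bool} (h : bnot a = true) : a = false := by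
  cases a
  · rfl
  · exact absurd h (by decide)

theorem bifB_true {c a b : Bool} (h : bifB c a b = true) :
    (c = true ∧ a = true) ∨ (c = false ∧ b = true) := by
  cases c
  · exact Or.inr ⟨rfl, h⟩
  · exact Or.inl ⟨rfl, h⟩

theorem beqB_true {a b : Bool} (h : beqB a b = true) : (a = true ↔ b = true) := by
  cases a <;> cases b
  · exact Iff.rfl
  · exact absurd h (by decide)
  · exact absurd h (by decide)
  · exact Iff.rfl

theorem bifN_true (a b : ℕ) : bifN true a b = a := rfl

theorem bifN_false (a b : ℕ) : bifN false a b = b := rfl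

theorem beq_true {a b : ℕ} (h : Nat.beq a b = true) : a = b := Nat.eq_of_beq_eq_true h

theorem beq_false {a b : ℕ} (h : Nat.beq a b = false) : a ≠ b := Nat.ne_of_beq_eq_false h

theorem beq_iff (a b : ℕ) : Nat.beq a b = true ↔ a = b :=
  ⟨beq_true, fun h => by rw [h]; exact Nat.beq_refl b⟩

theorem blt_true {a b : ℕ} (h : Nat.blt a b = true) : a < b := Nat.le_of_ble_eq_true h

theorem ble_true {a b : ℕ} (h : Nat.ble a b = true) : a ≤ b := Nat.le_of_ble_eq_true h

theorem ble_false {a b : ℕ} (h : Nat.ble a b = false) : b < a := by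
  by_contra hc
  have h2 : Nat.ble a b = true := Nat.ble_eq_true_of_le (by omega)
  rw [h] at h2
  exact absurd h2 (by decide)

theorem allBelow_spec (P : ℕ → Bool) : ∀ n, allBelow n P = true → ∀ k, k < n → P k = true := by
  intro n
  induction n with
  | zero => intro _ k hk; omega
  | succ n ih =>
    intro h k hk
    have h' : Bool.rec (motive := fun _ => Bool) false (allBelow n P) (P n) = true := h
    have h1 : P n = true ∧ allBelow n P = true := by
      cases hp : P n
      · rw [hp] at h'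
        exact (Bool.false_ne_true h').elim
      · rw [hp] at h'
        exact ⟨rfl, h'⟩
    rcases Nat.lt_succ_iff_lt_or_eq.1 hk with hlt | heq
    · exact ih h1.2 k hlt
    · rw [heq]; exact h1.1

theorem tlk_eq (T : List (List ℕ)) (r : ℕ) :
    tlk T r = lk16 (nthC2 T (r / 210)) (r % 210) := rfl

theorem tlk_seq (T : List (List ℕ)) (a b : ℕ) (hb : b < 210) :
    lk16 (nthC2 T a) b = tlk T (210 * a + b) := by
  rw [tlk_eq]
  have h1 : (210 * a + b) / 210 = a := by omega
  have h2 : (210 * a + b) % 210 = b := by omega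
  rw [h1, h2]

/-- What the compatibility check says about the operation with table `T`. -/
def K2Spec (T TI P : List (List ℕ)) (r : ℕ) : Prop :=
  tlk T r < 43680 ∧ tlk TI (tlk T r) = r ∧ tlk T r / 7 = tlk P (r / 7) ∧
    tlk T r / 21 = tlk P (6240 + r / 21) ∧
    tlk KRc (tlk T r) = tlk P (8320 + tlk KRc r) ∧
    tlk KTc (tlk T r) = tlk P (8840 + tlk KTc r)

theorem k2body_spec (T TI P : List (List ℕ)) (a b : ℕ) (hb : b < 210)
    (h : k2body T TI P KRc KTc a b = true) : K2Spec T TI P (210 * a + b) := by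
  unfold k2body at h
  rw [forceB_eq, forceB_eq] at h
  obtain ⟨h1, h⟩ := band_true h
  obtain ⟨h2, h⟩ := band_true h
  obtain ⟨h3, h⟩ := band_true h
  obtain ⟨h4, h⟩ := band_true h
  obtain ⟨h5, h6⟩ := band_true h
  rw [tlk_seq T a b hb] at h1 h2 h3 h4 h5 h6
  rw [tlk_seq KRc a b hb] at h5
  rw [tlk_seq KTc a b hb] at h6
  exact ⟨blt_true h1, beq_true h2, beq_true h3, beq_true h4, beq_true h5, beq_true h6⟩

theorem k2chk_spec (T TI P : List (List ℕ)) (a0 n : ℕ) (h : k2chk T TI P KRc KTc a0 n = true) :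
    ∀ r, 210 * a0 ≤ r → r < 210 * (a0 + n) → K2Spec T TI P r := by
  intro r h1 h2
  unfold k2chk at h
  have ha := allBelow_spec _ n h (r / 210 - a0) (by omega)
  rw [forceB_eq] at ha
  have hb := allBelow_spec _ 210 ha (r % 210) (by omega)
  have hr : (a0 + (r / 210 - a0)) = r / 210 := by omega
  have hb' : k2body T TI P KRc KTc (r / 210) (r % 210) = true := by
    rw [← hr]; exact hb
  have := k2body_spec T TI P (r / 210) (r % 210) (by omega) hb'
  have hr2 : 210 * (r / 210) + r % 210 = r := by omega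
  rw [hr2] at this
  exact this

theorem k2_all (T TI P : List (List ℕ))
    (h : ∀ k, k < 13 → k2chk T TI P KRc KTc (16 * k) 16 = true) :
    ∀ r, r < 43680 → K2Spec T TI P r := by
  intro r hr
  exact k2chk_spec T TI P (16 * (r / 3360)) 16 (h (r / 3360) (by omega)) r (by omega) (by omega)

/-- The operation `f` maps the points to points, is injective, and respects the four
key functions. -/
def OpOK (f : ℕ → ℕ) : Prop :=
  (∀ r, r < 43680 → f r < 43680) ∧
  (∀ r s, r < 43680 → s < 43680 → f r = f s → r = s) ∧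
  (∀ r s, r < 43680 → s < 43680 →
    (r / 7 = s / 7 → f r / 7 = f s / 7) ∧ (r / 21 = s / 21 → f r / 21 = f s / 21) ∧
    (tlk KRc r = tlk KRc s → tlk KRc (f r) = tlk KRc (f s)) ∧
    (tlk KTc r = tlk KTc s → tlk KTc (f r) = tlk KTc (f s)))

theorem opOK_of_k2 (T TI P : List (List ℕ)) (h : ∀ r, r < 43680 → K2Spec T TI P r) :
    OpOK (tlk T) := by
  refine ⟨fun r hr => (h r hr).1, ?_, ?_⟩
  · intro r s hr hs he
    have h1 := (h r hr).2.1
    have h2 := (h s hs).2.1
    rw [he] at h1
    rw [← h1, h2]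
  · intro r s hr hs
    obtain ⟨-, -, a1, a2, a3, a4⟩ := h r hr
    obtain ⟨-, -, b1, b2, b3, b4⟩ := h s hs
    refine ⟨?_, ?_, ?_, ?_⟩
    · intro he; rw [a1, b1, he]
    · intro he; rw [a2, b2, he]
    · intro he; rw [a3, b3, he]
    · intro he; rw [a4, b4, he]

theorem opN_zero : opN 0 = tlk OP0c := rfl

theorem opN_one : opN 1 = tlk OP1c := rfl

theorem opN_two (n : ℕ) : opN (n + 2) = tlk OP2c := rfl

theorem opOK (i : ℕ) : OpOK (opN i) := by
  rcases i with _ | _ | n
  · rw [opN_zero]; exact opOK_of_k2 OP0c INV0c PUSH0c (k2_all _ _ _ k2_0_all)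
  · rw [opN_one]; exact opOK_of_k2 OP1c INV1c PUSH1c (k2_all _ _ _ k2_1_all)
  · rw [opN_two]; exact opOK_of_k2 OP2c OP2c PUSH2c (k2_all _ _ _ k2_2_all)

end Vale.Agent.Lib.P183.Z
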