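import Vale.Agent.Lib.P183.Trans
import Vale.Agent.Lib.P183.ZSpecA

namespace Vale.Agent.Lib.P183.Z

open Vale.Agent.Lib.P183

/-- The list of letters of the packed word with `n` letters and digits `d`. -/
def wordOf : ℕ → ℕ → List ℕ
  | 0, _ => []
  | n + 1, d => Nat.land d 3 :: wordOf n (Nat.shiftRight d 2)

theorem runW_succ (n d r : ℕ) :
    runW (n + 1) d r = runW n (Nat.shiftRight d 2) (opN (Nat.land d 3) r) := rfl

theorem runW_eq : ∀ n d r, runW n d r = evalW opN (wordOf n d) r
  | 0, _, _ => rfl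
  | n + 1, d, r => by
      rw [runW_succ, runW_eq n]
      rfl

theorem brec_beq (A B : ℕ) (l : ℕ) :
    Bool.rec (motive := fun _ => ℕ) A B (Nat.beq l 1) = if l = 1 then B else A := by
  by_cases h : l = 1
  · subst h; rfl
  · rw [if_neg h]
    have hb : Nat.beq l 1 = false := by
      cases hb : Nat.beq l 1
      · rfl
      · exact absurd (beq_true hb) h
    rw [hb]

theorem runU_succ (wn wd n d r : ℕ) : runU wn wd (n + 1) d r =
    runU wn wd n (Nat.shiftRight d 2)
      (Bool.rec (motive := fun _ => ℕ) (opN (Nat.land d 3) r) (runW wn wd r)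
        (Nat.beq (Nat.land d 3) 1)) := rfl

theorem runU_eq (wn wd : ℕ) :
    ∀ n d r, runU wn wd n d r = evalU opN (wordOf wn wd) (wordOf n d) r
  | 0, _, _ => rfl
  | n + 1, d, r => by
      rw [runU_succ, runU_eq wn wd n, brec_beq, runW_eq]
      rfl

theorem clsK_ge (r : ℕ) (h : 798 ≤ r) : clsK r = 6 := by
  unfold clsK
  rw [Nat.ble_eq_true_of_le h]
  rfl

theorem add_mul_eq (a b : ℕ) : Nat.add (Nat.mul 210 a) b = 210 * a + b := rfl

/-- The descent statement at the point `r`. -/
def DescSpec (r : ℕ) : Prop :=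
  r = baseK (clsK r) ∨ ∃ wn wd un ud, (wn = 0 ∨ runW wn wd 0 = r) ∧
    ((runU wn wd un ud r < r ∧ clsK (runU wn wd un ud r) = clsK r) ∨
      runU wn wd un ud r = baseK (clsK r))

theorem finK_spec {r cl bs r2 : ℕ} (h : finK r cl bs r2 = true) :
    (r2 < r ∧ clsK r2 = cl) ∨ r2 = bs := by
  unfold finK at h
  rw [forceB_eq] at h
  rcases bor_true h with h | h
  · obtain ⟨h1, h2⟩ := band_true h
    exact Or.inl ⟨blt_true h1, beq_true h2⟩
  · exact Or.inr (beq_true h)

theorem descbody_spec (a b : ℕ) (h : descbody a b = true) : DescSpec (210 * a + b) := by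
  unfold descbody at h
  rw [forceB_eq, forceB_eq, forceB_eq, add_mul_eq] at h
  rcases bor_true h with h | h
  · exact Or.inl (beq_true h)
  · rw [forceB_eq] at h
    rcases bifB_true h with ⟨-, h⟩ | ⟨-, h⟩
    · exact Or.inr ⟨0, 0, _, _, Or.inl rfl, finK_spec h⟩
    · rw [forceB_eq, forceB_eq, forceB_eq] at h
      obtain ⟨h1, h2⟩ := band_true h
      exact Or.inr ⟨_, _, _, _, Or.inr (beq_true h1), finK_spec h2⟩

theorem descchk_spec (a0 n : ℕ) (h : descchk a0 n = true) :
    ∀ r, 210 * a0 ≤ r → r < 210 * (a0 + n) → DescSpec r := by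
  intro r h1 h2
  unfold descchk at h
  have ha := allBelow_spec _ n h (r / 210 - a0) (by omega)
  rw [forceB_eq] at ha
  have hb := allBelow_spec _ 210 ha (r % 210) (by omega)
  have hr : Nat.add a0 (r / 210 - a0) = r / 210 := by
    show a0 + (r / 210 - a0) = r / 210
    omega
  rw [hr] at hb
  have := descbody_spec (r / 210) (r % 210) hb
  have hr2 : 210 * (r / 210) + r % 210 = r := by omega
  rw [hr2] at this
  exact this

theorem desc_all : ∀ r, r < 43680 → DescSpec r := by
  intro r hr
  exact descchk_spec (16 * (r / 3360)) 16 (desc_ok_all (r / 3360) (by omega)) r (by omega)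
    (by omega)

/-- The block statement at the point `r`. -/
def BlockSpec (r : ℕ) : Prop :=
  clsK r < 7 ∧ (r = 0 ↔ clsK r = 0) ∧ (r / 7 = 0 ↔ leN (clsK r) 2 = true) ∧
    (r / 21 = 0 ↔ leN (clsK r) 3 = true) ∧ (tlk KRc r = 0 ↔ leN (clsK r) 4 = true) ∧
    (tlk KTc r = 0 ↔ leN (clsK r) 5 = true)

theorem leN_six_false : leN 6 2 = false ∧ leN 6 3 = false ∧ leN 6 4 = false ∧
    leN 6 5 = false := by decide +kernel

theorem blockbody_spec (a b : ℕ) (hb : b < 210) (h : blockbody a b = true) :
    BlockSpec (210 * a + b) := by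
  unfold blockbody at h
  rw [forceB_eq, add_mul_eq, tlk_seq KRc a b hb, tlk_seq KTc a b hb] at h
  rcases bifB_true h with ⟨hc, h⟩ | ⟨-, h⟩
  · have hr : 798 ≤ 210 * a + b := ble_true hc
    obtain ⟨h1, h2⟩ := band_true h
    have h1' := beq_false (bnot_true h1)
    have h2' := beq_false (bnot_true h2)
    have hcl : clsK (210 * a + b) = 6 := clsK_ge _ hr
    obtain ⟨e2, e3, e4, e5⟩ := leN_six_false
    unfold BlockSpec
    rw [hcl, e2, e3, e4, e5]
    refine ⟨by norm_num, ?_, ?_, ?_, ?_, ?_⟩
    · constructor <;> intro h <;> omega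
    · constructor
      · intro h; omega
      · intro h; exact absurd h (by decide)
    · constructor
      · intro h; omega
      · intro h; exact absurd h (by decide)
    · constructor
      · intro h; exact absurd h h1'
      · intro h; exact absurd h (by decide)
    · constructor
      · intro h; exact absurd h h2'
      · intro h; exact absurd h (by decide)
  · rw [forceB_eq] at h
    obtain ⟨h1, h⟩ := band_true h
    obtain ⟨h2, h⟩ := band_true h
    obtain ⟨h3, h⟩ := band_true h
    obtain ⟨h4, h⟩ := band_true h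
    obtain ⟨h5, h6⟩ := band_true h
    exact ⟨blt_true h6, (beq_iff _ _).symm.trans ((beqB_true h1).trans (beq_iff _ _)),
      (beq_iff _ _).symm.trans (beqB_true h2), (beq_iff _ _).symm.trans (beqB_true h3),
      (beq_iff _ _).symm.trans (beqB_true h4), (beq_iff _ _).symm.trans (beqB_true h5)⟩

theorem blockchk_spec (a0 n : ℕ) (h : blockchk a0 n = true) :
    ∀ r, 210 * a0 ≤ r → r < 210 * (a0 + n) → BlockSpec r := by
  intro r h1 h2
  unfold blockchk at h
  have ha := allBelow_spec _ n h (r / 210 - a0) (by omega)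
  rw [forceB_eq] at ha
  have hb := allBelow_spec _ 210 ha (r % 210) (by omega)
  have hr : Nat.add a0 (r / 210 - a0) = r / 210 := by
    show a0 + (r / 210 - a0) = r / 210
    omega
  rw [hr] at hb
  have := blockbody_spec (r / 210) (r % 210) (by omega) hb
  have hr2 : 210 * (r / 210) + r % 210 = r := by omega
  rw [hr2] at this
  exact this

theorem block_all : ∀ r, r < 43680 → BlockSpec r := by
  intro r hr
  exact blockchk_spec (16 * (r / 3360)) 16 (block_ok_all (r / 3360) (by omega)) r (by omega)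
    (by omega)

/-- The spanning statement at the point `r`. -/
def SpanSpec (r : ℕ) : Prop :=
  clsK r = 6 ∨ r = 0 ∨
    ∃ un ud, runU (wbnK (clsK r)) (wbdK (clsK r)) un ud (baseK (clsK r)) = r

theorem spanbody_spec (r : ℕ) (h : spanbody r = true) : SpanSpec r := by
  unfold spanbody at h
  rw [forceB_eq] at h
  rcases bor_true h with h | h
  · exact Or.inl (beq_true h)
  · rcases bor_true h with h | h
    · exact Or.inr (Or.inl (beq_true h))
    · rw [forceB_eq, forceB_eq, forceB_eq, forceB_eq] at h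
      exact Or.inr (Or.inr ⟨_, _, beq_true h⟩)

theorem span_all : ∀ r, SpanSpec r := by
  intro r
  by_cases h : r < 798
  · have h1 := span_ok
    unfold spanchk at h1
    exact spanbody_spec r (allBelow_spec _ 798 h1 r h)
  · exact Or.inl (clsK_ge r (by omega))

theorem stab_spec : opN 0 0 = 0 ∧ opN 2 0 = 0 ∧ tlk KRc 0 = 0 ∧ tlk KTc 0 = 0 := by
  have h := stab_ok
  unfold stabchk at h
  obtain ⟨h1, h⟩ := band_true h
  obtain ⟨h2, h⟩ := band_true h
  obtain ⟨h3, h4⟩ := band_true h
  exact ⟨beq_true h1, beq_true h2, beq_true h3, beq_true h4⟩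

theorem wb_spec : ∀ i, i < 7 →
    runW (wbnK i) (wbdK i) 0 = baseK i ∧ clsK (baseK i) = i ∧ baseK i < 43680 := by
  intro i hi
  have h := wb_ok
  unfold wbchk at h
  have h1 := allBelow_spec _ 7 h i hi
  obtain ⟨a1, h1⟩ := band_true h1
  obtain ⟨a2, a3⟩ := band_true h1
  exact ⟨beq_true a1, beq_true a2, blt_true a3⟩

theorem cross_spec : ∀ i, i < 7 → ∀ j, j < 7 → leN j i = true →
    i = 6 ∨ j = i ∨ j = 0 ∨ ∃ un ud, runU (wbnK i) (wbdK i) un ud (baseK i) = baseK j := by
  intro i hi j hj hle
  have h := cross_ok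
  unfold crosschk at h
  have h1 := allBelow_spec _ 7 (allBelow_spec _ 7 h i hi) j hj
  rcases bor_true h1 with h1 | h1
  · rw [bnot_true h1] at hle
    exact absurd hle (by decide)
  · rcases bor_true h1 with h1 | h1
    · exact Or.inl (beq_true h1)
    · rcases bor_true h1 with h1 | h1
      · exact Or.inr (Or.inl (beq_true h1))
      · rcases bor_true h1 with h1 | h1
        · exact Or.inr (Or.inr (Or.inl (beq_true h1)))
        · exact Or.inr (Or.inr (Or.inr ⟨_, _, beq_true h1⟩))

theorem join_spec : ∀ i, i < 7 → ∀ j, j < 7 →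
    leN i (joinN i j) = true ∧ leN j (joinN i j) = true ∧
    (joinN i j = i ∨ joinN i j = j ∨
      pathOK i j (nthL PATHSv (Nat.add (Nat.mul 7 i) j)) 0 (baseK (joinN i j)) = true) := by
  intro i hi j hj
  have h := join_ok
  unfold joinchk at h
  have h1 := allBelow_spec _ 7 (allBelow_spec _ 7 h i hi) j hj
  rw [forceB_eq] at h1
  obtain ⟨a1, h1⟩ := band_true h1
  obtain ⟨a2, h1⟩ := band_true h1
  refine ⟨a1, a2, ?_⟩
  rcases bor_true h1 with h1 | h1
  · exact Or.inl (beq_true h1)
  · rcases bor_true h1 with h1 | h1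
    · exact Or.inr (Or.inl (beq_true h1))
    · exact Or.inr (Or.inr h1)

theorem joinN_lt : ∀ i, i < 7 → ∀ j, j < 7 → joinN i j < 7 := by decide +kernel

theorem leN_zero_iff : ∀ cl, cl < 7 → (leN cl 0 = true ↔ cl = 0) := by decide +kernel

theorem leN_one_iff : ∀ cl, cl < 7 →
    (leN cl 1 = true ↔ (leN cl 3 = true ∧ leN cl 4 = true)) := by decide +kernel

theorem leN_six : ∀ cl, cl < 7 → leN cl 6 = true := by decide +kernel

end Vale.Agent.Lib.P183.Z
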