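import Vale.Agent.Lib.P183.ZBase
import Vale.Agent.Lib.P183.ZData0
import Vale.Agent.Lib.P183.ZData1
import Vale.Agent.Lib.P183.ZData2
import Vale.Agent.Lib.P183.ZDataK

namespace Vale.Agent.Lib.P183.Z

/-- The class index (0 to 6) of the point `r`. -/
noncomputable def clsK (r : Nat) : Nat := bifN (Nat.ble 798 r) 6 (lk4 CLSv r)

/-- The base point of the class with index `cl`. -/
def baseK (cl : Nat) : Nat := lk16 BASEv cl

/-- Length of the packed word leading from the point 0 to the base point of class `cl`. -/
def wbnK (cl : Nat) : Nat := lk16 WBNv cl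

/-- Letters of the packed word leading from the point 0 to the base point of class `cl`. -/
def wbdK (cl : Nat) : Nat := lk64 WBDv cl

/-- The order of the seven-element lattice on the indices 0 to 6, as a bit table. -/
def leN (a b : Nat) : Bool :=
  Nat.beq (Nat.land (Nat.shiftRight LEv (Nat.add (Nat.mul 7 a) b)) 1) 1

/-- The join of two class indices. -/
def joinN (a b : Nat) : Nat := lk4 JOINv (Nat.add (Nat.mul 7 a) b)

/-- The operation with index `i` on the points `0, ..., 43679`. -/
noncomputable def opN (i r : Nat) : Nat := opSel OP0c OP1c OP2c i r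

/-- Apply a packed word to a point. -/
noncomputable def runW (n d r : Nat) : Nat := runWK OP0c OP1c OP2c n d r

/-- Apply a packed word in which the letter 1 stands for the packed word `(wn, wd)`. -/
noncomputable def runU (wn wd n d r : Nat) : Nat := runUK OP0c OP1c OP2c wn wd n d r

/-- End condition of a descent step from `r` (class `cl`, class base `bs`) to `r2`. -/
noncomputable def finK (r cl bs r2 : Nat) : Bool :=
  forceB r2 fun r2 => bor (band (Nat.blt r2 r) (Nat.beq (clsK r2) cl)) (Nat.beq r2 bs)

/-- The descent check at the point `r = 210 a + b`. -/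
noncomputable def descbody (a b : Nat) : Bool :=
  forceB (Nat.add (Nat.mul 210 a) b) fun r =>
  forceB (clsK r) fun cl =>
  forceB (baseK cl) fun bs =>
  bor (Nat.beq r bs)
  (forceB (lk16 (nthC2 HTc a) b) fun h =>
   bifB (Nat.blt h 32768)
     (finK r cl bs (runU 0 0 (Nat.land h 7) (Nat.shiftRight h 3) r))
     (forceB (tlk64 HBc (Nat.sub h 32768)) fun rc =>
      forceB (Nat.land rc 31) fun wn =>
      forceB (Nat.shiftRight rc 10) fun wd =>
      band (Nat.beq (runW wn wd 0) r)
           (finK r cl bs (runU wn wd (Nat.land (Nat.shiftRight rc 5) 31)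
             (Nat.shiftRight rc 44) r))))

/-- The descent check for all `r = 210 a + b` with `a0 ≤ a < a0 + n`, `b < 210`. -/
noncomputable def descchk (a0 n : Nat) : Bool :=
  allBelow n (fun a' => forceB (Nat.add a0 a') fun a => allBelow 210 (fun b => descbody a b))

/-- The block check at the point `r = 210 a + b`. -/
noncomputable def blockbody (a b : Nat) : Bool :=
  forceB (Nat.add (Nat.mul 210 a) b) fun r =>
  bifB (Nat.ble 798 r)
    (band (bnot (Nat.beq (lk16 (nthC2 KRc a) b) 0)) (bnot (Nat.beq (lk16 (nthC2 KTc a) b) 0)))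
    (forceB (clsK r) fun cl =>
      band (beqB (Nat.beq r 0) (Nat.beq cl 0))
      (band (beqB (Nat.beq (Nat.div r 7) 0) (leN cl 2))
      (band (beqB (Nat.beq (Nat.div r 21) 0) (leN cl 3))
      (band (beqB (Nat.beq (lk16 (nthC2 KRc a) b) 0) (leN cl 4))
      (band (beqB (Nat.beq (lk16 (nthC2 KTc a) b) 0) (leN cl 5)) (Nat.blt cl 7))))))

/-- The block check for all `r = 210 a + b` with `a0 ≤ a < a0 + n`, `b < 210`. -/
noncomputable def blockchk (a0 n : Nat) : Bool :=
  allBelow n (fun a' => forceB (Nat.add a0 a') fun a => allBelow 210 (fun b => blockbody a b))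

/-- The spanning check at the point `r`. -/
noncomputable def spanbody (r : Nat) : Bool :=
  forceB (clsK r) fun cl =>
  bor (Nat.beq cl 6) (bor (Nat.beq r 0)
    (forceB (tlk SPc r) fun h => forceB (wbnK cl) fun wn => forceB (wbdK cl) fun wd =>
     forceB (baseK cl) fun bs =>
      Nat.beq (runU wn wd (Nat.land h 7) (Nat.shiftRight h 3) bs) r))

/-- The spanning check for all points below 798. -/
noncomputable def spanchk : Bool := allBelow 798 spanbody

/-- First component of the key of the point `r` for the class index `i`. -/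
noncomputable def key1 (i r : Nat) : Nat :=
  bifN (Nat.beq i 0) r (bifN (Nat.beq i 1) (Nat.div r 21) (bifN (Nat.beq i 2) (Nat.div r 7)
    (bifN (Nat.beq i 3) (Nat.div r 21) (bifN (Nat.beq i 4) (tlk KRc r)
      (bifN (Nat.beq i 5) (tlk KTc r) 0)))))

/-- Second component of the key of the point `r` for the class index `i`. -/
noncomputable def key2 (i r : Nat) : Nat := bifN (Nat.beq i 1) (tlk KRc r) 0

/-- The points `a` and `c` have the same key for the class index `i`. -/
noncomputable def keyEq (i a c : Nat) : Bool :=
  band (Nat.beq (key1 i a) (key1 i c)) (Nat.beq (key2 i a) (key2 i c))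

/-- `a :: l` is a chain of points ending in `b` whose consecutive members have the same
key for `i` or for `j`. -/
noncomputable def pathOK (i j : Nat) (l : List Nat) (a b : Nat) : Bool :=
  List.rec (motive := fun _ => Nat → Bool) (fun a => Nat.beq a b)
    (fun c _ ih a => band (Nat.blt c 43680)
      (band (bor (keyEq i a c) (keyEq j a c)) (ih c))) l a

/-- Fixed points, key values at 0. -/
noncomputable def stabchk : Bool :=
  band (Nat.beq (opN 0 0) 0) (band (Nat.beq (opN 2 0) 0)
    (band (Nat.beq (tlk KRc 0) 0) (Nat.beq (tlk KTc 0) 0)))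

/-- The words `wb` lead to the base points, which lie in their classes. -/
noncomputable def wbchk : Bool :=
  allBelow 7 (fun i => band (Nat.beq (runW (wbnK i) (wbdK i) 0) (baseK i))
    (band (Nat.beq (clsK (baseK i)) i) (Nat.blt (baseK i) 43680)))

/-- From the base point of a class one reaches the base points of the classes below. -/
noncomputable def crosschk : Bool :=
  allBelow 7 (fun i => allBelow 7 (fun j =>
    bor (bnot (leN j i)) (bor (Nat.beq i 6) (bor (Nat.beq j i) (bor (Nat.beq j 0)
      (Nat.beq (runU (wbnK i) (wbdK i) (lk16 CRNv (Nat.add (Nat.mul 7 i) j))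
        (lk64 CRDv (Nat.add (Nat.mul 7 i) j)) (baseK i)) (baseK j)))))))

/-- Joins: upper bounds and connecting chains. -/
noncomputable def joinchk : Bool :=
  allBelow 7 (fun i => allBelow 7 (fun j => forceB (joinN i j) fun e =>
    band (leN i e) (band (leN j e) (bor (Nat.beq e i) (bor (Nat.beq e j)
      (pathOK i j (nthL PATHSv (Nat.add (Nat.mul 7 i) j)) 0 (baseK e)))))))

end Vale.Agent.Lib.P183.Z
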